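import Vale.Agent.P146.H93.Tl0
import Vale.Agent.P146.H325.Sk

/-!
# P146: the SK model with `K` levels of bonds and white fields (helper93)

Coordinates `(Pair n ⊕ Fin n) × Fin K`; the coordinate `(e, l)` has the level `l + 1`; the bond
`p` of the level `l` has the coefficient `b l * SkS p x`, the field of the site `i` of the level
`l` has the coefficient `w l * sp x i` (levels `1, …, K`).
-/

open MeasureTheory ProbabilityTheory

namespace Vale.Agent.P146.H93

open Vale.Agent.P157 Vale.Agent.P157.Lv Vale.Agent.P157.Lv.Sy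
open Vale.Agent.P146.H425 Vale.Agent.P146.H325

set_option linter.unusedSectionVars false

/-- the coordinates -/
abbrev Cd (n K : ℕ) : Type := (Pair n ⊕ Fin n) × Fin K

variable {n K : ℕ}

/-- the statistic of a bond or of a site -/
def st (e : Pair n ⊕ Fin n) (x : Fin n → ℤˣ) : ℝ :=
  match e with
  | Sum.inl p => SkS p x
  | Sum.inr i => sp x i

/-- the amplitude -/
def am (b w : ℕ → ℝ) (e : Pair n ⊕ Fin n) (l : ℕ) : ℝ :=
  match e with
  | Sum.inl _ => b l
  | Sum.inr _ => w l

/-- the coefficients of the SK model -/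
def aSK (n K : ℕ) (b w : ℕ → ℝ) (x : Fin n → ℤˣ) (e : Cd n K) : ℝ :=
  am b w e.1 (e.2 + 1) * st e.1 x

@[simp] lemma aSK_inl (b w : ℕ → ℝ) (x : Fin n → ℤˣ) (p : Pair n) (l : Fin K) :
    aSK n K b w x (Sum.inl p, l) = b (l + 1) * SkS p x := rfl

@[simp] lemma aSK_inr (b w : ℕ → ℝ) (x : Fin n → ℤˣ) (i : Fin n) (l : Fin K) :
    aSK n K b w x (Sum.inr i, l) = w (l + 1) * sp x i := rfl

/-- **The SK system with `K` levels.** -/
noncomputable def skS (n K : ℕ) (m b w : ℕ → ℝ) : Sy (Cd n K) (Fin n → ℤˣ) where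
  lev e := e.2 + 1
  K := K
  m := m
  H z x := 0 + ∑ e, aSK n K b w x e * z e

@[simp] lemma skS_lev (m b w : ℕ → ℝ) (e : Cd n K) : (skS n K m b w).lev e = e.2 + 1 := rfl
@[simp] lemma skS_K (m b w : ℕ → ℝ) : (skS n K m b w).K = K := rfl
@[simp] lemma skS_m (m b w : ℕ → ℝ) : (skS n K m b w).m = m := rfl

/-- admissible exponents `0 = m 0 ≤ m 1 ≤ … ≤ m K ≤ m (K + 1) = 1`, `0 < m 1` -/
structure Em (K : ℕ) (m : ℕ → ℝ) : Prop where
  m0 : m 0 = 0
  mK : m (K + 1) = 1
  mono : ∀ l ≤ K, m l ≤ m (l + 1)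
  pos : 0 < m 1

/-- the energy is linear -/
theorem linS_sk {m : ℕ → ℝ} (hm : Em K m) (b w : ℕ → ℝ) :
    LinS (skS n K m b w) (aSK n K b w) (fun _ => 0) where
  reg := by
    refine ⟨hm.m0, hm.mK, hm.mono, hm.pos, fun e => ?_, fun x => ?_⟩
    · have := e.2.2
      simp only [skS_lev, skS_K]
      omega
    · show Lip fun z : Cd n K → ℝ => 0 + ∑ e, aSK n K b w x e * z e
      exact (Lip.const 0).add (Lip.sum _ fun e _ => (Lip.coord e).const_mul _)
  H := fun z x => rfl

/-- a bond or a field touches the site `i` -/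
def tch (i : Fin n) : Pair n ⊕ Fin n → Prop
  | Sum.inl p => p.1.1 = i ∨ p.1.2 = i
  | Sum.inr j => j = i

instance (i : Fin n) : DecidablePred (tch i) := fun e => by
  rcases e with p | j
  · exact inferInstanceAs (Decidable (p.1.1 = i ∨ p.1.2 = i))
  · exact inferInstanceAs (Decidable (j = i))

@[simp] lemma tch_inl (i : Fin n) (p : Pair n) : tch i (Sum.inl p) ↔ p.1.1 = i ∨ p.1.2 = i :=
  Iff.rfl

@[simp] lemma tch_inr (i j : Fin n) : tch i (Sum.inr j) ↔ j = i := Iff.rfl

/-- the row of the site `i` at the level `l + 1`: its bonds and its field -/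
def rw1 (i : Fin n) (l : Fin K) : Finset (Cd n K) :=
  Finset.univ.filter fun e => e.2 = l ∧ tch i e.1

lemma mem_rw1_inl {i : Fin n} {l l' : Fin K} {p : Pair n} :
    (Sum.inl p, l') ∈ rw1 i l ↔ l' = l ∧ (p.1.1 = i ∨ p.1.2 = i) := by
  simp [rw1]

lemma mem_rw1_inr {i j : Fin n} {l l' : Fin K} :
    (Sum.inr j, l') ∈ rw1 i l ↔ l' = l ∧ j = i := by
  simp [rw1]

/-- the bond of two different sites -/
def bnd (i j : Fin n) (h : i ≠ j) : Pair n :=
  if h' : i < j then ⟨(i, j), h'⟩ else ⟨(j, i), lt_of_le_of_ne (not_lt.1 h') (Ne.symm h)⟩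

lemma SkS_bnd (i j : Fin n) (h : i ≠ j) (x : Fin n → ℤˣ) : SkS (bnd i j h) x = sp x i * sp x j := by
  unfold bnd SkS
  split_ifs
  · rfl
  · simp only; ring

/-- a sum over the row of `i`: the bonds to the other sites and the field -/
lemma sum_rw1 (i : Fin n) (l : Fin K) (F : Cd n K → ℝ) :
    ∑ e ∈ rw1 i l, F e = ∑ j : {j : Fin n // j ≠ i}, F (Sum.inl (bnd i j.1 j.2.symm), l) +
      F (Sum.inr i, l) := by
  classical
  have h1 : rw1 i l = (Finset.univ.image fun j : {j : Fin n // j ≠ i} =>
      ((Sum.inl (bnd i j.1 j.2.symm), l) : Cd n K)) ∪ {(Sum.inr i, l)} := by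
    ext e
    obtain ⟨e1, e2⟩ := e
    rcases e1 with p | j
    · rw [mem_rw1_inl]
      simp only [Finset.mem_union, Finset.mem_image, Finset.mem_univ, true_and,
        Finset.mem_singleton, Prod.mk.injEq, Sum.inl.injEq, reduceCtorEq, false_and, or_false,
        Subtype.exists]
      constructor
      · rintro ⟨rfl, h⟩
        rcases h with h | h
        · refine ⟨p.1.2, ?_, ?_, rfl⟩
          · rw [← h]; exact p.2.ne'
          · unfold bnd
            have h2 := p.2
            rw [h] at h2
            rw [dif_pos h2]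
            apply Subtype.ext
            simp [← h]
        · refine ⟨p.1.1, ?_, ?_, rfl⟩
          · rw [← h]; exact p.2.ne
          · unfold bnd
            have h2 := p.2
            rw [h] at h2
            rw [dif_neg (not_lt.2 h2.le)]
            apply Subtype.ext
            simp [← h]
      · rintro ⟨j, hj, h, rfl⟩
        refine ⟨rfl, ?_⟩
        rw [← h]
        unfold bnd
        split_ifs
        · left; rfl
        · right; rfl
    · rw [mem_rw1_inr]
      simp only [Finset.mem_union, Finset.mem_image, Finset.mem_univ, true_and,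
        Finset.mem_singleton, Prod.mk.injEq, Sum.inr.injEq, reduceCtorEq, false_and, exists_false,
        false_or]
      tauto
  rw [h1, Finset.sum_union, Finset.sum_image, Finset.sum_singleton]
  · rintro ⟨j, hj⟩ _ ⟨k, hk⟩ _ h
    simp only [Prod.mk.injEq, Sum.inl.injEq, and_true] at h
    apply Subtype.ext
    unfold bnd at h
    simp only at h ⊢
    split_ifs at h with h2 h3 h3
    · simpa using h
    · simp only [Subtype.mk.injEq, Prod.mk.injEq] at h
      exact absurd h.1.symm hk
    · simp only [Subtype.mk.injEq, Prod.mk.injEq] at h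
      exact absurd h.1 hj
    · simpa using h
  · rw [Finset.disjoint_singleton_right]
    simp

end Vale.Agent.P146.H93
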