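import Vale.Agent.P146.H425.SyLg
import Vale.Agent.P146.H946.Odd

/-!
# P146: replica averages in a two-level law (helper93)

`S : Sy ι X` with `LinS S a c` (energy `c x + ∑ e, a x e z_e`), `S.K = 2`, exponents
`0 = m 0 ≤ m 1 ≤ m 2 ≤ m 3 = 1`.  The level-1 coordinates are the visible disorder `K`, the
level-2 coordinates the hidden one.  `AR S f z` = Gibbs average of `f : (R → X) → ℝ` over
replicas indexed by `R`; `ER S f z` = its leaf average given `K` (all replicas in the same leaf).
-/

open MeasureTheory ProbabilityTheory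

namespace Vale.Agent.P146.H93

open Vale.Agent.P157 Vale.Agent.P157.Lv Vale.Agent.P157.Lv.Sy
open Vale.Agent.P146.H425

set_option linter.unusedSectionVars false

variable {ι X : Type} [Fintype ι] [DecidableEq ι] [Fintype X] [Nonempty X]
  {S : Sy ι X} {a : X → ι → ℝ} {c : X → ℝ}

/-- the energy of a linear system has the partial derivatives `a x e` -/
theorem regD (h : LinS S a c) : S.RegD (fun e _ x => a x e) where
  toReg := h.reg
  pd := fun e x => by
    have h1 : (fun z => S.H z x) = fun z => c x + ∑ i, a x i * z i := by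
      funext z; exact h.H z x
    rw [h1]
    have h2 : PD e (fun z : ι → ℝ => c x + ∑ i, a x i * z i)
        (fun _ => 0 + ∑ i, a x i * (if i = e then 1 else 0)) :=
      (PD.const (e := e) (c x)).add (PD.sum _ fun i _ => (PD.coord i).const_mul _)
    refine h2.congr fun z => ?_
    simp
  md := fun _ _ => measurable_const
  bd := ⟨bA a, fun e _ x => abs_le_bA a x e⟩

variable {R : Type} [Fintype R] [DecidableEq R]

/-- the Gibbs average over replicas -/
noncomputable def AR (S : Sy ι X) (f : (R → X) → ℝ) (z : ι → ℝ) : ℝ :=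
  ∑ σ : R → X, (∏ r, S.gb z (σ r)) * f σ

/-- the leaf average given the levels at most `1` -/
noncomputable def ER (S : Sy ι X) (f : (R → X) → ℝ) (z : ι → ℝ) : ℝ :=
  S.T 1 (fun z _ => AR S f z) z

/-- add a replica -/
def tn (f : (R → X) → ℝ) (g : X → ℝ) : (Option R → X) → ℝ :=
  fun σ => f (fun r => σ (some r)) * g (σ none)

end Vale.Agent.P146.H93
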