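import Vale.Agent.P146.H877x.OwCr

/-!
# P146: the higher chaoses of a row are at most the own influence (helper93)

`NL = Ex (T_l x_i)² - c1` of helper379: `0 ≤ NL ≤ bt2 (2 OwS + 8 m_(l+1)² Tt) + 16 ∑ w²`.
With helper877's `OwS_le` this is the upper row inequality: `NL ≤ C (E|R|³ + m² E R² + w)`.
-/

open MeasureTheory ProbabilityTheory

namespace Vale.Agent.P146.H93

open Vale.Agent.P157 Vale.Agent.P157.Lv Vale.Agent.P157.Lv.Sy
open Vale.Agent.P146.H425 Vale.Agent.P146.H325 Vale.Agent.P146.H985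
open Vale.Agent.P146.H379.Row Vale.Agent.P146.H946

set_option linter.unusedSectionVars false

variable {n K : ℕ} {m b w : ℕ → ℝ} {l : ℕ}

lemma eg_gD (hm : Em K m) (hl : l ≤ K) (i : Fin n) (e : Cd n K) : EG (gD m b w l i e) := by
  have hS : (skS n K m b w).Reg := (linS_sk hm b w).reg
  exact ((eg_expV hS (l := l) hl).mul (eg_Vf hS hl i _)).sub
    ((eg_expV hS (l := l) hl).mul ((eg_dd hS hl i).mul (eg_Qe hS hl _ _))) |>.const_mul _

/-- the function of a row is odd -/
lemma gg_odd (hm : Em K m) (i : Fin n) (z : Cd n K → ℝ) :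
    gg (skS n K m b w) l i (gz (Equiv.refl _) (fE i) z) = -gg (skS n K m b w) l i z := by
  unfold gg
  rw [(sys_flip hm b w i).VL]
  have h : dd (skS n K m b w) l i (gz (Equiv.refl _) (fE i) z) = -dd (skS n K m b w) l i z :=
    T_sp_flip hm b w l i z
  rw [h]
  ring

lemma eg_gg (hm : Em K m) (hl : l ≤ K) (i : Fin n) : EG (gg (skS n K m b w) l i) := by
  have hS : (skS n K m b w).Reg := (linS_sk hm b w).reg
  exact (eg_expV hS (l := l) hl).mul (eg_dd hS hl i)

lemma dep_gg (hm : Em K m) (hl : l ≤ K) (i : Fin n) :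
    Dep (skS n K m b w).lev l (gg (skS n K m b w) l i) := by
  have hS : (skS n K m b w).Reg := (linS_sk hm b w).reg
  exact lc_dep_mul (dep_expV hS (l := l) hl) (dep_dd _ l i)

/-- Poincaré: the second moment of the leaf average is at most the sum over the row. -/
lemma Ex_dd_le (hm : Em K m) (hl : l ≤ K) (i : Fin n) :
    (skS n K m b w).Ex (fun z _ => (skS n K m b w).T l (fun _ x => sp x i) z ^ 2) ≤
      ∑ e ∈ rwl K i l, ∫ z, gD m b w l i e z ^ 2 ∂(gI (Cd n K)) := by
  have hS : (skS n K m b w).Reg := (linS_sk hm b w).reg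
  have h1 := zero_poincare (rwl K i l) (F := gg (skS n K m b w) l i)
    (F' := fun e => gD m b w l i e) (eg_gg hm hl i)
    (fun e he => pd_gg hm b w hl i (mem_rwl.1 he).1) (fun e _ => eg_gD hm hl i e)
    (fun z => (mv_flip (K := K) m b w i l).J_zero (dep_gg hm hl i) (gg_odd hm i) z)
  refine le_trans (le_of_eq ?_) h1
  exact (int_expV_sq hS (l := l) hl (eg_dd hS hl i) (dep_dd _ l i)).symm

/-- the higher chaoses -/
lemma NL_le_sum (hm : Em K m) (hl : l ≤ K) (i : Fin n) :
    NL K m b w l i ≤ ∑ e ∈ rwl K i l,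
      ∫ z, (gD m b w l i e z - PA (rwl K i l) (gD m b w l i e) z) ^ 2 ∂(gI (Cd n K)) := by
  have h1 := Ex_dd_le (b := b) (w := w) hm hl i
  unfold NL c1
  simp only [PA.pyth (eg_gD hm hl i _), Finset.sum_sub_distrib]
  linarith

/-- `0 ≤ NL` -/
theorem NL_nonneg (hm : Em K m) (hl : l ≤ K) (i : Fin n) : 0 ≤ NL K m b w l i := by
  have hS : (skS n K m b w).Reg := (linS_sk hm b w).reg
  have hg := eg_gg (b := b) (w := w) hm hl i
  have hd := dep_gg (b := b) (w := w) hm hl i
  set A := rwl K i l with hA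
  have hAl : ∀ e ∈ A, (e.2 : ℕ) + 1 ≤ l := fun e he => (mem_rwl.1 he).1
  -- the first chaos
  set c : Cd n K → (Cd n K → ℝ) → ℝ := fun e => PA A (gD m b w l i e) with hc
  have ec : ∀ e, EG (c e) := fun e => PA.eg (eg_gD hm hl i e) A
  have hdc : ∀ e, Dep (lvA A) 0 (c e) := fun e => PA.dep A _
  set L : (Cd n K → ℝ) → ℝ := fun z => ∑ e ∈ A, c e z * z e with hLd
  have eL : EG L := EG.sum _ fun e _ => (ec e).mul (EG.coord e)
  have h0 : 0 ≤ ∫ z, (gg (skS n K m b w) l i z - L z) ^ 2 ∂(gI (Cd n K)) :=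
    integral_nonneg fun _ => sq_nonneg _
  -- the derivatives of the coefficients
  have h1 : ∀ e', ∀ e ∈ A, PD e (c e') (fun _ => 0) := by
    intro e' e he
    refine PD.of_indep fun z t => ?_
    refine Dep.congr (hdc e') fun e'' he'' => ?_
    unfold lvA at he''
    have hA' : e'' ∉ A := by
      intro h
      simp [h] at he''
    have hne : e'' ≠ e := fun h => hA' (h ▸ he)
    rw [Function.update_of_ne hne]
  -- `∫ g L = ∑ ∫ c_e²`
  have hgL : ∀ e ∈ A, ∫ z, gg (skS n K m b w) l i z * (c e z * z e) ∂(gI (Cd n K)) =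
      ∫ z, c e z ^ 2 ∂(gI (Cd n K)) := by
    intro e he
    have h2 := pd_gg hm b w hl i (hAl e he) (e := e)
    have h3 : PD e (fun z => gg (skS n K m b w) l i z * c e z)
        (fun z => gD m b w l i e z * c e z) :=
      (h2.mul (h1 e e he)).congr fun z => by ring
    have h4 := PD.stein h3 (hg.mul (ec e)) ((eg_gD hm hl i e).mul (ec e))
    have e1 : ∀ z : Cd n K → ℝ, gg (skS n K m b w) l i z * (c e z * z e) =
        z e * (gg (skS n K m b w) l i z * c e z) := fun z => by ring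
    simp only [e1]
    rw [h4]
    have h5 := PA.ip (A := A) (hdc e) (ec e) (eg_gD (b := b) (w := w) hm hl i e)
    have e2 : ∀ z, gD m b w l i e z * c e z = c e z * gD m b w l i e z := fun z => mul_comm _ _
    simp only [e2]
    rw [← h5]
    congr 1
    funext z
    rw [sq]
  -- `∫ L² = ∑ ∫ c_e²`
  have hLL : ∀ e ∈ A, ∫ z, L z * (c e z * z e) ∂(gI (Cd n K)) =
      ∫ z, c e z ^ 2 ∂(gI (Cd n K)) := by
    intro e he
    have h2 : PD e L (c e) := by
      have h3 : PD e L (fun z => ∑ e' ∈ A, ((fun _ => (0 : ℝ)) z * z e' +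
          c e' z * (if e' = e then 1 else 0))) :=
        PD.sum A fun e' _ => (h1 e' e he).mul (PD.coord e')
      refine h3.congr fun z => ?_
      simp only [zero_mul, zero_add, mul_ite, mul_one, mul_zero]
      rw [Finset.sum_ite_eq' A e]
      simp [he]
    have h3 : PD e (fun z => L z * c e z) (fun z => c e z * c e z) :=
      (h2.mul (h1 e e he)).congr fun z => by ring
    have h4 := PD.stein h3 (eL.mul (ec e)) ((ec e).mul (ec e))
    have e1 : ∀ z : Cd n K → ℝ, L z * (c e z * z e) = z e * (L z * c e z) := fun z => by ring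
    simp only [e1]
    rw [h4]
    congr 1
    funext z
    rw [sq]
  have hce : ∀ e, EG fun z : Cd n K → ℝ => c e z * z e := fun e => (ec e).mul (EG.coord e)
  have q1 : ∫ z, gg (skS n K m b w) l i z * L z ∂(gI (Cd n K)) =
      ∑ e ∈ A, ∫ z, c e z ^ 2 ∂(gI (Cd n K)) := by
    rw [← Finset.sum_congr rfl hgL, ← integral_finsetSum]
    · congr 1
      funext z
      rw [hLd, Finset.mul_sum]
    · exact fun e _ => (hg.mul (hce e)).integrable
  have q2 : ∫ z, L z * L z ∂(gI (Cd n K)) = ∑ e ∈ A, ∫ z, c e z ^ 2 ∂(gI (Cd n K)) := by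
    rw [← Finset.sum_congr rfl hLL, ← integral_finsetSum]
    · congr 1
      funext z
      rw [← Finset.mul_sum]
    · exact fun e _ => (eL.mul (hce e)).integrable
  have q3 : ∫ z, gg (skS n K m b w) l i z ^ 2 ∂(gI (Cd n K)) =
      (skS n K m b w).Ex (fun z _ => (skS n K m b w).T l (fun _ x => sp x i) z ^ 2) :=
    int_expV_sq hS (l := l) hl (eg_dd hS hl i) (dep_dd _ l i)
  have q4 : ∫ z, (gg (skS n K m b w) l i z - L z) ^ 2 ∂(gI (Cd n K)) =
      ∫ z, gg (skS n K m b w) l i z ^ 2 ∂(gI (Cd n K)) -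
        2 * ∫ z, gg (skS n K m b w) l i z * L z ∂(gI (Cd n K)) +
        ∫ z, L z * L z ∂(gI (Cd n K)) := by
    rw [← integral_const_mul, ← integral_sub, ← integral_add]
    · congr 1
      funext z
      ring
    · exact ((hg.pow 2).sub ((hg.mul eL).const_mul 2)).integrable
    · exact (eL.mul eL).integrable
    · exact (hg.pow 2).integrable
    · exact ((hg.mul eL).const_mul 2).integrable
  rw [q4, q1, q2, q3] at h0
  unfold NL c1
  linarith

/-! ### The upper bound -/

/-- one function of the row -/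
lemma own_sub (A : Finset (Cd n K)) {F W : (Cd n K → ℝ) → ℝ}
    (hF : EG F) (hW : EG W) :
    ∫ z, ((F z - W z) - PA A (fun z => F z - W z) z) ^ 2 ∂(gI (Cd n K)) ≤
      2 * ∫ z, (F z - PA A F z) ^ 2 ∂(gI (Cd n K)) + 2 * ∫ z, W z ^ 2 ∂(gI (Cd n K)) := by
  have hPF := PA.eg hF A
  have hPW := PA.eg hW A
  have h1 : ∫ z, (W z - PA A W z) ^ 2 ∂(gI (Cd n K)) ≤ ∫ z, W z ^ 2 ∂(gI (Cd n K)) := by
    rw [PA.pyth hW]
    have : 0 ≤ ∫ z, PA A W z ^ 2 ∂(gI (Cd n K)) := integral_nonneg fun _ => sq_nonneg _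
    linarith
  have h2 : ∫ z, ((F z - W z) - PA A (fun z => F z - W z) z) ^ 2 ∂(gI (Cd n K)) ≤
      ∫ z, (2 * (F z - PA A F z) ^ 2 + 2 * (W z - PA A W z) ^ 2) ∂(gI (Cd n K)) := by
    refine integral_mono (((hF.sub hW).sub (PA.eg (hF.sub hW) A)).pow 2).integrable
      ((((hF.sub hPF).pow 2).const_mul 2).add (((hW.sub hPW).pow 2).const_mul 2)).integrable
      fun z => ?_
    show ((F z - W z) - PA A (fun z => F z - W z) z) ^ 2 ≤ _
    rw [PA.sub hF hW]
    nlinarith [sq_nonneg ((F z - PA A F z) + (W z - PA A W z))]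
  rw [integral_add (((hF.sub hPF).pow 2).const_mul 2).integrable
    (((hW.sub hPW).pow 2).const_mul 2).integrable, integral_const_mul, integral_const_mul] at h2
  linarith

/-- the sum over the row of the own influences -/
lemma sum_gD (hm : Em K m) (b w : ℕ → ℝ) (hl : l ≤ K) (i : Fin n) :
    ∑ e ∈ rwl K i l,
      ∫ z, (gD m b w l i e z - PA (rwl K i l) (gD m b w l i e) z) ^ 2 ∂(gI (Cd n K)) ≤
    ∑ q : Fin l, (b (q + 1) ^ 2 * (∑ k, if k ≠ i then 2 * Ow (skS n K m b w) l i k +
      2 * (skS n K m b w).Ex (fun z _ => (dd (skS n K m b w) l i z *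
        Qe (skS n K m b w) l (q + 1) (ss i k) z) ^ 2) else 0) + w (q + 1) ^ 2 * 16) := by
  have hS : (skS n K m b w).Reg := (linS_sk hm b w).reg
  rw [sum_rwl i hl]
  refine Finset.sum_le_sum fun q _ => ?_
  have hq : ((Fin.castLE hl q : Fin K) : ℕ) = q := rfl
  have hPc : ∀ (c : ℝ) (F : (Cd n K → ℝ) → ℝ),
      ∫ z, (c * F z - PA (rwl K i l) (fun z => c * F z) z) ^ 2 ∂(gI (Cd n K)) =
        c ^ 2 * ∫ z, (F z - PA (rwl K i l) F z) ^ 2 ∂(gI (Cd n K)) := by
    intro c F
    rw [← integral_const_mul]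
    congr 1
    funext z
    have h1 : PA (rwl K i l) (fun z => c * F z) z = c * PA (rwl K i l) F z := J_const_mul c F z
    rw [h1]
    ring
  rw [← sum_ne, Finset.mul_sum]
  refine add_le_add ?_ ?_
  · refine Finset.sum_le_sum fun j _ => ?_
    have e1 : gD m b w l i ((Sum.inl (bnd i j.1 j.2.symm), Fin.castLE hl q) : Cd n K) =
        fun z => b (q + 1) * (FF (skS n K m b w) l i j.1 z -
          WW (skS n K m b w) l (q + 1) i j.1 z) := by
      funext z
      have h1 : (fun x : Fin n → ℤˣ => sp x i * st (Sum.inl (bnd i j.1 j.2.symm)) x) =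
          fun x => sp x j.1 := by
        funext x
        show sp x i * SkS (bnd i j.1 j.2.symm) x = _
        rw [SkS_bnd, ← mul_assoc, sp_mul_self, one_mul]
      have h2 : st (Sum.inl (bnd i j.1 j.2.symm) : Pair n ⊕ Fin n) = ss i j.1 := by
        funext x
        exact SkS_bnd _ _ _ _
      unfold gD FF WW
      rw [h1, h2, hq]
      rfl
    rw [e1, hPc]
    refine mul_le_mul_of_nonneg_left ?_ (sq_nonneg _)
    have h2 := own_sub (rwl K i l) (eg_FF hS (l := l) hl i j.1)
      (eg_WW hS (l := l) hl (q + 1) i j.1)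
    rw [int_WW_sq hS (l := l) hl (q + 1) i j.1] at h2
    exact h2
  · have e1 : gD m b w l i ((Sum.inr i, Fin.castLE hl q) : Cd n K) =
        fun z => w (q + 1) * (Real.exp (VL (skS n K m b w) l z / 2) *
          (Vf (skS n K m b w) l i (fun _ => 1) z -
            dd (skS n K m b w) l i z * Qe (skS n K m b w) l (q + 1) (fun x => sp x i) z)) := by
      funext z
      have h1 : (fun x : Fin n → ℤˣ => sp x i * st (Sum.inr i : Pair n ⊕ Fin n) x) =
          fun _ => 1 := by
        funext x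
        show sp x i * sp x i = _
        rw [sp_mul_self]
      have h2 : st (Sum.inr i : Pair n ⊕ Fin n) = fun x => sp x i := rfl
      unfold gD
      rw [h1, h2, hq, ← mul_sub]
      rfl
    rw [e1, hPc]
    refine mul_le_mul_of_nonneg_left ?_ (sq_nonneg _)
    have eQ : EG fun z => dd (skS n K m b w) l i z *
        Qe (skS n K m b w) l (q + 1) (fun x => sp x i) z :=
      (eg_dd hS hl i).mul (eg_Qe hS hl (q + 1) _)
    have eF : EG fun z => Vf (skS n K m b w) l i (fun _ => 1) z - dd (skS n K m b w) l i z *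
        Qe (skS n K m b w) l (q + 1) (fun x => sp x i) z := (eg_Vf hS hl i (fun _ => 1)).sub eQ
    rw [PA.pyth ((eg_expV hS (l := l) hl).mul eF)]
    have h3 : 0 ≤ ∫ z, PA (rwl K i l) (fun z => Real.exp (VL (skS n K m b w) l z / 2) *
        (Vf (skS n K m b w) l i (fun _ => 1) z - dd (skS n K m b w) l i z *
          Qe (skS n K m b w) l (q + 1) (fun x => sp x i) z)) z ^ 2 ∂(gI (Cd n K)) :=
      integral_nonneg fun _ => sq_nonneg _
    have h4 : ∫ z, (Real.exp (VL (skS n K m b w) l z / 2) *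
        (Vf (skS n K m b w) l i (fun _ => 1) z - dd (skS n K m b w) l i z *
          Qe (skS n K m b w) l (q + 1) (fun x => sp x i) z)) ^ 2 ∂(gI (Cd n K)) ≤ 16 := by
      rw [int_expV_sq hS (l := l) hl eF (fun z w' => by
        simp only [dep_Vf _ l i _ z w', dep_dd _ l i z w', dep_Qe _ l (q + 1) _ z w'])]
      refine Ex_le_const hS (Nh.pow (Nh.fst eF) 2) fun z _ => ?_
      exact sq_le16 (abs_Vf_le hS hl i (fun x => by rw [abs_one]) z)
        (abs_dQ_le hS (l := l) hl (q + 1) i (fun x => (abs_sp x i).le) z)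
    linarith

/-- **The higher chaoses of a row are at most the own influence.** -/
theorem NL_le (hm : Em K m) (b w : ℕ → ℝ) (hl : l ≤ K) (i : Fin n) :
    NL K m b w l i ≤ bt2 n b l * (2 * OwS (skS n K m b w) l +
      8 * m (l + 1) ^ 2 * Tt (skS n K m b w) l) + 16 * ∑ q : Fin l, w (q + 1) ^ 2 := by
  have hS : (skS n K m b w).Reg := (linS_sk hm b w).reg
  have hn : 0 < n := by
    have := i.2
    omega
  have hn' : (0 : ℝ) < n := by exact_mod_cast hn
  -- all sites are equal
  have hav : NL K m b w l i = 1 / n * ∑ j : Fin n, NL K m b w l j := by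
    have h1 : ∀ j : Fin n, NL K m b w l j = NL K m b w l i := by
      intro j
      unfold NL
      rw [Ex_dd_sq hm hl j, Ex_dd_sq hm hl i, c1_eq_c1A hm l j, c1_eq_c1A hm l i]
    simp only [h1, Finset.sum_const, Finset.card_univ, Fintype.card_fin, nsmul_eq_mul]
    field_simp
  rw [hav]
  have h2 : ∀ j : Fin n, NL K m b w l j ≤ ∑ q : Fin l, (b (q + 1) ^ 2 *
      (∑ k, if k ≠ j then 2 * Ow (skS n K m b w) l j k +
      2 * (skS n K m b w).Ex (fun z _ => (dd (skS n K m b w) l j z *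
        Qe (skS n K m b w) l (q + 1) (ss j k) z) ^ 2) else 0) + w (q + 1) ^ 2 * 16) :=
    fun j => (NL_le_sum hm hl j).trans (sum_gD hm b w hl j)
  have h3 := mul_le_mul_of_nonneg_left (Finset.sum_le_sum fun j (_ : j ∈ Finset.univ) => h2 j)
    (by positivity : (0 : ℝ) ≤ 1 / n)
  refine h3.trans ?_
  rw [Finset.sum_comm, Finset.mul_sum]
  have h4 : ∀ q : Fin l, 1 / (n : ℝ) * ∑ j : Fin n, (b (q + 1) ^ 2 *
      (∑ k, if k ≠ j then 2 * Ow (skS n K m b w) l j k +
      2 * (skS n K m b w).Ex (fun z _ => (dd (skS n K m b w) l j z *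
        Qe (skS n K m b w) l (q + 1) (ss j k) z) ^ 2) else 0) + w (q + 1) ^ 2 * 16) ≤
      n * b (q + 1) ^ 2 * (2 * OwS (skS n K m b w) l +
        8 * m (l + 1) ^ 2 * Tt (skS n K m b w) l) + 16 * w (q + 1) ^ 2 := by
    intro q
    have hW := Wq_le hS (l := l) hl (q + 1)
    rw [skS_m] at hW
    have h5 : ∑ j : Fin n, ∑ k, (if k ≠ j then 2 * Ow (skS n K m b w) l j k +
        2 * (skS n K m b w).Ex (fun z _ => (dd (skS n K m b w) l j z *
        Qe (skS n K m b w) l (q + 1) (ss j k) z) ^ 2) else 0) ≤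
        n ^ 2 * (2 * OwS (skS n K m b w) l + 2 * Wq (skS n K m b w) l (q + 1)) := by
      have h6 : n ^ 2 * (2 * OwS (skS n K m b w) l + 2 * Wq (skS n K m b w) l (q + 1)) =
          ∑ j : Fin n, ∑ k, (2 * (if k ≠ j then Ow (skS n K m b w) l j k else 0) +
            2 * (skS n K m b w).Ex (fun z _ => (dd (skS n K m b w) l j z *
              Qe (skS n K m b w) l (q + 1) (ss j k) z) ^ 2)) := by
        unfold OwS Wq
        simp only [Finset.sum_add_distrib, ← Finset.mul_sum]
        field_simp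
      rw [h6]
      refine Finset.sum_le_sum fun j _ => Finset.sum_le_sum fun k _ => ?_
      by_cases hk : k ≠ j
      · rw [if_pos hk, if_pos hk]
      · rw [if_neg hk, if_neg hk, mul_zero, zero_add]
        have := Ex_nn hS (Nh.pow (Nh.fst (eg_dQ hS (l := l) hl (q + 1) j k)) 2)
          (fun z _ => sq_nonneg _)
        linarith
    have h7 : ∑ j : Fin n, (b (q + 1) ^ 2 *
      (∑ k, if k ≠ j then 2 * Ow (skS n K m b w) l j k +
      2 * (skS n K m b w).Ex (fun z _ => (dd (skS n K m b w) l j z *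
        Qe (skS n K m b w) l (q + 1) (ss j k) z) ^ 2) else 0) + w (q + 1) ^ 2 * 16) ≤
        b (q + 1) ^ 2 * (n ^ 2 * (2 * OwS (skS n K m b w) l +
          2 * Wq (skS n K m b w) l (q + 1))) + n * (w (q + 1) ^ 2 * 16) := by
      rw [Finset.sum_add_distrib, ← Finset.mul_sum, Finset.sum_const, Finset.card_univ,
        Fintype.card_fin, nsmul_eq_mul]
      have := mul_le_mul_of_nonneg_left h5 (sq_nonneg (b (q + 1)))
      linarith
    have h8 := mul_le_mul_of_nonneg_left h7 (by positivity : (0 : ℝ) ≤ 1 / n)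
    refine h8.trans ?_
    have h9 : 1 / (n : ℝ) * (b (q + 1) ^ 2 * (n ^ 2 * (2 * OwS (skS n K m b w) l +
        2 * Wq (skS n K m b w) l (q + 1))) + n * (w (q + 1) ^ 2 * 16)) =
        n * b (q + 1) ^ 2 * (2 * OwS (skS n K m b w) l + 2 * Wq (skS n K m b w) l (q + 1)) +
          16 * w (q + 1) ^ 2 := by
      field_simp
    rw [h9]
    have h10 : (0 : ℝ) ≤ n * b (q + 1) ^ 2 := by positivity
    have h11 : 2 * OwS (skS n K m b w) l + 2 * Wq (skS n K m b w) l (q + 1) ≤
        2 * OwS (skS n K m b w) l + 8 * m (l + 1) ^ 2 * Tt (skS n K m b w) l := by linarith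
    have := mul_le_mul_of_nonneg_left h11 h10
    linarith
  refine (Finset.sum_le_sum fun q _ => h4 q).trans (le_of_eq ?_)
  unfold bt2
  rw [Finset.sum_add_distrib, ← Finset.sum_mul, ← Finset.mul_sum (a := (16 : ℝ))]

end Vale.Agent.P146.H93
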