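import Mathlib

/-!
# P146, lower half: the real-number part of the cross row (unit scale) (helper93)

`r` = overlap at the good level just above the jump `g` of the exponent, `Th` = second moment of
the overlap at the level of the jump, `v` = exponent above the jump, `A` = response minus share.
(U) the upper row, (V) variance at the good level, (R) = crude bound of `r` from (UR*).
-/

namespace Vale.Agent.P146.H93.Pnum

open Real

set_option linter.unusedVariables false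

/-- quadratic inequality `b v r² ≤ A r + e` ⇒ `r ≤ A/(b v) + √(e/(b v))`. -/
lemma quad_le {q A e r : ℝ} (hq : 0 < q) (hA : 0 ≤ A) (he : 0 ≤ e) (_hr : 0 ≤ r)
    (h : q * r ^ 2 ≤ A * r + e) : r ≤ A / q + √(e / q) := by
  have hs : 0 ≤ √(e / q) := Real.sqrt_nonneg _
  have hs2 : √(e / q) ^ 2 = e / q := Real.sq_sqrt (div_nonneg he hq.le)
  have hA' : 0 ≤ A / q := div_nonneg hA hq.le
  have h1 : r ^ 2 ≤ A / q * r + √(e / q) ^ 2 := by
    rw [hs2]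
    have h2 : r ^ 2 = q * r ^ 2 / q := by field_simp
    rw [h2]
    have h3 : A / q * r + e / q = (A * r + e) / q := by ring
    rw [h3]
    exact div_le_div_of_nonneg_right h hq.le
  by_contra hc
  push Not at hc
  have h4 : 0 < r - A / q := by linarith
  have h5 : r * (r - A / q) ≤ √(e / q) ^ 2 := by nlinarith
  have h6 : √(e / q) < r - A / q := by linarith
  have h7 : √(e / q) ≤ r := by linarith
  have h8 : √(e / q) ^ 2 < r * (r - A / q) := by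
    rcases hs.eq_or_lt with h0 | h0
    · rw [← h0]
      have : 0 < r := by linarith
      nlinarith [mul_pos this h4]
    · nlinarith
  linarith

/-- the size constant of the remainder `s` of the crude bound of `r` -/
noncomputable def sP (q rs e3 e4 : ℝ) : ℝ := e3 / q + √(e4 / q) + rs

lemma sP_nonneg {q rs e3 e4 : ℝ} (hq : 0 < q) (hrs : 0 ≤ rs) (he3 : 0 ≤ e3) :
    0 ≤ sP q rs e3 e4 := by
  unfold sP
  have := Real.sqrt_nonneg (e4 / q)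
  have := div_nonneg he3 hq.le
  linarith

/-- (R) in linear form: `r ≤ 2 P/(b v) + s`. -/
lemma crude {q P r rs e3 e4 : ℝ} (hq : 0 < q) (hP : 0 ≤ P) (hr : 0 ≤ r) (hrs : 0 ≤ rs)
    (he3 : 0 ≤ e3) (he4 : 0 ≤ e4) (R : r ≤ rs ∨ q * r ^ 2 ≤ (2 * P + e3) * r + e4) :
    r ≤ 2 * P / q + sP q rs e3 e4 := by
  have h0 := Real.sqrt_nonneg (e4 / q)
  have h1 := div_nonneg he3 hq.le
  have h2 : 0 ≤ 2 * P / q := by positivity
  unfold sP
  rcases R with R | R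
  · linarith
  · have := quad_le hq (by positivity) he4 hr R
    rw [add_div] at this
    linarith

/-- the constant of the relative error -/
noncomputable def c1P (C q : ℝ) : ℝ := 8 * C / q ^ 2

noncomputable def CP (C q : ℝ) : ℝ := 31 + 2 * c1P C q + c1P C q ^ 2

/-- the absolute error -/
noncomputable def errP (C q qg bg s e1 e2 : ℝ) : ℝ :=
  (4 * C * s ^ 2 * (1 + c1P C q) + 4 * C ^ 2 * s ^ 4) / qg ^ 2 + 2 * s ^ 2 + e2 + e1 / bg

/-- end of the proof, `P ≤ 1` -/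
lemma fin1 {P c1 C s Q x : ℝ} (hP : 0 ≤ P) (hP1 : P ≤ 1) (hc : 0 ≤ c1) (hC : 0 ≤ C) (hQ : 0 < Q)
    (hx : x = P * (1 + c1 * P) + 2 * C * s ^ 2) :
    (x / Q) ^ 2 ≤ (1 + (31 + 2 * c1 + c1 ^ 2) * P) * (P / Q) ^ 2 +
      (4 * C * s ^ 2 * (1 + c1) + 4 * C ^ 2 * s ^ 4) / Q ^ 2 := by
  have h2 : x ^ 2 = P ^ 2 * (1 + c1 * P) ^ 2 + 4 * C * s ^ 2 * (P * (1 + c1 * P)) +
      4 * C ^ 2 * s ^ 4 := by rw [hx]; ring
  have h3 : (1 + c1 * P) ^ 2 ≤ 1 + (31 + 2 * c1 + c1 ^ 2) * P := by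
    have e : (1 + c1 * P) ^ 2 = 1 + 2 * c1 * P + c1 ^ 2 * (P * P) := by ring
    have h4 : P * P ≤ P := by nlinarith
    have h5 : c1 ^ 2 * (P * P) ≤ c1 ^ 2 * P := mul_le_mul_of_nonneg_left h4 (sq_nonneg _)
    rw [e]
    linarith
  have h4 : P * (1 + c1 * P) ≤ 1 + c1 := by
    have h5 : c1 * P ≤ c1 := mul_le_of_le_one_right hc hP1
    have h6 : 0 ≤ c1 * P := mul_nonneg hc hP
    calc P * (1 + c1 * P) ≤ 1 * (1 + c1 * P) :=
          mul_le_mul_of_nonneg_right hP1 (by linarith)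
      _ ≤ 1 + c1 := by linarith
  have h5 : P ^ 2 * (1 + c1 * P) ^ 2 ≤ P ^ 2 * (1 + (31 + 2 * c1 + c1 ^ 2) * P) :=
    mul_le_mul_of_nonneg_left h3 (sq_nonneg _)
  have h6 : 4 * C * s ^ 2 * (P * (1 + c1 * P)) ≤ 4 * C * s ^ 2 * (1 + c1) :=
    mul_le_mul_of_nonneg_left h4 (by positivity)
  have h1 : x ^ 2 ≤ P ^ 2 * (1 + (31 + 2 * c1 + c1 ^ 2) * P) +
      (4 * C * s ^ 2 * (1 + c1) + 4 * C ^ 2 * s ^ 4) := by
    rw [h2]
    linarith
  have h7 : (1 + (31 + 2 * c1 + c1 ^ 2) * P) * (P / Q) ^ 2 +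
      (4 * C * s ^ 2 * (1 + c1) + 4 * C ^ 2 * s ^ 4) / Q ^ 2 =
      (P ^ 2 * (1 + (31 + 2 * c1 + c1 ^ 2) * P) +
        (4 * C * s ^ 2 * (1 + c1) + 4 * C ^ 2 * s ^ 4)) / Q ^ 2 := by
    rw [div_pow]; ring
  rw [h7, div_pow]
  exact div_le_div_of_nonneg_right h1 (by positivity)

/-- end of the proof, `P > 1` -/
lemma fin2 {P c1 q Q : ℝ} (hP1 : 1 < P) (hc : 0 ≤ c1) (hQ : 0 < Q) (hQq : Q ≤ 2 * q) :
    8 * P ^ 2 / q ^ 2 ≤ (1 + (31 + 2 * c1 + c1 ^ 2) * P) * (P / Q) ^ 2 := by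
  have hP : 0 < P := by linarith
  have hq : 0 < q := by linarith
  have h2 : (P / (2 * q)) ^ 2 ≤ (P / Q) ^ 2 :=
    pow_le_pow_left₀ (by positivity) (div_le_div_of_nonneg_left hP.le hQ hQq) 2
  have h3 : 8 * P ^ 2 / q ^ 2 = 32 * (P / (2 * q)) ^ 2 := by
    rw [div_pow, mul_pow]
    ring
  rw [h3]
  have h4 : (32 : ℝ) ≤ 1 + (31 + 2 * c1 + c1 ^ 2) * P := by
    have h5 : 0 ≤ (2 * c1 + c1 ^ 2) * P := by positivity
    linarith
  calc 32 * (P / (2 * q)) ^ 2 ≤ 32 * (P / Q) ^ 2 := mul_le_mul_of_nonneg_left h2 (by norm_num)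
    _ ≤ _ := mul_le_mul_of_nonneg_right h4 (sq_nonneg _)

/-- the optimum over `r` -/
lemma opt {b v g A' r Th e1 : ℝ} (hb : 0 < b) (hg : 0 < g) (hgv : g ≤ v) (hA' : 0 ≤ A')
    (hU : b * (v * r ^ 2 + g * Th) ≤ A' * r + e1) (hcase : A' / (b * (v + g)) < r) :
    Th ≤ (A' / (b * (v + g))) ^ 2 + e1 / (b * g) := by
  have hv : 0 < v := hg.trans_le hgv
  have hQ0 : 0 < b * (v + g) := by positivity
  have hbg : 0 < b * g := by positivity
  obtain ⟨a, ha⟩ : ∃ a, a = A' / (b * (v + g)) := ⟨_, rfl⟩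
  rw [← ha] at hcase ⊢
  have ha0 : 0 ≤ a := by rw [ha]; exact div_nonneg hA' hQ0.le
  have hQa : A' = b * (v + g) * a := by rw [ha]; field_simp
  have h1 : A' * r - b * v * r ^ 2 ≤ b * g * a ^ 2 := by
    rw [hQa]
    have h2 : b * g * a ^ 2 - (b * (v + g) * a * r - b * v * r ^ 2) =
        b * (r - a) * (v * r - g * a) := by ring
    have h3 : 0 ≤ v * r - g * a := by
      have h4 : g * a ≤ v * a := mul_le_mul_of_nonneg_right hgv ha0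
      have h5 : v * a ≤ v * r := mul_le_mul_of_nonneg_left hcase.le hv.le
      linarith
    have h4 : 0 ≤ b * (r - a) * (v * r - g * a) :=
      mul_nonneg (mul_nonneg hb.le (by linarith)) h3
    linarith
  have h2 : b * g * Th ≤ b * g * a ^ 2 + e1 := by
    have e : b * (v * r ^ 2 + g * Th) = b * v * r ^ 2 + b * g * Th := by ring
    linarith
  have h3 : Th = b * g * Th / (b * g) := by field_simp
  rw [h3]
  have h4 : a ^ 2 + e1 / (b * g) = (b * g * a ^ 2 + e1) / (b * g) := by field_simp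
  rw [h4]
  exact div_le_div_of_nonneg_right h2 hbg.le

/-- `r² ≤ 8 P²/q² + 2 s²` -/
lemma sq_crude {q P r s : ℝ} (hr : 0 ≤ r) (hru : r ≤ 2 * P / q + s) :
    r ^ 2 ≤ 8 * P ^ 2 / q ^ 2 + 2 * s ^ 2 := by
  have h1 : r ^ 2 ≤ (2 * P / q + s) ^ 2 := pow_le_pow_left₀ hr hru 2
  have h2 : (2 * P / q + s) ^ 2 ≤ 2 * (2 * P / q) ^ 2 + 2 * s ^ 2 := by
    have := sq_nonneg (2 * P / q - s)
    have e : (2 * P / q + s) ^ 2 + (2 * P / q - s) ^ 2 = 2 * (2 * P / q) ^ 2 + 2 * s ^ 2 := by ring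
    linarith
  have h3 : 2 * (2 * P / q) ^ 2 = 8 * P ^ 2 / q ^ 2 := by
    rw [div_pow]; ring
  linarith

/-- **the cross row in real numbers.** -/
theorem p4num {b v g A r Th C e1 e2 e3 e4 rs : ℝ} (hb : 0 < b) (hg : 0 < g) (hgv : g ≤ v)
    (hr : 0 ≤ r) (hC : 0 ≤ C) (he1 : 0 ≤ e1) (he2 : 0 ≤ e2) (he3 : 0 ≤ e3) (he4 : 0 ≤ e4)
    (hrs : 0 ≤ rs)
    (U : b * (v * r ^ 2 + g * Th) ≤ A * r + C * r ^ 3 + e1) (V : Th ≤ r ^ 2 + e2)
    (R : r ≤ rs ∨ b * v * r ^ 2 ≤ (2 * max A 0 + e3) * r + e4) :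
    Th ≤ (1 + CP C (b * v) * max A 0) * (max A 0 / (b * (v + g))) ^ 2 +
      errP C (b * v) (b * (v + g)) (b * g) (sP (b * v) rs e3 e4) e1 e2 := by
  have hv : 0 < v := hg.trans_le hgv
  have hP : 0 ≤ max A 0 := le_max_right _ _
  have hAP : A ≤ max A 0 := le_max_left _ _
  have hq0 : 0 < b * v := by positivity
  have hQ0 : 0 < b * (v + g) := by positivity
  have hbg : 0 < b * g := by positivity
  have hs0 : 0 ≤ sP (b * v) rs e3 e4 := sP_nonneg hq0 hrs he3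
  have hru : r ≤ 2 * max A 0 / (b * v) + sP (b * v) rs e3 e4 := crude hq0 hP hr hrs he3 he4 R
  have hr2 := sq_crude hr hru
  have hc10 : 0 ≤ c1P C (b * v) := by unfold c1P; positivity
  have hCP : CP C (b * v) = 31 + 2 * c1P C (b * v) + c1P C (b * v) ^ 2 := rfl
  have hc1 : c1P C (b * v) = 8 * C / (b * v) ^ 2 := rfl
  rw [hCP]
  unfold errP
  generalize c1P C (b * v) = c1 at *
  generalize sP (b * v) rs e3 e4 = s at *
  generalize max A 0 = P at *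
  have hA'0 : 0 ≤ P * (1 + c1 * P) + 2 * C * s ^ 2 := by positivity
  have hCr : C * r ^ 3 ≤ (c1 * P ^ 2 + 2 * C * s ^ 2) * r := by
    have h1 : C * r ^ 3 = C * r ^ 2 * r := by ring
    rw [h1]
    refine mul_le_mul_of_nonneg_right ?_ hr
    have h2 : C * r ^ 2 ≤ C * (8 * P ^ 2 / (b * v) ^ 2 + 2 * s ^ 2) :=
      mul_le_mul_of_nonneg_left hr2 hC
    have h3 : C * (8 * P ^ 2 / (b * v) ^ 2 + 2 * s ^ 2) = c1 * P ^ 2 + 2 * C * s ^ 2 := by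
      rw [hc1]; ring
    linarith
  have hU : b * (v * r ^ 2 + g * Th) ≤ (P * (1 + c1 * P) + 2 * C * s ^ 2) * r + e1 := by
    have h1 : A * r ≤ P * r := mul_le_mul_of_nonneg_right hAP hr
    have h2 : (P * (1 + c1 * P) + 2 * C * s ^ 2) * r = P * r +
      (c1 * P ^ 2 + 2 * C * s ^ 2) * r := by ring
    linarith
  have he : 0 ≤ e1 / (b * g) := div_nonneg he1 hbg.le
  have hTh : Th ≤ ((P * (1 + c1 * P) + 2 * C * s ^ 2) / (b * (v + g))) ^ 2 +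
      (e2 + e1 / (b * g)) := by
    by_cases hcase : r ≤ (P * (1 + c1 * P) + 2 * C * s ^ 2) / (b * (v + g))
    · have h1 := pow_le_pow_left₀ hr hcase 2
      linarith
    · have := opt hb hg hgv hA'0 hU (not_le.1 hcase)
      linarith
  have hE : 0 ≤ (4 * C * s ^ 2 * (1 + c1) + 4 * C ^ 2 * s ^ 4) / (b * (v + g)) ^ 2 := by
    positivity
  have hs2 : 0 ≤ 2 * s ^ 2 := by positivity
  by_cases hP1 : P ≤ 1
  · have := fin1 hP hP1 hc10 hC hQ0 (x := P * (1 + c1 * P) + 2 * C * s ^ 2) rfl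
    linarith
  · have hQq : b * (v + g) ≤ 2 * (b * v) := by nlinarith
    have h1 := fin2 (c1 := c1) (not_le.1 hP1) hc10 hQ0 hQq
    linarith

/-! ### From the raw letters to the unit scale

`B = β² (1 - s u²)` visible bonds, `β χ = 1 + h`, `al = 2 h / u²`. -/

section unit

/-- the constant of the relative error in the unit scale (depends on `C`, `β` only) -/
noncomputable def CU (β C : ℝ) : ℝ := 4 * ((31 + 1024 * C + (512 * C) ^ 2) * (1 + β)) + 3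

noncomputable def KU (C g : ℝ) : ℝ :=
  64 * (576 * C * (1 + 512 * C) + 82944 * C ^ 2) + 289 + 4 / g

variable {β u s h χ B v g C r Th : ℝ}

/-- the effective coefficient `b = χ B` -/
lemma b_lo (hβ : 1 ≤ β) (hs : 0 ≤ s * u ^ 2) (hsu : s * u ^ 2 ≤ 1 / 2) (hh : -(1 / 2) ≤ h)
    (hχ : β * χ = 1 + h) (hB : B = β ^ 2 * (1 - s * u ^ 2)) :
    χ * B = β * (1 + h) * (1 - s * u ^ 2) ∧ β / 4 ≤ χ * B := by
  have e : χ * B = β * (1 + h) * (1 - s * u ^ 2) := by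
    rw [hB, ← hχ]
    ring
  refine ⟨e, ?_⟩
  rw [e]
  have h1 : (1 : ℝ) / 2 ≤ 1 + h := by linarith
  have h2 : (1 : ℝ) / 2 ≤ 1 - s * u ^ 2 := by linarith
  have h3 : (1 : ℝ) / 2 * (1 / 2) ≤ (1 + h) * (1 - s * u ^ 2) :=
    mul_le_mul h1 h2 (by norm_num) (by linarith)
  have h4 : β * (1 / 2 * (1 / 2)) ≤ β * ((1 + h) * (1 - s * u ^ 2)) :=
    mul_le_mul_of_nonneg_left h3 (by linarith)
  calc β / 4 = β * (1 / 2 * (1 / 2)) := by ring
    _ ≤ _ := h4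
    _ = _ := by ring

/-- the response: `A = (B χ² - 1)/u²` against `al - s`. -/
lemma A_le (hu : 0 < u) (hs : 0 ≤ s) (hsu : s * u ^ 2 ≤ 1 / 2) (hh : -(1 / 2) ≤ h)
    (hχ : β * χ = 1 + h) (hB : B = β ^ 2 * (1 - s * u ^ 2)) :
    max ((B * χ ^ 2 - 1) / u ^ 2) 0 ≤ max (2 * h / u ^ 2 - s) 0 * (1 + max h 0 / 2) := by
  have hu2 : 0 < u ^ 2 := by positivity
  have e1 : B * χ ^ 2 = (1 - s * u ^ 2) * (1 + h) ^ 2 := by
    rw [hB, ← hχ]
    ring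
  have hx : 0 ≤ s * u ^ 2 := by positivity
  have hR : 0 ≤ max (2 * h / u ^ 2 - s) 0 * (1 + max h 0 / 2) := by
    have h1 : 0 ≤ max (2 * h / u ^ 2 - s) 0 := le_max_right _ _
    have h2 : 0 ≤ max h 0 := le_max_right _ _
    positivity
  refine max_le ?_ hR
  rcases le_total h 0 with h0 | h0
  · refine le_trans ?_ hR
    rw [e1]
    refine div_nonpos_of_nonpos_of_nonneg ?_ hu2.le
    have h1 : (1 + h) ^ 2 ≤ 1 := by nlinarith
    have h2 : (1 - s * u ^ 2) * (1 + h) ^ 2 ≤ 1 * 1 :=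
      mul_le_mul (by linarith) h1 (by positivity) (by norm_num)
    linarith
  · rw [max_eq_left h0]
    have h1 : (B * χ ^ 2 - 1) / u ^ 2 ≤ (2 * h / u ^ 2 - s) * (1 + h / 2) := by
      rw [e1, div_le_iff₀ hu2]
      have e2 : (2 * h / u ^ 2 - s) * (1 + h / 2) * u ^ 2 =
          (2 * h - s * u ^ 2) * (1 + h / 2) := by field_simp
      rw [e2]
      have e3 : (2 * h - s * u ^ 2) * (1 + h / 2) - ((1 - s * u ^ 2) * (1 + h) ^ 2 - 1) =
          s * u ^ 2 * ((1 + h) ^ 2 - (1 + h / 2)) := by ring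
      have e4 : 0 ≤ (1 + h) ^ 2 - (1 + h / 2) := by nlinarith
      have := mul_nonneg hx e4
      linarith
    refine h1.trans (mul_le_mul_of_nonneg_right (le_max_left _ _) (by linarith))

/-- `max A 0 / b ≤ P₀ / (β (1 - s u²))`. -/
lemma ratio_le (hβ : 1 ≤ β) (hu : 0 < u) (hs : 0 ≤ s) (hsu : s * u ^ 2 ≤ 1 / 2)
    (hh : -(1 / 2) ≤ h) (hχ : β * χ = 1 + h) (hB : B = β ^ 2 * (1 - s * u ^ 2)) :
    max ((B * χ ^ 2 - 1) / u ^ 2) 0 / (χ * B) ≤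
      max (2 * h / u ^ 2 - s) 0 / (β * (1 - s * u ^ 2)) := by
  have hx : 0 ≤ s * u ^ 2 := by positivity
  obtain ⟨e, hb⟩ := b_lo hβ hx hsu hh hχ hB
  have hA := A_le hu hs hsu hh hχ hB
  have hP0 : 0 ≤ max (2 * h / u ^ 2 - s) 0 := le_max_right _ _
  have hbp : 0 < χ * B := by linarith
  have h1s : 0 < 1 - s * u ^ 2 := by linarith
  have hβ0 : 0 < β := by linarith
  rw [div_le_div_iff₀ hbp (by positivity), e]
  rcases le_total h 0 with h0 | h0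
  · -- h ≤ 0: then `max A 0 = 0`
    have hP : 2 * h / u ^ 2 - s ≤ 0 := by
      have : 2 * h / u ^ 2 ≤ 0 := div_nonpos_of_nonpos_of_nonneg (by linarith) (by positivity)
      linarith
    have hP' : max (2 * h / u ^ 2 - s) 0 = 0 := max_eq_right hP
    rw [hP'] at hA ⊢
    have h2 : max ((B * χ ^ 2 - 1) / u ^ 2) 0 = 0 :=
      le_antisymm (by linarith) (le_max_right _ _)
    rw [h2]
    linarith
  · rw [max_eq_left h0] at hA
    have h2 : max ((B * χ ^ 2 - 1) / u ^ 2) 0 ≤ max (2 * h / u ^ 2 - s) 0 * (1 + h) :=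
      hA.trans (mul_le_mul_of_nonneg_left (by linarith) hP0)
    calc max ((B * χ ^ 2 - 1) / u ^ 2) 0 * (β * (1 - s * u ^ 2)) ≤
          max (2 * h / u ^ 2 - s) 0 * (1 + h) * (β * (1 - s * u ^ 2)) :=
          mul_le_mul_of_nonneg_right h2 (by positivity)
      _ = _ := by ring

/-- `(1 - x)⁻² ≤ 1 + 6 x` on `[0, 1/2]`. -/
lemma inv_sq_le {x : ℝ} (h0 : 0 ≤ x) (h1 : x ≤ 1 / 2) : 1 / (1 - x) ^ 2 ≤ 1 + 6 * x := by
  rw [div_le_iff₀ (by nlinarith)]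
  nlinarith [mul_nonneg h0 (by linarith : (0 : ℝ) ≤ 1 / 2 - x), mul_nonneg (mul_nonneg h0 h0) h0,
    mul_nonneg (mul_nonneg h0 h0) (by linarith : (0 : ℝ) ≤ 1 / 2 - x)]

/-- the main term -/
lemma main_le {P P0 b Cp x Q : ℝ} (hP : 0 ≤ P) (hP0 : 0 ≤ P0) (hb : 0 < b) (hβ : 1 ≤ β)
    (hCp : 0 ≤ Cp) (hx0 : 0 ≤ x) (hx1 : x ≤ 1 / 2) (hQ : 0 < Q)
    (h1 : P ≤ P0 * (1 + β)) (h2 : P / b ≤ P0 / (β * (1 - x))) :
    (1 + Cp * P) * (P / (b * Q)) ^ 2 ≤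
      (1 + (4 * (Cp * (1 + β)) + 3) * P0) * (P0 / (β * Q)) ^ 2 + 6 * x / (β * Q) ^ 2 := by
  have hβ0 : 0 < β := by linarith
  have h1x : 0 < 1 - x := by linarith
  have e1 : P / (b * Q) = P / b / Q := by rw [div_div]
  have h3 : (P / (b * Q)) ^ 2 ≤ (P0 / (β * Q)) ^ 2 * (1 + 6 * x) := by
    have h4 : P / (b * Q) ≤ P0 / (β * Q) * (1 / (1 - x)) := by
      rw [e1]
      calc P / b / Q ≤ P0 / (β * (1 - x)) / Q := div_le_div_of_nonneg_right h2 hQ.le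
        _ = _ := by field_simp
    have h5 : (P / (b * Q)) ^ 2 ≤ (P0 / (β * Q) * (1 / (1 - x))) ^ 2 :=
      pow_le_pow_left₀ (by positivity) h4 2
    refine h5.trans ?_
    rw [mul_pow]
    refine mul_le_mul_of_nonneg_left ?_ (by positivity)
    rw [div_pow, one_pow]
    exact inv_sq_le hx0 hx1
  have h6 : 1 + Cp * P ≤ 1 + Cp * (1 + β) * P0 := by
    have := mul_le_mul_of_nonneg_left h1 hCp
    linarith
  have hC1 : 0 ≤ Cp * (1 + β) := by positivity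
  have h7 : (1 + Cp * P) * (P / (b * Q)) ^ 2 ≤
      (1 + Cp * (1 + β) * P0) * ((P0 / (β * Q)) ^ 2 * (1 + 6 * x)) :=
    mul_le_mul h6 h3 (by positivity) (by positivity)
  refine h7.trans ?_
  have e2 : (P0 / (β * Q)) ^ 2 = P0 ^ 2 / (β * Q) ^ 2 := div_pow _ _ _
  rw [e2]
  have e3 : (1 + Cp * (1 + β) * P0) * (P0 ^ 2 / (β * Q) ^ 2 * (1 + 6 * x)) =
      ((1 + Cp * (1 + β) * P0) * (1 + 6 * x) * P0 ^ 2) / (β * Q) ^ 2 := by ring
  have e4 : (1 + (4 * (Cp * (1 + β)) + 3) * P0) * (P0 ^ 2 / (β * Q) ^ 2) + 6 * x / (β * Q) ^ 2 =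
      ((1 + (4 * (Cp * (1 + β)) + 3) * P0) * P0 ^ 2 + 6 * x) / (β * Q) ^ 2 := by ring
  rw [e3, e4]
  refine div_le_div_of_nonneg_right ?_ (by positivity)
  generalize Cp * (1 + β) = D at *
  have h8 : P0 ^ 2 ≤ P0 ^ 3 + 1 := by
    rcases le_total P0 1 with h | h
    · have h9 : P0 ^ 2 ≤ 1 := pow_le_one₀ hP0 h
      have h10 : 0 ≤ P0 ^ 3 := by positivity
      linarith
    · have h9 : P0 ^ 2 * 1 ≤ P0 ^ 2 * P0 := mul_le_mul_of_nonneg_left h (by positivity)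
      have e : P0 ^ 3 = P0 ^ 2 * P0 := by ring
      rw [e]
      linarith
  have h9 : 6 * x * P0 ^ 2 ≤ 3 * P0 ^ 3 + 6 * x := by
    have h10 : 6 * x * P0 ^ 2 ≤ 6 * x * (P0 ^ 3 + 1) := mul_le_mul_of_nonneg_left h8 (by linarith)
    have h11 : 6 * x * P0 ^ 3 ≤ 3 * P0 ^ 3 :=
      mul_le_mul_of_nonneg_right (by linarith) (by positivity)
    linarith
  have h12 : 6 * x * (D * P0 ^ 3) ≤ 3 * (D * P0 ^ 3) :=
    mul_le_mul_of_nonneg_right (by linarith) (by positivity)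
  have e5 : (1 + D * P0) * (1 + 6 * x) * P0 ^ 2 =
      P0 ^ 2 + D * P0 ^ 3 + 6 * x * P0 ^ 2 + 6 * x * (D * P0 ^ 3) := by ring
  have e6 : (1 + (4 * D + 3) * P0) * P0 ^ 2 + 6 * x =
      P0 ^ 2 + 4 * (D * P0 ^ 3) + 3 * P0 ^ 3 + 6 * x := by ring
  rw [e5, e6]
  linarith

/-- `√x ≤ √δ`-size of the remainder -/
lemma sP_le {q rs e3 e4 δ : ℝ} (hq : 1 / 8 ≤ q) (h3 : e3 ≤ δ) (h4 : e4 ≤ δ) (hr : rs ≤ δ)
    (hδ0 : 0 ≤ δ) (hδ : δ ≤ 1) : sP q rs e3 e4 ≤ 12 * √δ := by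
  have hq0 : 0 < q := by linarith
  have hd : δ ≤ √δ := by
    have h1 : √δ ≤ 1 := Real.sqrt_le_one.2 hδ
    have h2 : √δ * √δ = δ := Real.mul_self_sqrt hδ0
    have h3 : √δ * √δ ≤ √δ * 1 := mul_le_mul_of_nonneg_left h1 (Real.sqrt_nonneg _)
    linarith
  have h5 : e3 / q ≤ 8 * δ := by
    rw [div_le_iff₀ hq0]
    nlinarith
  have h6 : √(e4 / q) ≤ 3 * √δ := by
    have h7 : e4 / q ≤ 9 * δ := by
      rw [div_le_iff₀ hq0]
      nlinarith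
    calc √(e4 / q) ≤ √(9 * δ) := Real.sqrt_le_sqrt h7
      _ = 3 * √δ := by
          rw [show (9 : ℝ) * δ = 3 ^ 2 * δ by ring, Real.sqrt_mul (by positivity),
            Real.sqrt_sq (by norm_num)]
  unfold sP
  linarith

lemma errP_le {q qg bg s e1 e2 δ : ℝ} (hC : 0 ≤ C) (hq : 1 / 8 ≤ q) (hqg : 1 / 8 ≤ qg)
    (hg : 0 < g) (hbg : g / 4 ≤ bg) (hs0 : 0 ≤ s) (hs : s ≤ 12 * √δ) (hδ0 : 0 ≤ δ) (hδ : δ ≤ 1)
    (h1 : e1 ≤ δ) (h2 : e2 ≤ δ) : errP C q qg bg s e1 e2 ≤ KU C g * δ := by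
  have hs2 : s ^ 2 ≤ 144 * δ := by
    have h3 := pow_le_pow_left₀ hs0 hs 2
    rw [mul_pow, Real.sq_sqrt hδ0] at h3
    linarith
  have hs4 : s ^ 4 ≤ 20736 * δ := by
    have h3 := pow_le_pow_left₀ (sq_nonneg s) hs2 2
    have e : (s ^ 2) ^ 2 = s ^ 4 := by ring
    rw [e] at h3
    have h4 : δ * δ ≤ δ * 1 := mul_le_mul_of_nonneg_left hδ hδ0
    have e' : (144 * δ) ^ 2 = 20736 * (δ * δ) := by ring
    rw [e'] at h3
    linarith
  have hc : c1P C q ≤ 512 * C := by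
    unfold c1P
    rw [div_le_iff₀ (by positivity)]
    have h3 : (1 / 8 : ℝ) ^ 2 ≤ q ^ 2 := pow_le_pow_left₀ (by norm_num) hq 2
    have h4 : 512 * C * (1 / 8) ^ 2 ≤ 512 * C * q ^ 2 :=
      mul_le_mul_of_nonneg_left h3 (by positivity)
    linarith
  have hc0 : 0 ≤ c1P C q := by unfold c1P; positivity
  have hqg2 : (1 / 64 : ℝ) ≤ qg ^ 2 := by
    have h3 : (1 / 8 : ℝ) ^ 2 ≤ qg ^ 2 := pow_le_pow_left₀ (by norm_num) hqg 2
    linarith
  have hX : 4 * C * s ^ 2 * (1 + c1P C q) + 4 * C ^ 2 * s ^ 4 ≤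
      (576 * C * (1 + 512 * C) + 82944 * C ^ 2) * δ := by
    have h3 : 4 * C * s ^ 2 * (1 + c1P C q) ≤ 4 * C * (144 * δ) * (1 + 512 * C) :=
      mul_le_mul (mul_le_mul_of_nonneg_left hs2 (by positivity)) (by linarith) (by linarith)
        (by positivity)
    have h4 : 4 * C ^ 2 * s ^ 4 ≤ 4 * C ^ 2 * (20736 * δ) :=
      mul_le_mul_of_nonneg_left hs4 (by positivity)
    have e1 : 4 * C * (144 * δ) * (1 + 512 * C) = 576 * C * (1 + 512 * C) * δ := by ring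
    have e2 : 4 * C ^ 2 * (20736 * δ) = 82944 * C ^ 2 * δ := by ring
    rw [e1] at h3
    rw [e2] at h4
    linarith
  have hX0 : 0 ≤ 4 * C * s ^ 2 * (1 + c1P C q) + 4 * C ^ 2 * s ^ 4 := by positivity
  have h5 : (4 * C * s ^ 2 * (1 + c1P C q) + 4 * C ^ 2 * s ^ 4) / qg ^ 2 ≤
      64 * ((576 * C * (1 + 512 * C) + 82944 * C ^ 2) * δ) := by
    have hqg0 : 0 < qg := by linarith
    rw [div_le_iff₀ (by positivity)]
    have hY : 0 ≤ (576 * C * (1 + 512 * C) + 82944 * C ^ 2) * δ := by positivity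
    have h6 : 64 * ((576 * C * (1 + 512 * C) + 82944 * C ^ 2) * δ) * (1 / 64) ≤
      64 * ((576 * C * (1 + 512 * C) + 82944 * C ^ 2) * δ) * qg ^ 2 :=
      mul_le_mul_of_nonneg_left hqg2 (by positivity)
    linarith
  have h6 : e1 / bg ≤ 4 / g * δ := by
    have hbg0 : 0 < bg := by linarith [div_pos hg (by norm_num : (0 : ℝ) < 4)]
    rw [div_le_iff₀ hbg0]
    have h7 : 4 / g * δ * (g / 4) ≤ 4 / g * δ * bg :=
      mul_le_mul_of_nonneg_left hbg (by positivity)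
    have e : 4 / g * δ * (g / 4) = δ := by field_simp
    linarith
  unfold errP KU
  have e : (64 * (576 * C * (1 + 512 * C) + 82944 * C ^ 2) + 289 + 4 / g) * δ =
    64 * ((576 * C * (1 + 512 * C) + 82944 * C ^ 2) * δ) + 288 * δ + δ + 4 / g * δ := by ring
  rw [e]
  linarith

lemma CP_le {q : ℝ} (hC : 0 ≤ C) (hq : 1 / 8 ≤ q) :
    CP C q ≤ 31 + 1024 * C + (512 * C) ^ 2 := by
  have hc : c1P C q ≤ 512 * C := by
    unfold c1P
    rw [div_le_iff₀ (by positivity)]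
    have h3 : (1 / 8 : ℝ) ^ 2 ≤ q ^ 2 := pow_le_pow_left₀ (by norm_num) hq 2
    have h4 : 512 * C * (1 / 8) ^ 2 ≤ 512 * C * q ^ 2 :=
      mul_le_mul_of_nonneg_left h3 (by positivity)
    linarith
  have hc0 : 0 ≤ c1P C q := by unfold c1P; positivity
  have h2 := pow_le_pow_left₀ hc0 hc 2
  unfold CP
  linarith

/-- sizes of `b v`, `b (v+g)`, `b g` -/
lemma b_sizes {b : ℝ} (hβ : 1 ≤ β) (hb : β / 4 ≤ b) (hv : 1 / 2 ≤ v) (hg : 0 < g) :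
    1 / 8 ≤ b * v ∧ 1 / 8 ≤ b * (v + g) ∧ g / 4 ≤ b * g := by
  have h1 : (1 : ℝ) / 4 ≤ b := by linarith
  refine ⟨?_, ?_, ?_⟩
  · calc (1 : ℝ) / 8 = 1 / 4 * (1 / 2) := by norm_num
      _ ≤ b * v := mul_le_mul h1 hv (by norm_num) (by linarith)
  · calc (1 : ℝ) / 8 = 1 / 4 * (1 / 2) := by norm_num
      _ ≤ b * (v + g) := mul_le_mul h1 (by linarith) (by norm_num) (by linarith)
  · calc g / 4 = 1 / 4 * g := by ring
      _ ≤ b * g := mul_le_mul_of_nonneg_right h1 hg.le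

/-- (R) in the unit scale -/
lemma R_unit {A rh b e3 e4 ρ rs E3 E4 : ℝ} (hu : 0 < u) (hr : 0 ≤ rh)
    (hrs : rs ≤ ρ * u) (hE3 : E3 ≤ e3 * u ^ 2) (hE4 : E4 ≤ e4 * u ^ 3)
    (hb : b = χ * B) (hA : B * χ ^ 2 - 1 = A * u ^ 2)
    (R : rh * u ≤ rs ∨ χ * (v * u * B * (rh * u) ^ 2) ≤
      (2 * max (B * χ ^ 2 - 1) 0 + E3) * (rh * u) + E4) :
    rh ≤ ρ ∨ b * v * rh ^ 2 ≤ (2 * max A 0 + e3) * rh + e4 := by
  have hu2 : 0 < u ^ 2 := by positivity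
  have hu3 : 0 < u ^ 3 := by positivity
  have hmax : max (B * χ ^ 2 - 1) 0 = max A 0 * u ^ 2 := by
    rw [hA, max_mul_of_nonneg _ _ hu2.le, zero_mul]
  rcases R with R | R
  · left
    exact le_of_mul_le_mul_right (R.trans hrs) hu
  · right
    rw [hmax] at R
    have h2 : E3 * (rh * u) ≤ e3 * u ^ 2 * (rh * u) :=
      mul_le_mul_of_nonneg_right hE3 (by positivity)
    have e1 : χ * (v * u * B * (rh * u) ^ 2) = b * v * rh ^ 2 * u ^ 3 := by rw [hb]; ring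
    have e2 : (2 * (max A 0 * u ^ 2) + E3) * (rh * u) + E4 =
        2 * max A 0 * rh * u ^ 3 + E3 * (rh * u) + E4 := by ring
    have e3' : ((2 * max A 0 + e3) * rh + e4) * u ^ 3 =
        2 * max A 0 * rh * u ^ 3 + e3 * u ^ 2 * (rh * u) + e4 * u ^ 3 := by ring
    rw [e1, e2] at R
    refine le_of_mul_le_mul_right ?_ hu3
    rw [e3']
    linarith

/-- (U) in the unit scale -/
lemma U_unit {A rh T b δ E1 G : ℝ} (hu : 0 < u) (hχ0 : 0 ≤ χ)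
    (hE1 : E1 ≤ δ * u ^ 3) (hG : g * u * B * (T * u ^ 2) ≤ G)
    (hb : b = χ * B) (hA : B * χ ^ 2 - 1 = A * u ^ 2)
    (U : χ * (v * u * B * (rh * u) ^ 2 + G) ≤
      (B * χ ^ 2 - 1) * (rh * u) + C * (rh * u) ^ 3 + E1) :
    b * (v * rh ^ 2 + g * T) ≤ A * rh + C * rh ^ 3 + δ := by
  have hu3 : 0 < u ^ 3 := by positivity
  have h2 : χ * (v * u * B * (rh * u) ^ 2 + g * u * B * (T * u ^ 2)) ≤
      χ * (v * u * B * (rh * u) ^ 2 + G) :=
    mul_le_mul_of_nonneg_left (by linarith) hχ0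
  rw [hA] at U
  refine le_of_mul_le_mul_right ?_ hu3
  have e1 : b * (v * rh ^ 2 + g * T) * u ^ 3 =
      χ * (v * u * B * (rh * u) ^ 2 + g * u * B * (T * u ^ 2)) := by rw [hb]; ring
  have e2 : (A * rh + C * rh ^ 3 + δ) * u ^ 3 =
      A * u ^ 2 * (rh * u) + C * (rh * u) ^ 3 + δ * u ^ 3 := by ring
  rw [e1, e2]
  linarith

/-- the last combination -/
lemma comb {T X Y Z c c' m D e : ℝ} (h : T ≤ (1 + c * m) * X + D) (hc : c ≤ c') (hm : 0 ≤ m)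
    (hX : 0 ≤ X) (h1 : (1 + c' * m) * X ≤ Y + Z) (hD : D ≤ e) : T ≤ Y + (e + Z) := by
  have h2 : c * m ≤ c' * m := mul_le_mul_of_nonneg_right hc hm
  have h3 : (1 + c * m) * X ≤ (1 + c' * m) * X := mul_le_mul_of_nonneg_right (by linarith) hX
  linarith

/-- **the cross row, from raw letters to the unit scale.** `al = 2 h / u²`. -/
theorem p4unit {E1 E3 E4 D2 rs δ G : ℝ} (hβ : 1 ≤ β) (hu : 0 < u) (hs : 0 ≤ s)
    (hsu : s * u ^ 2 ≤ 1 / 2) (hh : -(1 / 2) ≤ h) (hχ : β * χ = 1 + h) (hχ1 : χ ≤ 1)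
    (hB : B = β ^ 2 * (1 - s * u ^ 2)) (hC : 0 ≤ C) (hv : 1 / 2 ≤ v) (hg : 0 < g) (hgv : g ≤ v)
    (hr : 0 ≤ r) (hδ0 : 0 ≤ δ) (hδ : δ ≤ 1) (hE1 : E1 ≤ δ * u ^ 3) (hD : D2 ≤ δ * u ^ 2)
    (hrs : rs ≤ δ * u) (hE3 : E3 ≤ δ * u ^ 2) (hE4 : E4 ≤ δ * u ^ 3)
    (hG : g * u * B * Th ≤ G)
    (U : χ * (v * u * B * r ^ 2 + G) ≤ (B * χ ^ 2 - 1) * r + C * r ^ 3 + E1)
    (V : Th ≤ r ^ 2 + D2)
    (R : r ≤ rs ∨ χ * (v * u * B * r ^ 2) ≤ (2 * max (B * χ ^ 2 - 1) 0 + E3) * r + E4) :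
    Th / u ^ 2 ≤ (1 + CU β C * max (2 * h / u ^ 2 - s) 0) *
      (max (2 * h / u ^ 2 - s) 0 / (β * (v + g))) ^ 2 +
      (KU C g * δ + 6 * (s * u ^ 2) / (β * (v + g)) ^ 2) := by
  have hx : 0 ≤ s * u ^ 2 := by positivity
  obtain ⟨eb, hb⟩ := b_lo hβ hx hsu hh hχ hB
  have hbp : 0 < χ * B := by linarith
  have hβ0 : 0 < β := by linarith
  have hχ0 : 0 ≤ χ := by
    have h1 : 0 < β * χ := by rw [hχ]; linarith
    exact (pos_of_mul_pos_right h1 hβ0.le).le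
  have hu2 : 0 < u ^ 2 := by positivity
  obtain ⟨rh, hrh⟩ : ∃ x, x = r / u := ⟨_, rfl⟩
  obtain ⟨T, hT⟩ : ∃ x, x = Th / u ^ 2 := ⟨_, rfl⟩
  obtain ⟨A, hA⟩ : ∃ x, x = (B * χ ^ 2 - 1) / u ^ 2 := ⟨_, rfl⟩
  have er : r = rh * u := by rw [hrh]; field_simp
  have eT : Th = T * u ^ 2 := by rw [hT]; field_simp
  have eA : B * χ ^ 2 - 1 = A * u ^ 2 := by rw [hA]; field_simp
  have hrh0 : 0 ≤ rh := by rw [hrh]; positivity
  have hAle := A_le hu hs hsu hh hχ hB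
  have hrat := ratio_le hβ hu hs hsu hh hχ hB
  rw [← hA] at hAle hrat
  have hP0 : 0 ≤ max (2 * h / u ^ 2 - s) 0 := le_max_right _ _
  have hhβ : max h 0 ≤ β := by
    refine max_le ?_ hβ0.le
    have : β * χ ≤ β * 1 := mul_le_mul_of_nonneg_left hχ1 hβ0.le
    linarith
  rw [eT] at hG V
  rw [er] at U V R
  have U' := U_unit (b := χ * B) hu hχ0 hE1 hG rfl eA U
  have V' : T ≤ rh ^ 2 + δ := by
    refine le_of_mul_le_mul_right ?_ hu2
    have e : (rh ^ 2 + δ) * u ^ 2 = (rh * u) ^ 2 + δ * u ^ 2 := by ring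
    rw [e]
    linarith
  have R' := R_unit (b := χ * B) (v := v) hu hrh0 hrs hE3 hE4 rfl eA R
  obtain ⟨hbv, hbQ, hbg⟩ := b_sizes hβ hb hv hg
  have key := p4num hbp hg hgv hrh0 hC hδ0 hδ0 hδ0 hδ0 hδ0 U' V' R'
  have hs1 := sP_nonneg (q := χ * B * v) (rs := δ) (e3 := δ) (e4 := δ) (by linarith) hδ0 hδ0
  have hs2 := sP_le hbv (le_refl δ) (le_refl δ) (le_refl δ) hδ0 hδ
  have herr := errP_le (C := C) (g := g) hC hbv hbQ hg hbg hs1 hs2 hδ0 hδ (le_refl δ) (le_refl δ)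
  have hCP := CP_le (C := C) hC hbv
  have hm0 : 0 ≤ max A 0 := le_max_right _ _
  have h2 : max A 0 ≤ max (2 * h / u ^ 2 - s) 0 * (1 + β) := by
    refine hAle.trans (mul_le_mul_of_nonneg_left ?_ hP0)
    linarith
  have h3 := main_le (β := β) (b := χ * B) (Cp := 31 + 1024 * C + (512 * C) ^ 2)
    (x := s * u ^ 2) (Q := v + g) hm0 hP0 hbp hβ (by positivity) hx hsu (by linarith) h2 hrat
  rw [← hT]
  exact comb key hCP hm0 (sq_nonneg _) h3 herr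

/-- **the crude bound of the overlap in the unit scale** (visible field `E4 = e4 u³`). -/
theorem r_unit {E3 E4 rs e3 e4 ρ : ℝ} (hβ : 1 ≤ β) (hu : 0 < u) (hs : 0 ≤ s)
    (hsu : s * u ^ 2 ≤ 1 / 2) (hh : -(1 / 2) ≤ h) (hχ : β * χ = 1 + h)
    (hB : B = β ^ 2 * (1 - s * u ^ 2)) (hv : 1 / 2 ≤ v) (hr : 0 ≤ r)
    (he3 : 0 ≤ e3) (he4 : 0 ≤ e4) (hρ : 0 ≤ ρ)
    (hrs : rs ≤ ρ * u) (hE3 : E3 ≤ e3 * u ^ 2) (hE4 : E4 ≤ e4 * u ^ 3)
    (R : r ≤ rs ∨ χ * (v * u * B * r ^ 2) ≤ (2 * max (B * χ ^ 2 - 1) 0 + E3) * r + E4) :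
    r / u ≤ 2 * max (2 * h / u ^ 2 - s) 0 / (β * (1 - s * u ^ 2) * v) +
      (8 * e3 + √(8 * e4) + ρ) := by
  have hx : 0 ≤ s * u ^ 2 := by positivity
  obtain ⟨eb, hb⟩ := b_lo hβ hx hsu hh hχ hB
  have hbp : 0 < χ * B := by linarith
  have hβ0 : 0 < β := by linarith
  have hu2 : 0 < u ^ 2 := by positivity
  obtain ⟨rh, hrh⟩ : ∃ x, x = r / u := ⟨_, rfl⟩
  obtain ⟨A, hA⟩ : ∃ x, x = (B * χ ^ 2 - 1) / u ^ 2 := ⟨_, rfl⟩
  have er : r = rh * u := by rw [hrh]; field_simp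
  have eA : B * χ ^ 2 - 1 = A * u ^ 2 := by rw [hA]; field_simp
  have hrh0 : 0 ≤ rh := by rw [hrh]; positivity
  have hrat := ratio_le hβ hu hs hsu hh hχ hB
  rw [← hA] at hrat
  rw [er] at R
  have R' := R_unit (b := χ * B) (v := v) hu hrh0 hrs hE3 hE4 rfl eA R
  obtain ⟨hbv, -, -⟩ := b_sizes hβ hb hv (zero_lt_one)
  have hbv0 : 0 < χ * B * v := by linarith
  have hm0 : 0 ≤ max A 0 := le_max_right _ _
  have hP0 : 0 ≤ max (2 * h / u ^ 2 - s) 0 := le_max_right _ _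
  have key := crude hbv0 hm0 hrh0 hρ he3 he4 R'
  have h1 : 2 * max A 0 / (χ * B * v) ≤
      2 * max (2 * h / u ^ 2 - s) 0 / (β * (1 - s * u ^ 2) * v) := by
    have e1 : 2 * max A 0 / (χ * B * v) = 2 / v * (max A 0 / (χ * B)) := by
      field_simp
    have h1s : 0 < 1 - s * u ^ 2 := by linarith
    have hv0 : 0 < v := by linarith
    have e2 : 2 * max (2 * h / u ^ 2 - s) 0 / (β * (1 - s * u ^ 2) * v) =
        2 / v * (max (2 * h / u ^ 2 - s) 0 / (β * (1 - s * u ^ 2))) := by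
      field_simp
    rw [e1, e2]
    exact mul_le_mul_of_nonneg_left hrat (by positivity)
  have h2 : sP (χ * B * v) ρ e3 e4 ≤ 8 * e3 + √(8 * e4) + ρ := by
    unfold sP
    have h3 : e3 / (χ * B * v) ≤ 8 * e3 := by
      rw [div_le_iff₀ hbv0]
      nlinarith
    have h4 : √(e4 / (χ * B * v)) ≤ √(8 * e4) := by
      refine Real.sqrt_le_sqrt ?_
      rw [div_le_iff₀ hbv0]
      nlinarith
    linarith
  rw [← hrh]
  linarith

end unit

end Vale.Agent.P146.H93.Pnum
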