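import Vale.Agent.P146.H877x.Sm
import Vale.Agent.P146.H379.RowF
import Vale.Agent.P146.H985.Chaos3

/-!
# P146: own and cross influences of a row, second derivatives (helper93)

`Vf S l i x_k = T_l (x_k (1 - ∑_(j > l) p_j x_i T_j x_i))`, any level `l` and any number of levels:
the second derivatives in the row of a site, and their tensor bound.
-/

open MeasureTheory ProbabilityTheory

namespace Vale.Agent.P146.H93.Own

open Vale.Agent.P157 Vale.Agent.P157.Lv Vale.Agent.P157.Lv.Sy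
open Vale.Agent.P146.H425 Vale.Agent.P146.H325 Vale.Agent.P146.H985
open Vale.Agent.P146.H379.Row

set_option linter.unusedSectionVars false

section gen

variable {ι X : Type} [Fintype ι] [DecidableEq ι] [Fintype X] [DecidableEq X] [Nonempty X]
  {S : Sy ι X} {l : ℕ}

/-- the three slots -/
abbrev K3 : Type := (Unit ⊕ Unit) ⊕ Unit

/-- three slot functions -/
def s3 {X : Type} (f g h : X → ℝ) : K3 → X → ℝ :=
  Sum.elim (Sum.elim (fun _ => f) (fun _ => g)) (fun _ => h)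

variable {A1 A2 A3 : Type} [Fintype A1] [Fintype A2] [Fintype A3]

/-- the extended slot functions -/
def ph3 (φ1 : X → A1 → ℝ) (φ2 : X → A2 → ℝ) (φ3 : X → A3 → ℝ) : K3 → X → (A1 ⊕ A2) ⊕ A3 → ℝ :=
  Sum.elim (Sum.elim (fun _ x => Sum.elim (Sum.elim (φ1 x) 0) 0)
    (fun _ x => Sum.elim (Sum.elim 0 (φ2 x)) 0)) (fun _ x => Sum.elim (Sum.elim 0 0) (φ3 x))

/-- the multi-index of a triple -/
def ix3 (t : A1 × A2 × A3) : K3 → (A1 ⊕ A2) ⊕ A3 :=
  Sum.elim (Sum.elim (fun _ => Sum.inl (Sum.inl t.1)) (fun _ => Sum.inl (Sum.inr t.2.1)))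
    (fun _ => Sum.inr t.2.2)

lemma ix3_inj : Function.Injective (ix3 (A1 := A1) (A2 := A2) (A3 := A3)) := by
  intro t t' h
  have h1 := congrFun h (Sum.inl (Sum.inl ()))
  have h2 := congrFun h (Sum.inl (Sum.inr ()))
  have h3 := congrFun h (Sum.inr ())
  simp only [ix3, Sum.elim_inl, Sum.elim_inr, Sum.inl.injEq, Sum.inr.injEq] at h1 h2 h3
  exact Prod.ext h1 (Prod.ext h2 h3)

/-- **The tensor bound** of a family with three slots. -/
theorem tens3 (hS : S.Reg) (hl : l ≤ S.K) {C : ℝ} (hC : 0 ≤ C)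
    {h : (K3 → X → ℝ) → (ι → ℝ) → X → ℝ} (hh : H877x.Cl S l K3 C h)
    (φ1 : X → A1 → ℝ) (φ2 : X → A2 → ℝ) (φ3 : X → A3 → ℝ) (z : ι → ℝ) :
    ∑ k, ∑ e, ∑ e', S.T l (h (s3 (fun x => φ1 x k) (fun x => φ2 x e) (fun x => φ3 x e'))) z ^ 2 ≤
      C ^ 2 * (1 / 3 * (H877x.pp S l z (fun x x' => |∑ j, φ1 x j * φ1 x' j| ^ 3) +
        H877x.pp S l z (fun x x' => |∑ j, φ2 x j * φ2 x' j| ^ 3) +
        H877x.pp S l z (fun x x' => |∑ j, φ3 x j * φ3 x' j| ^ 3))) := by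
  classical
  obtain ⟨θ, π, hk, he⟩ := hh
  have h1 := H877x.ct_bound hS hl hC hk (ph3 φ1 φ2 φ3) z
  have e1 : ∀ t : A1 × A2 × A3, S.T l (h (s3 (fun x => φ1 x t.1) (fun x => φ2 x t.2.1)
      (fun x => φ3 x t.2.2))) z =
      S.T l (fun z x => H877x.ct θ (fun r s => ph3 φ1 φ2 φ3 r s (ix3 t r)) z x) z := by
    intro t
    congr 1
    funext z x
    rw [he]
    congr 1
    funext r s
    rcases r with (r | r) | r <;> rfl
  have h2 : ∑ k, ∑ e, ∑ e', S.T l (h (s3 (fun x => φ1 x k) (fun x => φ2 x e)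
      (fun x => φ3 x e'))) z ^ 2 = ∑ t : A1 × A2 × A3,
      S.T l (fun z x => H877x.ct θ (fun r s => ph3 φ1 φ2 φ3 r s (ix3 t r)) z x) z ^ 2 := by
    rw [Fintype.sum_prod_type]
    refine Finset.sum_congr rfl fun k _ => ?_
    rw [Fintype.sum_prod_type]
    refine Finset.sum_congr rfl fun e _ => Finset.sum_congr rfl fun e' _ => ?_
    rw [← e1 (k, e, e')]
  rw [h2]
  have h3 : ∑ t : A1 × A2 × A3,
      S.T l (fun z x => H877x.ct θ (fun r s => ph3 φ1 φ2 φ3 r s (ix3 t r)) z x) z ^ 2 ≤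
      ∑ I : K3 → (A1 ⊕ A2) ⊕ A3,
        S.T l (fun z x => H877x.ct θ (fun r s => ph3 φ1 φ2 φ3 r s (I r)) z x) z ^ 2 := by
    rw [← Finset.sum_image (s := Finset.univ) (g := ix3)
      (f := fun I : K3 → (A1 ⊕ A2) ⊕ A3 =>
        S.T l (fun z x => H877x.ct θ (fun r s => ph3 φ1 φ2 φ3 r s (I r)) z x) z ^ 2)
      (fun a _ b _ hab => ix3_inj hab)]
    exact Finset.sum_le_sum_of_subset_of_nonneg (Finset.subset_univ _) fun _ _ _ => sq_nonneg _
  refine (h3.trans h1).trans (le_of_eq ?_)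
  have hc : Fintype.card K3 = 3 := by decide
  rw [hc]
  congr 1
  rw [Fintype.sum_sum_type, Fintype.sum_sum_type]
  simp only [Finset.univ_unique, Finset.sum_singleton]
  have q1 : ∀ x x' : X, ∑ j, ph3 φ1 φ2 φ3 (Sum.inl (Sum.inl ())) x j *
      ph3 φ1 φ2 φ3 (Sum.inl (Sum.inl ())) x' j = ∑ j, φ1 x j * φ1 x' j := by
    intro x x'
    rw [Fintype.sum_sum_type, Fintype.sum_sum_type]
    simp [ph3]
  have q2 : ∀ x x' : X, ∑ j, ph3 φ1 φ2 φ3 (Sum.inl (Sum.inr ())) x j *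
      ph3 φ1 φ2 φ3 (Sum.inl (Sum.inr ())) x' j = ∑ j, φ2 x j * φ2 x' j := by
    intro x x'
    rw [Fintype.sum_sum_type, Fintype.sum_sum_type]
    simp [ph3]
  have q3 : ∀ x x' : X, ∑ j, ph3 φ1 φ2 φ3 (Sum.inr ()) x j *
      ph3 φ1 φ2 φ3 (Sum.inr ()) x' j = ∑ j, φ3 x j * φ3 x' j := by
    intro x x'
    rw [Fintype.sum_sum_type, Fintype.sum_sum_type]
    simp [ph3]
  have hd : (default : Unit) = () := rfl
  rw [hd]
  simp only [q1, q2, q3]
  norm_num

end gen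

/-! ### The tower of `Vf` -/

variable {n K : ℕ} {m : ℕ → ℝ}

/-- the directions: the rows -/
def psi (c : Fin n) (g : Unit → (Fin n → ℤˣ) → ℝ) (x : Fin n → ℤˣ) : ℝ := sp x c * g () x

lemma cl_psi (S : Sy (Cd n K) (Fin n → ℤˣ)) (l : ℕ) (c : Fin n) :
    H877x.Cl S l Unit 1 fun g _ x => psi c g x := by
  have h := (H877x.Cl.ev S l).mul_bdd (b := fun _ x => sp x c) (Nh.snd _) (C' := 1)
    (fun _ x => (abs_sp x c).le)
  rw [mul_one] at h
  exact h

/-- the constant -/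
noncomputable def CV : ℝ := H877x.tc 2 * (2 ^ 2 * (1 * (1 + 2 ^ 2 * (1 * H877x.tc 2))))

lemma CV_nonneg : 0 ≤ CV := by
  have := H877x.tc_nonneg 2
  unfold CV
  positivity

/-- `Mm` is smooth -/
lemma sm_Mm {S : Sy (Cd n K) (Fin n → ℤˣ)} {D : Cd n K → (Cd n K → ℝ) → (Fin n → ℤˣ) → ℝ}
    (hD : S.RegD D) {l : ℕ} (hl : l ≤ S.K) (i : Fin n) (N : ℕ) :
    H877x.Sm S D l (κ0 := fun _ : Fin n => Unit) psi N (PEmpty ⊕ PEmpty)
      (1 + 2 ^ N * (1 * H877x.tc N)) fun _ z x => Mm S l i z x := by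
  have hS := hD.toReg
  have h0 : H877x.Sm S D l (κ0 := fun _ : Fin n => Unit) psi N PEmpty 1
      fun _ (_ : Cd n K → ℝ) x => sp x i :=
    H877x.Sm.bdd hS hl zero_le_one fun x => (abs_sp x i).le
  have h1 : H877x.Sm S D l (κ0 := fun _ : Fin n => Unit) psi N (PEmpty ⊕ PEmpty) 1
      fun _ (_ : Cd n K → ℝ) _ => 1 :=
    (H877x.Sm.bdd hS hl zero_le_one (b := fun _ => 1) fun x => by simp).reindex
      (Equiv.equivOfIsEmpty PEmpty (PEmpty ⊕ PEmpty))
  have h2 : ∀ j ∈ Finset.Ico (l + 1) (S.K + 1),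
      H877x.Sm S D l (κ0 := fun _ : Fin n => Unit) psi N (PEmpty ⊕ PEmpty)
        (S.p j * (2 ^ N * (1 * H877x.tc N))) fun _ z x => (-S.p j) * (sp x i * dd S j i z) := by
    intro j hj
    rw [Finset.mem_Ico] at hj
    have hp := H877x.p_nonneg hS (j := j) (by omega)
    have h3 := H877x.Sm.T hD hl (fun c => cl_psi S l c) (i := j) (by omega) (by omega)
      zero_le_one h0
    rw [mul_one] at h3
    have h4 := (H877x.Sm.mul hS hl zero_le_one (H877x.tc_nonneg N) h0 h3).const_mul (-S.p j)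
    rw [abs_neg, abs_of_nonneg hp] at h4
    exact h4
  have h5 := H877x.Sm.sum hS hl (Finset.Ico (l + 1) (S.K + 1))
    (c := fun j => S.p j * (2 ^ N * (1 * H877x.tc N))) (fun j hj => by
      rw [Finset.mem_Ico] at hj
      have hp := H877x.p_nonneg hS (j := j) (by omega)
      have := H877x.tc_nonneg N
      positivity) h2
  have hm1 : ∑ j ∈ Finset.Ico (l + 1) (S.K + 1), S.p j * (2 ^ N * (1 * H877x.tc N)) ≤
      2 ^ N * (1 * H877x.tc N) := by
    rw [← Finset.sum_mul]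
    have h6 := H877x.sum_p hS hl
    have h7 : 0 ≤ S.m (l + 1) := (hS.m_pos (by omega) (by omega)).le
    have h8 := H877x.tc_nonneg N
    have h9 : 0 ≤ 2 ^ N * (1 * H877x.tc N) := by positivity
    nlinarith
  have h10 := H877x.Sm.add hS hl zero_le_one (by
    have := H877x.tc_nonneg N
    positivity) h1 (h5.mono hm1)
  refine h10.congr fun f z x => ?_
  unfold Mm
  simp only [neg_mul, Finset.sum_neg_distrib]
  ring

/-- **`Vf` is smooth.** -/
theorem sm_Vf {S : Sy (Cd n K) (Fin n → ℤˣ)} {D : Cd n K → (Cd n K → ℝ) → (Fin n → ℤˣ) → ℝ}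
    (hD : S.RegD D) {l : ℕ} (hl : l ≤ S.K) (i : Fin n) :
    H877x.Sm S D l (κ0 := fun _ : Fin n => Unit) psi 2 Unit CV
      fun f z _ => Vf S l i (f ()) z := by
  have hS := hD.toReg
  have h1 := H877x.Sm.mul hS hl zero_le_one (by
    have := H877x.tc_nonneg 2
    positivity) (H877x.Sm.ev (D := D) (ψ := (psi : Fin n → _)) (N := 2) hS hl)
    (sm_Mm hD hl i 2)
  have h2 := h1.reindex (Equiv.sumEmpty Unit (PEmpty ⊕ PEmpty))
  have h3 := H877x.Sm.T hD hl (fun c => cl_psi S l c) (i := l) le_rfl hl (by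
    have := H877x.tc_nonneg 2
    positivity) h2
  exact h3

end Vale.Agent.P146.H93.Own
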