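import Vale.Agent.P146.H93.U1

/-!
# P146: the upper row inequality, step 2 (helper93)

The variance over the site `i` of the responses `V_ik`: Poincaré for the swap of two sites, then
for the flip of one site; the second derivatives are bounded by the tensor bound.
-/

open MeasureTheory ProbabilityTheory

namespace Vale.Agent.P146.H93

open Vale.Agent.P157 Vale.Agent.P157.Lv Vale.Agent.P157.Lv.Sy
open Vale.Agent.P146.H425 Vale.Agent.P146.H325 Vale.Agent.P146.H985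

set_option linter.unusedSectionVars false

section lin

variable {ι X : Type} [Fintype ι] [DecidableEq ι] [Fintype X] [DecidableEq X] [Nonempty X]
  {S : Sy ι X} {a : X → ι → ℝ} {R : Type} [Fintype R] [DecidableEq R]

lemma tn_smul (k : ℝ) (f : (R → X) → ℝ) (g : X → ℝ) :
    tn (fun σ => k * f σ) g = fun σ => k * tn f g σ := by
  funext σ
  unfold tn
  ring

lemma d1_smul (k : ℝ) (f : (R → X) → ℝ) (e : ι) (z : ι → ℝ) :
    d1 S a (fun σ => k * f σ) e z = k * d1 S a f e z := by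
  unfold d1
  have e1 : (fun σ : R → X => k * f σ * ∑ r, a (σ r) e) =
      fun σ => k * (f σ * ∑ r, a (σ r) e) := by funext σ; ring
  rw [e1, tn_smul, ER_smul, ER_smul, ER_smul]
  ring

lemma d2_smul (k : ℝ) (f : (R → X) → ℝ) (e e' : ι) (z : ι → ℝ) :
    d2 S a (fun σ => k * f σ) e e' z = k * d2 S a f e e' z := by
  unfold d2
  have e1 : (fun σ : R → X => k * f σ * ∑ r, a (σ r) e) =
      fun σ => k * (f σ * ∑ r, a (σ r) e) := by funext σ; ring
  rw [e1, tn_smul, d1_smul, d1_smul, d1_smul, ER_smul]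
  ring

variable {π : ι ≃ ι} {ε : ι → ℝ} {τ : X ≃ X}

/-- the derivative of an even leaf average in a coordinate of the flipped row is odd -/
lemma d1_odd (h : SyS S π ε τ) {f : (R → X) → ℝ} (hf : ∀ σ, f (fun r => τ.symm (σ r)) = f σ)
    {e : ι} (he : ∀ x, a (τ.symm x) e = -a x e) (z : ι → ℝ) :
    d1 S a f e (gz π ε z) = -d1 S a f e z := by
  unfold d1
  have h1 : ER S (fun σ : R → X => f σ * ∑ r, a (σ r) e) (gz π ε z) =
      -ER S (fun σ : R → X => f σ * ∑ r, a (σ r) e) z := by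
    refine h.ER_odd (fun σ => ?_) z
    rw [hf]
    simp only [he, Finset.sum_neg_distrib]
    ring
  have h2 : ER S (tn f fun x => a x e) (gz π ε z) = -ER S (tn f fun x => a x e) z := by
    refine h.ER_odd (fun σ => ?_) z
    unfold tn
    beta_reduce
    rw [he, hf (fun r => σ (some r))]
    ring
  have h3 : ER S f (gz π ε z) = ER S f z := h.ER_even hf z
  have h4 : E1 S (fun x => a x e) (gz π ε z) = -E1 S (fun x => a x e) z :=
    h.T_odd 1 he z
  rw [h1, h2, h3, h4]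
  ring

end lin

variable {n : ℕ} {m b w : ℕ → ℝ}

/-- the function of two replicas with the leaf average `G_ik` -/
def F2 (i k : Fin n) : (Option Unit → (Fin n → ℤˣ)) → ℝ :=
  fun σ => (sp (σ (some ())) i * sp (σ none) i) * sp (σ none) k

lemma Gk_eq (S : Sy (Cd n 2) (Fin n → ℤˣ)) (i k : Fin n) : Gk S i k = ER S (F2 i k) := rfl

lemma F2_flip {i k c : Fin n} (hc : k ≠ c) (σ : Option Unit → (Fin n → ℤˣ)) :
    F2 i k (fun r => (fX c).symm (σ r)) = F2 i k σ := by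
  unfold F2
  rw [fX_symm]
  simp only [sp_fX]
  rw [if_neg hc]
  split_ifs <;> ring

lemma aSK_flip {c : Fin n} {e : Cd n 2} (he : tch c e.1) (x : Fin n → ℤˣ) :
    aSK n 2 b w ((fX c).symm x) e = -aSK n 2 b w x e := by
  rw [fX_symm]
  unfold aSK
  rw [st_fX, if_pos he]
  ring

/-- the size of the rows -/
def LL (m b w : ℕ → ℝ) (n : ℕ) (L : ℝ) : Prop := m 1 ^ 2 * (n * b 1 ^ 2 + w 1 ^ 2) ≤ L ^ 2

/-- **Poincaré in a row for the first derivatives of `G_ik`.** -/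
theorem dG_poincare (hm : Em 2 m) {L : ℝ} (hL : LL m b w n L) (hL0 : 0 < L) (hL1 : L ≤ 1 / 2)
    {i k c : Fin n} (hc : k ≠ c) {e : Cd n 2} (he : e ∈ rwl 2 c 1) :
    (skS n 2 m b w).Ex (fun z _ =>
      d1 (skS n 2 m b w) (aSK n 2 b w) (F2 i k) e z ^ 2) ≤
    (1 + 4 * L) * (skS n 2 m b w).Ex (fun z _ => ∑ e' ∈ rwl 2 c 1,
      d2 (skS n 2 m b w) (aSK n 2 b w) (F2 i k) e e' z ^ 2) := by
  have hLn := linS_sk (n := n) hm b w
  have hR := hLn.reg
  have hD := regD_sk (n := n) hm b w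
  have hAl : ∀ e ∈ rwl 2 c 1, (skS n 2 m b w).lev e ≤ 1 := by
    intro e he
    rw [mem_rwl] at he
    exact he.1
  have he' := (mem_rwl.1 he).2
  refine (mv_flip (K := 2) m b w c 1).poincare_Ex' (S := skS n 2 m b w) hD (sys_flip hm b w c) hAl
    (by simp) (f := d1 (skS n 2 m b w) (aSK n 2 b w) (F2 i k) e)
    (f' := fun e' => d2 (skS n 2 m b w) (aSK n 2 b w) (F2 i k) e e')
    (eg_d1 hR (by simp) _ _) (dep_d1 _ _ _ _)
    (fun e' he' => pd_d2 hLn rfl (hAl e' he') (F2 i k))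
    (fun e' _ => eg_d2 hR (by simp) _ _ _)
    (fun z => d1_odd (sys_flip hm b w c) (F2_flip hc) (aSK_flip he') z)
    (fun z => (sum_VLD_one hm b w c (by norm_num) z).trans hL) hL0 hL1

lemma F2_swap {i j k : Fin n} (hi : k ≠ i) (hj : k ≠ j) (σ : Option Unit → (Fin n → ℤˣ)) :
    F2 i k (fun r => (pX (Equiv.swap i j)).symm (σ r)) = F2 j k σ := by
  unfold F2
  simp only [sp_pX_symm, Equiv.symm_swap, Equiv.swap_apply_left]
  rw [Equiv.swap_apply_of_ne_of_ne hi hj]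

/-- **Poincaré for the swap of two sites.** -/
theorem G_poincare (hm : Em 2 m) {L : ℝ} (hL : LL m b w n L) (hL0 : 0 < L) (hL1 : L ≤ 1 / 4)
    {i j k : Fin n} (hij : i ≠ j) (hi : k ≠ i) (hj : k ≠ j) :
    (skS n 2 m b w).Ex (fun z _ => (Gk (skS n 2 m b w) i k z - Gk (skS n 2 m b w) j k z) ^ 2) ≤
    (1 + 4 * (2 * L)) * (skS n 2 m b w).Ex (fun z _ => ∑ e ∈ rw2 2 i j 1,
      (d1 (skS n 2 m b w) (aSK n 2 b w) (F2 i k) e z -
        d1 (skS n 2 m b w) (aSK n 2 b w) (F2 j k) e z) ^ 2) := by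
  have hLn := linS_sk (n := n) hm b w
  have hR := hLn.reg
  have hD := regD_sk (n := n) hm b w
  have hAl : ∀ e ∈ rw2 2 i j 1, (skS n 2 m b w).lev e ≤ 1 := by
    intro e he
    rw [mem_rw2] at he
    exact he.1
  have hsw := sys_perm (n := n) hm b w (Equiv.swap i j)
  refine (mv_swap (K := 2) m b w hij 1).poincare_Ex' (S := skS n 2 m b w) hD hsw hAl
    (by simp) (f := fun z => Gk (skS n 2 m b w) i k z - Gk (skS n 2 m b w) j k z)
    (f' := fun e z => d1 (skS n 2 m b w) (aSK n 2 b w) (F2 i k) e z -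
        d1 (skS n 2 m b w) (aSK n 2 b w) (F2 j k) e z)
    ((eg_Gk hm i k).sub (eg_Gk hm j k)) (fun z z' => ?_)
    (fun e he => (pd_d1 hLn rfl (hAl e he) (F2 i k)).sub (pd_d1 hLn rfl (hAl e he) (F2 j k)))
    (fun e _ => (eg_d1 hR (by simp) _ _).sub (eg_d1 hR (by simp) _ _))
    (fun z => ?_)
    (fun z => ?_) (by linarith) (by linarith)
  · beta_reduce
    rw [Gk_eq, Gk_eq, dep_ER _ _ z z', dep_ER _ _ z z']
  · have h1 : Gk (skS n 2 m b w) i k (gz (pC 2 (Equiv.swap i j)) (fun _ => 1) z) =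
        Gk (skS n 2 m b w) j k z := by
      rw [Gk_eq, hsw.ER]
      rw [Gk_eq]
      congr 1
      funext σ
      exact F2_swap hi hj σ
    have h2 : Gk (skS n 2 m b w) j k (gz (pC 2 (Equiv.swap i j)) (fun _ => 1) z) =
        Gk (skS n 2 m b w) i k z := by
      rw [Gk_eq, hsw.ER]
      rw [Gk_eq]
      congr 1
      funext σ
      rw [Equiv.swap_comm]
      exact F2_swap hj hi σ
    rw [h1, h2]
    ring
  · refine (sum_rw2_le i j 1 (F := fun e =>
      VLD (skS n 2 m b w) (fun e _ x => aSK n 2 b w x e) 1 e z ^ 2) fun e => sq_nonneg _).trans ?_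
    have h1 := (sum_VLD_one hm b w i (by norm_num) z).trans hL
    have h2 := (sum_VLD_one hm b w j (by norm_num) z).trans hL
    have h3 : (0 : ℝ) ≤ L ^ 2 := sq_nonneg _
    have h4 : (2 * L) ^ 2 = L ^ 2 + L ^ 2 + 2 * L ^ 2 := by ring
    rw [h4]
    linarith

/-! ### The tensor bound in a row -/

/-- the coordinates of the row of `c` at the level `1` -/
def evr (c : Fin n) : Option {l : Fin n // l ≠ c} → Cd n 2
  | some l => (Sum.inl (bnd c l.1 l.2.symm), 0)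
  | none => (Sum.inr c, 0)

/-- the vector of the row -/
noncomputable def phr (b w : ℕ → ℝ) (c : Fin n) (x : Fin n → ℤˣ) : Option {l : Fin n // l ≠ c} → ℝ
  | some l => b 1 * sp x l
  | none => w 1

lemma fam_row (b w : ℕ → ℝ) (c : Fin n) :
    Fam (aSK n 2 b w) (fun x => sp x c) (phr b w c) (evr c) where
  ψ1 := fun x => (abs_sp x c).le
  eq := fun x l => by
    cases l with
    | none =>
      show aSK n 2 b w x (Sum.inr c, 0) = sp x c * w 1
      rw [aSK_inr]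
      simp [mul_comm]
    | some l =>
      show aSK n 2 b w x (Sum.inl (bnd c l.1 l.2.symm), 0) = sp x c * (b 1 * sp x l)
      rw [aSK_inl, SkS_bnd]
      simp only [Fin.val_zero, zero_add]
      ring

lemma sum_row (c : Fin n) (F : Cd n 2 → ℝ) :
    ∑ e ∈ rwl 2 c 1, F e = ∑ l, F (evr c l) := by
  rw [rwl_eq_rw1, sum_rw1, Fintype.sum_option, add_comm]
  rfl

lemma Qv_phr (b w : ℕ → ℝ) (hn : 0 < n) (c : Fin n) (x x' : Fin n → ℤˣ) :
    Qv (phr b w c) x x' = w 1 ^ 2 + (n * b 1 ^ 2) * Rov sp x x' - b 1 ^ 2 * (sp x c * sp x' c) := by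
  have hn' : (n : ℝ) ≠ 0 := by positivity
  unfold Qv Rov
  rw [Fintype.sum_option]
  have h1 : ∑ l : {l : Fin n // l ≠ c}, phr b w c x (some l) * phr b w c x' (some l) =
      b 1 ^ 2 * ∑ l : {l : Fin n // l ≠ c}, sp x l * sp x' l := by
    rw [Finset.mul_sum]
    refine Finset.sum_congr rfl fun l _ => ?_
    show b 1 * sp x l * (b 1 * sp x' l) = _
    ring
  have h2 : ∑ l : {l : Fin n // l ≠ c}, sp x l * sp x' l = ∑ l, sp x l * sp x' l -
      sp x c * sp x' c := by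
    rw [← Finset.sum_subtype (Finset.univ.erase c) (p := fun l => l ≠ c)
      (fun l => by simp) (fun l => sp x l * sp x' l), ← Finset.add_sum_erase Finset.univ _
      (Finset.mem_univ c)]
    ring
  rw [h1, h2]
  show w 1 * w 1 + _ = _
  field_simp
  ring

lemma cube3 {p q r : ℝ} (hp : 0 ≤ p) (hq : 0 ≤ q) (hr : 0 ≤ r) :
    (p + q + r) ^ 3 ≤ 9 * (p ^ 3 + q ^ 3 + r ^ 3) := by
  nlinarith [mul_nonneg (add_nonneg hp hq) (sq_nonneg (p - q)),
    mul_nonneg (add_nonneg hq hr) (sq_nonneg (q - r)),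
    mul_nonneg (add_nonneg hp hr) (sq_nonneg (p - r)),
    mul_nonneg hp (sq_nonneg (q - r)), mul_nonneg hq (sq_nonneg (p - r)),
    mul_nonneg hr (sq_nonneg (p - q)), mul_nonneg hp (sq_nonneg (p - q)),
    mul_nonneg hp (sq_nonneg (p - r)), mul_nonneg hq (sq_nonneg (q - r)),
    mul_nonneg hq (sq_nonneg (q - p)), mul_nonneg hr (sq_nonneg (r - q)),
    mul_nonneg hr (sq_nonneg (r - p))]

lemma abs_Qv_phr_le (b w : ℕ → ℝ) (hn : 0 < n) (c : Fin n) (x x' : Fin n → ℤˣ) :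
    |Qv (phr b w c) x x'| ^ 3 ≤
      9 * ((n * b 1 ^ 2) ^ 3 * |Rov sp x x'| ^ 3 + (b 1 ^ 2) ^ 3 + (w 1 ^ 2) ^ 3) := by
  have h1 : |Qv (phr b w c) x x'| ≤ (n * b 1 ^ 2) * |Rov sp x x'| + b 1 ^ 2 + w 1 ^ 2 := by
    rw [Qv_phr b w hn]
    refine (abs_sub _ _).trans ?_
    refine (add_le_add_left (abs_add_le _ _) _).trans ?_
    rw [abs_mul (b 1 ^ 2), abs_mul (sp x c), abs_sp, abs_sp, abs_mul,
      abs_of_nonneg (by positivity : (0 : ℝ) ≤ n * b 1 ^ 2), abs_of_nonneg (sq_nonneg (w 1)),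
      abs_of_nonneg (sq_nonneg (b 1))]
    linarith
  refine (pow_le_pow_left₀ (abs_nonneg _) h1 3).trans ?_
  refine (cube3 (by positivity) (sq_nonneg _) (sq_nonneg _)).trans (le_of_eq ?_)
  ring

/-- the bound of the tensors in a row -/
noncomputable def Bw (b w : ℕ → ℝ) (n : ℕ) (t : ℝ) : ℝ :=
  (1 / 3 + 6 * (n * b 1 ^ 2) ^ 3) * t + 6 * (b 1 ^ 2) ^ 3 + 6 * (w 1 ^ 2) ^ 3

/-- **The tensor bound in a row.** -/
theorem d2_row (hm : Em 2 m) (hn : 0 < n) (i c : Fin n) (z : Cd n 2 → ℝ) :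
    ∑ k, ∑ e ∈ rwl 2 c 1, ∑ e' ∈ rwl 2 c 1,
      d2 (skS n 2 m b w) (aSK n 2 b w) (F2 i k) e e' z ^ 2 ≤
    n * (1024 * Bw b w n (pp (fun x => (skS n 2 m b w).pr 1 z x)
      fun x x' => |Rov sp x x'| ^ 3)) := by
  have hLn := linS_sk (n := n) hm b w
  have hR := hLn.reg
  have hn' : (0 : ℝ) < n := by exact_mod_cast hn
  have hu : m 2 ≤ 1 := by
    have := hm.mono 2 le_rfl
    rwa [hm.mK] at this
  have hu0 : 0 ≤ m 2 := hm.pos.le.trans (hm.mono 1 (by norm_num))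
  obtain ⟨_, h1⟩ := gd_d2 (φ1 := fun (x : Fin n → ℤˣ) k => (√n)⁻¹ * sp x k) hLn
    (by simp) hu hu0 (fam_row b w c) z (none : Option Unit)
    (M := fun σ => sp (σ (some ())) i * sp (σ none) i)
    (fun σ => by rw [abs_mul, abs_sp, abs_sp, one_mul])
  have e1 : ∀ k l m', d2 (skS n 2 m b w) (aSK n 2 b w) (fun σ : Option Unit → (Fin n → ℤˣ) =>
      (sp (σ (some ())) i * sp (σ none) i) * ((√n)⁻¹ * sp (σ none) k)) (evr c l) (evr c m') z ^ 2 =
      (n : ℝ)⁻¹ * d2 (skS n 2 m b w) (aSK n 2 b w) (F2 i k) (evr c l) (evr c m') z ^ 2 := by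
    intro k l m'
    have e2 : (fun σ : Option Unit → (Fin n → ℤˣ) =>
      (sp (σ (some ())) i * sp (σ none) i) * ((√n)⁻¹ * sp (σ none) k)) =
        fun σ => (√n)⁻¹ * F2 i k σ := by
      funext σ
      unfold F2
      ring
    rw [e2, d2_smul, mul_pow, inv_pow, Real.sq_sqrt hn'.le]
  simp only [e1, ← Finset.mul_sum] at h1
  have hc : (Fintype.card (Option Unit) * (2 * (Fintype.card (Option Unit) : ℝ) + 1) +
      Fintype.card (Option Unit) * (2 * Fintype.card (Option Unit) + 3) +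
        ((2 * Fintype.card (Option Unit) + 1) + 3)) ^ 2 = 1024 := by
    rw [Fintype.card_option, Fintype.card_unit]
    norm_num
  rw [hc] at h1
  simp only [sum_row]
  have h2 : ∑ k, ∑ l, ∑ m', d2 (skS n 2 m b w) (aSK n 2 b w) (F2 i k) (evr c l) (evr c m') z ^ 2 ≤
      n * (1024 * BB (fun (x : Fin n → ℤˣ) k => (√n)⁻¹ * sp x k) (phr b w c) (phr b w c)
        (fun x => (skS n 2 m b w).pr 1 z x)) := by
    have h3 := mul_le_mul_of_nonneg_left h1 hn'.le
    rwa [← mul_assoc (n : ℝ) (n : ℝ)⁻¹, mul_inv_cancel₀ hn'.ne', one_mul] at h3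
  refine h2.trans ?_
  refine mul_le_mul_of_nonneg_left ?_ hn'.le
  refine mul_le_mul_of_nonneg_left ?_ (by norm_num)
  have hp0 : ∀ x, 0 ≤ (skS n 2 m b w).pr 1 z x := fun x => hR.pr_nonneg (by simp) z x
  have hp1 : ∑ x, (skS n 2 m b w).pr 1 z x = 1 := sum_pr1 hR (by simp) z
  set p := fun x => (skS n 2 m b w).pr 1 z x with hp
  have hppm : ∀ {ψ ψ' : (Fin n → ℤˣ) → (Fin n → ℤˣ) → ℝ}, (∀ x x', ψ x x' ≤ ψ' x x') →
      pp p ψ ≤ pp p ψ' := by
    intro ψ ψ' h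
    unfold pp
    exact Finset.sum_le_sum fun x _ => Finset.sum_le_sum fun x' _ =>
      mul_le_mul_of_nonneg_left (h x x') (mul_nonneg (hp0 x) (hp0 x'))
  have hQ1 : ∀ x x', Qv (fun (x : Fin n → ℤˣ) k => (√n)⁻¹ * sp x k) x x' = Rov sp x x' := by
    intro x x'
    unfold Qv Rov
    rw [Finset.mul_sum]
    refine Finset.sum_congr rfl fun k _ => ?_
    have : (√(n : ℝ))⁻¹ * (√(n : ℝ))⁻¹ = 1 / n := by
      rw [← mul_inv, Real.mul_self_sqrt hn'.le, one_div]
    calc (√(n : ℝ))⁻¹ * sp x k * ((√(n : ℝ))⁻¹ * sp x' k) =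
        ((√(n : ℝ))⁻¹ * (√(n : ℝ))⁻¹) * (sp x k * sp x' k) := by ring
      _ = _ := by rw [this]
  have h4 : pp p (fun x x' => |Qv (phr b w c) x x'| ^ 3) ≤
      9 * ((n * b 1 ^ 2) ^ 3 * pp p (fun x x' => |Rov sp x x'| ^ 3) + (b 1 ^ 2) ^ 3 +
        (w 1 ^ 2) ^ 3) := by
    refine (hppm fun x x' => abs_Qv_phr_le b w hn c x x').trans (le_of_eq ?_)
    unfold pp
    have e5 : ∀ x x', p x * p x' * (9 * ((n * b 1 ^ 2) ^ 3 * |Rov sp x x'| ^ 3 + (b 1 ^ 2) ^ 3 +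
        (w 1 ^ 2) ^ 3)) = 9 * (n * b 1 ^ 2) ^ 3 * (p x * p x' * |Rov sp x x'| ^ 3) +
        9 * ((b 1 ^ 2) ^ 3 + (w 1 ^ 2) ^ 3) * (p x * p x') := by
      intro x x'; ring
    simp only [e5, Finset.sum_add_distrib, ← Finset.mul_sum]
    have e6 : ∑ x, p x * ∑ x', p x' = 1 := by
      rw [hp1]
      simp only [mul_one]
      exact hp1
    rw [e6]
    ring
  unfold BB Bw
  simp only [hQ1]
  linarith

end Vale.Agent.P146.H93
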