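import Vale.Agent.P146.H93.Own1
import Vale.Agent.P146.H93.U2

/-!
# P146: the second derivatives of `Vf` in a row (helper93)
-/

open MeasureTheory ProbabilityTheory

namespace Vale.Agent.P146.H93.Own

open Vale.Agent.P157 Vale.Agent.P157.Lv Vale.Agent.P157.Lv.Sy
open Vale.Agent.P146.H425 Vale.Agent.P146.H325 Vale.Agent.P146.H985
open Vale.Agent.P146.H379.Row

set_option linter.unusedSectionVars false

section gen

variable {ι X : Type} [Fintype ι] [DecidableEq ι] [Fintype X] [DecidableEq X] [Nonempty X]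
  {S : Sy ι X} {l : ℕ}

lemma Cl.smul_fst {C : ℝ} {h : (K3 → X → ℝ) → (ι → ℝ) → X → ℝ} (hh : H877x.Cl S l K3 C h)
    (a : ℝ) (f g g' : X → ℝ) (z : ι → ℝ) (x : X) :
    h (s3 (fun x => a * f x) g g') z x = a * h (s3 f g g') z x := by
  obtain ⟨θ, π, hk, he⟩ := hh
  rw [he, he]
  unfold H877x.ct
  rw [Finset.mul_sum]
  refine Finset.sum_congr rfl fun s _ => ?_
  rw [Fintype.prod_sum_type, Fintype.prod_sum_type, Fintype.prod_sum_type, Fintype.prod_sum_type]
  simp only [s3, Sum.elim_inl, Sum.elim_inr, Finset.univ_unique, Finset.prod_singleton]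
  ring

end gen

variable {n K : ℕ} {m b w : ℕ → ℝ} {l : ℕ}

/-- the slot function of a coordinate in the row of `c` -/
def gsl (b w : ℕ → ℝ) (c : Fin n) (e : Cd n K) (x : Fin n → ℤˣ) : ℝ :=
  am b w e.1 (e.2 + 1) * (sp x c * st e.1 x)

lemma aSK_eq_psi (b w : ℕ → ℝ) (c : Fin n) (e : Cd n K) (x : Fin n → ℤˣ) :
    aSK n K b w x e = 1 * psi c (fun _ => gsl b w c e) x := by
  unfold psi gsl aSK
  have := sp_mul_self x c
  linear_combination (-(am b w e.1 (e.2 + 1) * st e.1 x)) * this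

/-- the total variance of the bonds of a row per site -/
noncomputable def sb (b : ℕ → ℝ) (l : ℕ) : ℝ := ∑ q : Fin l, b (q + 1) ^ 2

lemma bt2_eq (n : ℕ) (b : ℕ → ℝ) (l : ℕ) : bt2 n b l = n * sb b l := by
  unfold bt2 sb
  rw [Finset.mul_sum]

lemma sb_nonneg (b : ℕ → ℝ) (l : ℕ) : 0 ≤ sb b l := Finset.sum_nonneg fun _ _ => sq_nonneg _

lemma bt2_nonneg (n : ℕ) (b : ℕ → ℝ) (l : ℕ) : 0 ≤ bt2 n b l := by
  rw [bt2_eq]
  exact mul_nonneg (Nat.cast_nonneg n) (sb_nonneg b l)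

/-- the overlap of the row -/
lemma Q_row (b w : ℕ → ℝ) (hn : 0 < n) (hl : l ≤ K) (c : Fin n) (x x' : Fin n → ℤˣ) :
    ∑ e : {e : Cd n K // e ∈ rwl K c l}, gsl b w c e.1 x * gsl b w c e.1 x' =
      bt2 n b l * Rov sp x x' - sb b l * (sp x c * sp x' c) + sb w l := by
  have hn' : (n : ℝ) ≠ 0 := by positivity
  rw [Finset.sum_coe_sort (rwl K c l) fun e => gsl b w c e x * gsl b w c e x',
    sum_rwl c hl]
  have h2 : ∑ j : {j : Fin n // j ≠ c}, sp x j * sp x' j = n * Rov sp x x' -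
      sp x c * sp x' c := by
    rw [← Finset.sum_subtype (Finset.univ.erase c) (p := fun j => j ≠ c)
      (fun j => by simp) (fun j => sp x j * sp x' j)]
    unfold Rov
    have := Finset.add_sum_erase Finset.univ (fun j => sp x j * sp x' j) (Finset.mem_univ c)
    field_simp
    linarith
  have h3 : ∀ q : Fin l, (∑ j : {j : Fin n // j ≠ c},
      gsl b w c ((Sum.inl (bnd c j.1 j.2.symm), Fin.castLE hl q) : Cd n K) x *
        gsl b w c ((Sum.inl (bnd c j.1 j.2.symm), Fin.castLE hl q) : Cd n K) x' +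
      gsl b w c ((Sum.inr c, Fin.castLE hl q) : Cd n K) x *
        gsl b w c ((Sum.inr c, Fin.castLE hl q) : Cd n K) x') =
      b (q + 1) ^ 2 * (n * Rov sp x x' - sp x c * sp x' c) + w (q + 1) ^ 2 := by
    intro q
    rw [← h2, Finset.mul_sum]
    congr 1
    · refine Finset.sum_congr rfl fun j _ => ?_
      unfold gsl
      show b (q + 1) * (sp x c * SkS (bnd c j.1 j.2.symm) x) *
        (b (q + 1) * (sp x' c * SkS (bnd c j.1 j.2.symm) x')) = _
      rw [SkS_bnd, SkS_bnd]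
      have e1 := sp_mul_self x c
      have e2 := sp_mul_self x' c
      calc b (q + 1) * (sp x c * (sp x c * sp x j)) * (b (q + 1) * (sp x' c *
            (sp x' c * sp x' j))) = b (q + 1) ^ 2 * ((sp x c * sp x c) * (sp x' c * sp x' c) *
            (sp x j * sp x' j)) := by ring
        _ = _ := by rw [e1, e2]; ring
    · unfold gsl
      show w (q + 1) * (sp x c * sp x c) * (w (q + 1) * (sp x' c * sp x' c)) = _
      rw [sp_mul_self, sp_mul_self]
      ring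
  rw [Finset.sum_congr rfl fun q _ => h3 q, Finset.sum_add_distrib, ← Finset.sum_mul]
  have h4 : ∑ q : Fin l, b (q + 1) ^ 2 = sb b l := rfl
  have h5 : ∑ q : Fin l, w (q + 1) ^ 2 = sb w l := rfl
  rw [h4, h5, bt2_eq]
  ring

lemma abs_Q_row_le (b w : ℕ → ℝ) (hn : 0 < n) (hl : l ≤ K) (c : Fin n) (x x' : Fin n → ℤˣ) :
    |∑ e : {e : Cd n K // e ∈ rwl K c l}, gsl b w c e.1 x * gsl b w c e.1 x'| ^ 3 ≤
      9 * (bt2 n b l ^ 3 * |Rov sp x x'| ^ 3 + sb b l ^ 3 + sb w l ^ 3) := by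
  have hB := bt2_nonneg n b l
  have hb := sb_nonneg b l
  have hw := sb_nonneg w l
  have h1 : |∑ e : {e : Cd n K // e ∈ rwl K c l}, gsl b w c e.1 x * gsl b w c e.1 x'| ≤
      bt2 n b l * |Rov sp x x'| + sb b l + sb w l := by
    rw [Q_row b w hn hl]
    refine (abs_add_le _ _).trans ?_
    refine (add_le_add_left (abs_sub _ _) _).trans ?_
    rw [abs_mul, abs_mul (sb b l), abs_mul (sp x c), abs_sp, abs_sp, abs_of_nonneg hB,
      abs_of_nonneg hb, abs_of_nonneg hw]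
    linarith
  refine (pow_le_pow_left₀ (abs_nonneg _) h1 3).trans ?_
  refine (cube3 (by positivity) hb hw).trans (le_of_eq ?_)
  ring

/-- the bound of the tensors in a row -/
noncomputable def Bt (n : ℕ) (b w : ℕ → ℝ) (l : ℕ) (t : ℝ) : ℝ :=
  (1 / 3 + 6 * bt2 n b l ^ 3) * t + 6 * sb b l ^ 3 + 6 * sb w l ^ 3

/-- **The second derivatives of `Vf` in the row of `c`.** -/
theorem derivs (hm : Em K m) (b w : ℕ → ℝ) (hn : 0 < n) (hl : l ≤ K) (i c : Fin n) :
    ∃ (V1 : Fin n → Cd n K → (Cd n K → ℝ) → ℝ)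
      (V2 : Fin n → Cd n K → Cd n K → (Cd n K → ℝ) → ℝ),
      (∀ k e, (skS n K m b w).lev e ≤ l →
        PD e (Vf (skS n K m b w) l i (fun x => sp x k)) (V1 k e)) ∧
      (∀ k e, EG (V1 k e)) ∧
      (∀ k e e', (skS n K m b w).lev e' ≤ l → PD e' (V1 k e) (V2 k e e')) ∧
      (∀ k e e', EG (V2 k e e')) ∧
      ∀ z, ∑ k, ∑ e ∈ rwl K c l, ∑ e' ∈ rwl K c l, V2 k e e' z ^ 2 ≤
        n * (CV ^ 2 * Bt n b w l (H877x.pp (skS n K m b w) l z
          fun x x' => |Rov sp x x'| ^ 3)) := by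
  obtain ⟨S, hSd⟩ : ∃ S, S = skS n K m b w := ⟨_, rfl⟩
  have hD : S.RegD fun e _ x => aSK n K b w x e := hSd ▸ regD_sk (n := n) hm b w
  have hS := hD.toReg
  have hlS : l ≤ S.K := by rw [hSd]; exact hl
  have hn' : (0 : ℝ) < n := by exact_mod_cast hn
  rw [← hSd]
  obtain ⟨_, hδ⟩ := sm_Vf hD hlS i
  obtain ⟨h', dr', sm'⟩ := hδ c
  have cl' := sm'.cl
  obtain ⟨_, hδ'⟩ := sm'
  obtain ⟨h'', dr'', sm''⟩ := hδ' c
  have cl'' : H877x.Cl S l K3 CV h'' := sm''.cl
  let x0 : Fin n → ℤˣ := fun _ => 1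
  have hp1 : ∀ (k : Fin n) (e : Cd n K), S.lev e ≤ l → ∀ x, PD e (Vf S l i (fun x => sp x k))
      (fun z => h' (Sum.elim (fun _ x => sp x k) (fun _ => gsl b w c e)) z x) := by
    intro k e he x
    have h1 := dr'.pd e he 1 (fun _ => gsl b w c e) (fun z x => aSK_eq_psi b w c e x)
      (fun _ x => sp x k) x
    simpa only [one_mul] using h1
  have hp2 : ∀ (k : Fin n) (e e' : Cd n K), S.lev e' ≤ l → ∀ x,
      PD e' (fun z => h' (Sum.elim (fun _ x => sp x k) (fun _ => gsl b w c e)) z x)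
      (fun z => h'' (s3 (fun x => sp x k) (gsl b w c e) (gsl b w c e')) z x) := by
    intro k e e' he' x
    have h1 := dr''.pd e' he' 1 (fun _ => gsl b w c e') (fun z x => aSK_eq_psi b w c e' x)
      (Sum.elim (fun _ x => sp x k) (fun _ => gsl b w c e)) x
    simp only [one_mul] at h1
    exact h1
  refine ⟨fun k e z => h' (Sum.elim (fun _ x => sp x k) (fun _ => gsl b w c e)) z x0,
    fun k e e' z => h'' (s3 (fun x => sp x k) (gsl b w c e) (gsl b w c e')) z x0,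
    fun k e he => hp1 k e he x0, fun k e => cl'.nh _ x0, fun k e e' he' => hp2 k e e' he' x0,
    fun k e e' => cl''.nh _ x0, fun z => ?_⟩
  -- the second derivative is its own conditional average
  have hT : ∀ (k : Fin n) (e e' : Cd n K), S.lev e ≤ l → S.lev e' ≤ l →
      h'' (s3 (fun x => sp x k) (gsl b w c e) (gsl b w c e')) z x0 =
        S.T l (h'' (s3 (fun x => sp x k) (gsl b w c e) (gsl b w c e'))) z := by
    intro k e e' he he'
    have e1 : ∀ z x, h' (Sum.elim (fun _ x => sp x k) (fun _ => gsl b w c e)) z x =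
        h' (Sum.elim (fun _ x => sp x k) (fun _ => gsl b w c e)) z x0 := fun z x =>
      Ch.PD.unique (hp1 k e he x) (hp1 k e he x0) z
    have e2 : ∀ z x, h'' (s3 (fun x => sp x k) (gsl b w c e) (gsl b w c e')) z x =
        h'' (s3 (fun x => sp x k) (gsl b w c e) (gsl b w c e')) z x0 := fun z x => by
      have h1 := hp2 k e e' he' x
      have h2 : (fun z => h' (Sum.elim (fun _ x => sp x k) (fun _ => gsl b w c e)) z x) =
          fun z => h' (Sum.elim (fun _ x => sp x k) (fun _ => gsl b w c e)) z x0 := by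
        funext z
        exact e1 z x
      rw [h2] at h1
      exact Ch.PD.unique h1 (hp2 k e e' he' x0) z
    have e3 : h'' (s3 (fun x => sp x k) (gsl b w c e) (gsl b w c e')) = fun z _ =>
        h'' (s3 (fun x => sp x k) (gsl b w c e) (gsl b w c e')) z x0 := by
      funext z x
      exact e2 z x
    have hd1 : Dep S.lev l fun z =>
        h' (Sum.elim (fun _ x => sp x k) (fun _ => gsl b w c e)) z x0 :=
      Dep_pd (hp1 k e he x0) (dep_Vf S l i _) he
    have hd2 : Dep S.lev l fun z =>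
        h'' (s3 (fun x => sp x k) (gsl b w c e) (gsl b w c e')) z x0 :=
      Dep_pd (hp2 k e e' he' x0) hd1 he'
    rw [e3]
    exact (hS.T_fst hlS hd2 z).symm
  have hsc : ∀ (k : Fin n) (e e' : Cd n K), S.T l (h'' (s3 (fun x => (√(n : ℝ))⁻¹ * sp x k) (gsl b w c e)
      (gsl b w c e'))) z =
      (√(n : ℝ))⁻¹ * S.T l (h'' (s3 (fun x => sp x k) (gsl b w c e) (gsl b w c e'))) z := by
    intro k e e'
    rw [← T_const_mul]
    congr 1
    funext z x
    exact Cl.smul_fst cl'' _ _ _ _ z x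
  have hb := tens3 (A1 := Fin n) (A2 := {e : Cd n K // e ∈ rwl K c l})
    (A3 := {e : Cd n K // e ∈ rwl K c l}) hS hlS CV_nonneg cl''
    (fun x k => (√(n : ℝ))⁻¹ * sp x k) (fun x e => gsl b w c e.1 x)
    (fun x e => gsl b w c e.1 x) z
  have e4 : ∀ (k : Fin n) (e e' : {e : Cd n K // e ∈ rwl K c l}),
      S.T l (h'' (s3 (fun x => (√(n : ℝ))⁻¹ * sp x k) (fun x => gsl b w c e.1 x)
        (fun x => gsl b w c e'.1 x))) z ^ 2 =
      (n : ℝ)⁻¹ * h'' (s3 (fun x => sp x k) (gsl b w c e.1) (gsl b w c e'.1)) z x0 ^ 2 := by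
    intro k e e'
    have he : S.lev e.1 ≤ l := by rw [hSd]; exact (mem_rwl.1 e.2).1
    have he' : S.lev e'.1 ≤ l := by rw [hSd]; exact (mem_rwl.1 e'.2).1
    have h1 := hsc k e.1 e'.1
    rw [hT k e.1 e'.1 he he', ← Real.sq_sqrt hn'.le, ← inv_pow, ← mul_pow, ← h1]
    rw [Real.sq_sqrt hn'.le]
  simp only [e4, ← Finset.mul_sum] at hb
  have e5 : ∑ k, ∑ e ∈ rwl K c l, ∑ e' ∈ rwl K c l,
      h'' (s3 (fun x => sp x k) (gsl b w c e) (gsl b w c e')) z x0 ^ 2 =
      ∑ k, ∑ e : {e : Cd n K // e ∈ rwl K c l}, ∑ e' : {e : Cd n K // e ∈ rwl K c l},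
        h'' (s3 (fun x => sp x k) (gsl b w c e.1) (gsl b w c e'.1)) z x0 ^ 2 := by
    refine Finset.sum_congr rfl fun k _ => ?_
    rw [← Finset.sum_coe_sort (rwl K c l)]
    refine Finset.sum_congr rfl fun e _ => ?_
    rw [← Finset.sum_coe_sort (rwl K c l)]
  rw [e5]
  have h3 := mul_le_mul_of_nonneg_left hb hn'.le
  rw [← mul_assoc, mul_inv_cancel₀ hn'.ne', one_mul] at h3
  refine h3.trans (mul_le_mul_of_nonneg_left (mul_le_mul_of_nonneg_left ?_ (sq_nonneg _)) hn'.le)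
  -- the overlaps
  have hp0 : ∀ x, 0 ≤ S.pr l z x := fun x => hS.pr_nonneg hlS z x
  have hp1' : ∑ x, S.pr l z x = 1 := hS.sum_pr hlS z
  have hppm : ∀ {ψ ψ' : (Fin n → ℤˣ) → (Fin n → ℤˣ) → ℝ}, (∀ x x', ψ x x' ≤ ψ' x x') →
      H877x.pp S l z ψ ≤ H877x.pp S l z ψ' := by
    intro ψ ψ' h
    unfold H877x.pp
    exact Finset.sum_le_sum fun x _ => Finset.sum_le_sum fun x' _ =>
      mul_le_mul_of_nonneg_left (h x x') (mul_nonneg (hp0 x) (hp0 x'))
  have hQ1 : ∀ x x' : Fin n → ℤˣ, ∑ j, (√(n : ℝ))⁻¹ * sp x j * ((√(n : ℝ))⁻¹ * sp x' j) =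
      Rov sp x x' := by
    intro x x'
    unfold Rov
    rw [Finset.mul_sum]
    refine Finset.sum_congr rfl fun k _ => ?_
    have : (√(n : ℝ))⁻¹ * (√(n : ℝ))⁻¹ = 1 / n := by
      rw [← mul_inv, Real.mul_self_sqrt hn'.le, one_div]
    calc (√(n : ℝ))⁻¹ * sp x k * ((√(n : ℝ))⁻¹ * sp x' k) =
        ((√(n : ℝ))⁻¹ * (√(n : ℝ))⁻¹) * (sp x k * sp x' k) := by ring
      _ = _ := by rw [this]
  have h4 : H877x.pp S l z (fun x x' => |∑ e : {e : Cd n K // e ∈ rwl K c l},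
      gsl b w c e.1 x * gsl b w c e.1 x'| ^ 3) ≤
      9 * (bt2 n b l ^ 3 * H877x.pp S l z (fun x x' => |Rov sp x x'| ^ 3) + sb b l ^ 3 +
        sb w l ^ 3) := by
    refine (hppm fun x x' => abs_Q_row_le b w hn hl c x x').trans (le_of_eq ?_)
    unfold H877x.pp
    have e5 : ∀ x x' : Fin n → ℤˣ, S.pr l z x * S.pr l z x' *
        (9 * (bt2 n b l ^ 3 * |Rov sp x x'| ^ 3 + sb b l ^ 3 + sb w l ^ 3)) =
        9 * bt2 n b l ^ 3 * (S.pr l z x * S.pr l z x' * |Rov sp x x'| ^ 3) +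
        9 * (sb b l ^ 3 + sb w l ^ 3) * (S.pr l z x * S.pr l z x') := by
      intro x x'; ring
    simp only [e5, Finset.sum_add_distrib, ← Finset.mul_sum]
    have e6 : ∑ x, S.pr l z x * ∑ x', S.pr l z x' = 1 := by
      rw [hp1']
      simp only [mul_one]
      exact hp1'
    rw [e6]
    ring
  unfold Bt
  simp only [hQ1]
  linarith

end Vale.Agent.P146.H93.Own
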