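import Vale.Agent.P146.H93.Tl0

/-!
# P146: the derivative of a leaf average in a level-1 coordinate (helper93)
-/

open MeasureTheory ProbabilityTheory

namespace Vale.Agent.P146.H93

open Vale.Agent.P157 Vale.Agent.P157.Lv Vale.Agent.P157.Lv.Sy
open Vale.Agent.P146.H425

set_option linter.unusedSectionVars false

variable {ι X : Type} [Fintype ι] [DecidableEq ι] [Fintype X] [Nonempty X]
  {S : Sy ι X} {a : X → ι → ℝ} {c : X → ℝ}
variable {R : Type} [Fintype R] [DecidableEq R]

lemma eg_prod {κ : Type} (s : Finset κ) {F : κ → (ι → ℝ) → ℝ} (hF : ∀ r ∈ s, EG (F r)) :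
    EG fun z => ∏ r ∈ s, F r z := by
  classical
  induction s using Finset.induction_on with
  | empty => simpa using EG.const (ι := ι) 1
  | insert b s hb ih =>
    simp only [Finset.prod_insert hb]
    exact (hF b (Finset.mem_insert_self b s)).mul
      (ih fun i hi => hF i (Finset.mem_insert_of_mem hi))

lemma pd_prod {e : ι} (s : Finset R) {F G : R → (ι → ℝ) → ℝ}
    (hF : ∀ r ∈ s, PD e (F r) (fun z => F r z * G r z)) :
    PD e (fun z => ∏ r ∈ s, F r z) (fun z => (∏ r ∈ s, F r z) * ∑ r ∈ s, G r z) := by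
  induction s using Finset.induction_on with
  | empty => simpa using PD.const (e := e) (1 : ℝ)
  | insert b s hb ih =>
    simp only [Finset.prod_insert hb, Finset.sum_insert hb]
    refine ((hF b (Finset.mem_insert_self b s)).mul
      (ih fun i hi => hF i (Finset.mem_insert_of_mem hi))).congr fun z => ?_
    ring

lemma eg_gbp (hS : S.Reg) (σ : R → X) : EG fun z => ∏ r, S.gb z (σ r) :=
  eg_prod _ fun r _ => hS.eg_gb (σ r)

lemma eg_AR (hS : S.Reg) (f : (R → X) → ℝ) : EG (AR S f) :=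
  EG.sum _ fun σ _ => (eg_gbp hS σ).mul (EG.const (f σ))

lemma eg_ER (hS : S.Reg) (hK : 1 ≤ S.K) (f : (R → X) → ℝ) : EG (ER S f) :=
  hS.eg_T hK (Nh.fst (eg_AR hS f))

lemma dep_ER (S : Sy ι X) (f : (R → X) → ℝ) : Dep S.lev 1 (ER S f) := dep_T S 1 _

/-- adding a replica multiplies the Gibbs averages -/
lemma AR_tn (S : Sy ι X) (f : (R → X) → ℝ) (g : X → ℝ) (z : ι → ℝ) :
    AR S (tn f g) z = AR S f z * S.av (fun _ x => g x) z := by
  unfold AR av tn
  rw [← (Equiv.piOptionEquivProd (α := R) (β := fun _ => X)).symm.sum_comp,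
    Fintype.sum_prod_type, Finset.sum_comm, Finset.sum_mul_sum]
  refine Finset.sum_congr rfl fun σ _ => Finset.sum_congr rfl fun x _ => ?_
  have e1 : ∀ r : R, (Equiv.piOptionEquivProd (α := R) (β := fun _ => X)).symm (x, σ) (some r) =
      σ r := fun r => rfl
  have e2 : (Equiv.piOptionEquivProd (α := R) (β := fun _ => X)).symm (x, σ) none = x := rfl
  rw [Fintype.prod_option]
  simp only [e1, e2]
  ring

lemma AR_mul_const (S : Sy ι X) (f : (R → X) → ℝ) (k : ℝ) (z : ι → ℝ) :
    AR S (fun σ => k * f σ) z = k * AR S f z := by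
  unfold AR
  rw [Finset.mul_sum]
  exact Finset.sum_congr rfl fun σ _ => by ring

/-- the derivative of a Gibbs average over replicas -/
lemma pd_AR (h : LinS S a c) (e : ι) (f : (R → X) → ℝ) :
    PD e (AR S f) (fun z => AR S (fun σ => f σ * ∑ r, a (σ r) e) z -
      Fintype.card R * (AR S f z * S.av (fun _ x => a x e) z)) := by
  have hD := regD h
  have h1 : PD e (AR S f) (fun z => ∑ σ : R → X, ((∏ r, S.gb z (σ r)) *
      (∑ r, (a (σ r) e - S.T S.K (fun _ x => a x e) z)) * f σ + (∏ r, S.gb z (σ r)) * 0)) :=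
    PD.sum Finset.univ fun σ _ => (pd_prod Finset.univ (fun r _ => hD.pd_gb e (σ r))).mul
      (PD.const (f σ))
  refine h1.congr fun z => ?_
  rw [hD.toReg.T_top]
  unfold AR
  rw [Finset.sum_mul, Finset.mul_sum, ← Finset.sum_sub_distrib]
  refine Finset.sum_congr rfl fun σ _ => ?_
  rw [Finset.sum_sub_distrib, Finset.sum_const, Finset.card_univ, nsmul_eq_mul]
  ring

/-- the leaf average of an observable of one configuration -/
noncomputable def E1 (S : Sy ι X) (g : X → ℝ) (z : ι → ℝ) : ℝ := S.T 1 (fun _ x => g x) z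

/-- **The derivative of a leaf average in a level-1 coordinate.** -/
theorem pd_ER (h : LinS S a c) (hK : S.K = 2) {e : ι} (he : S.lev e ≤ 1) (f : (R → X) → ℝ) :
    PD e (ER S f) (fun z => ER S (fun σ => f σ * ∑ r, a (σ r) e) z +
      (S.m 2 - Fintype.card R) * ER S (tn f (fun x => a x e)) z -
      S.m 2 * (ER S f z * E1 S (fun x => a x e) z)) := by
  have hD := regD h
  have hS := h.reg
  have hK1 : 1 ≤ S.K := by omega
  have eA := eg_AR hS f
  have eA' := eg_AR hS (fun σ : R → X => f σ * ∑ r, a (σ r) e)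
  have eav : EG (S.av (fun _ x => a x e)) := hS.eg_av (Nh.snd fun x => a x e)
  have h1 := hD.pd_T (l := 1) hK1 he (h := fun z _ => AR S f z) (h' := fun z _ =>
      AR S (fun σ => f σ * ∑ r, a (σ r) e) z -
      Fintype.card R * (AR S f z * S.av (fun _ x => a x e) z))
      (fun x => pd_AR h e f) (Nh.fst eA) (Nh.fst (eA'.sub ((eA.mul eav).const_mul _)))
  refine h1.congr fun z => ?_
  have hp : S.p 2 = 1 - S.m 2 := by
    have := hS.mK
    rw [hK] at this
    unfold p
    rw [this]
  have hico : Finset.Ico (1 + 1) (S.K + 1) = {2} := by rw [hK]; rfl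
  rw [hico]
  simp only [Finset.sum_singleton]
  have hT2 : ∀ z, S.T 2 (fun _ x => a x e) z = S.av (fun _ x => a x e) z := by
    intro z
    rw [← hK, hS.T_top]
  simp only [hT2, hp]
  unfold ER E1
  have e1 : (fun (z : ι → ℝ) (x : X) => AR S (fun σ => f σ * ∑ r, a (σ r) e) z -
      Fintype.card R * (AR S f z * S.av (fun _ x => a x e) z) +
      AR S f z * (a x e - (1 - S.m 2) * S.av (fun _ x => a x e) z -
        S.m (1 + 1) * S.T 1 (fun _ x => a x e) z)) =
      fun z x => ((AR S (fun σ => f σ * ∑ r, a (σ r) e) z +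
        (S.m 2 - 1 - Fintype.card R) * AR S (tn f fun x => a x e) z) +
        AR S f z * a x e) - S.T 1 (fun _ x => a x e) z * (S.m 2 * AR S f z) := by
    funext z x
    rw [AR_tn]
    ring
  rw [e1]
  have n1 : Nh (X := X) fun (z : ι → ℝ) _ => AR S (fun σ => f σ * ∑ r, a (σ r) e) z := Nh.fst eA'
  have n2 : Nh (X := X) fun (z : ι → ℝ) _ =>
      (S.m 2 - 1 - Fintype.card R) * AR S (tn f fun x => a x e) z :=
    Nh.fst ((eg_AR hS _).const_mul _)
  have n3 : Nh (X := X) fun (z : ι → ℝ) x => AR S f z * a x e :=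
    Nh.mul (Nh.fst eA) (Nh.snd fun x => a x e)
  have n4 : Nh (X := X) fun (z : ι → ℝ) _ => S.T 1 (fun _ x => a x e) z * (S.m 2 * AR S f z) :=
    Nh.fst ((hS.eg_T hK1 (Nh.snd fun x => a x e)).mul (eA.const_mul _))
  rw [hS.T_sub hK1 (Nh.add (Nh.add n1 n2) n3) n4, hS.T_add hK1 (Nh.add n1 n2) n3,
    hS.T_add hK1 n1 n2]
  have k3 : S.T 1 (fun z x => AR S f z * a x e) z = S.T 1 (fun z _ => AR S (tn f fun x => a x e) z) z := by
    unfold T
    congr 1
    funext z
    rw [av_mul_left S (fun z => AR S f z) (fun _ x => a x e), av_fst S, AR_tn]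
  have k4 : S.T 1 (fun z _ => S.T 1 (fun _ x => a x e) z * (S.m 2 * AR S f z)) z =
      S.m 2 * (S.T 1 (fun z _ => AR S f z) z * S.T 1 (fun _ x => a x e) z) := by
    rw [T_mul_left S (dep_T S 1 _) (fun z _ => S.m 2 * AR S f z), T_const_mul]
    ring
  have k2 := T_const_mul S 1 (S.m 2 - 1 - Fintype.card R) (fun z _ => AR S (tn f fun x => a x e) z) z
  rw [k3, k4, k2]
  ring

end Vale.Agent.P146.H93
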