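import Vale.Agent.P146.H93.Tl1

/-!
# P146: the tensor bound (helper93)

`(1 / n³) ∑_{klm} (E[s_k^a s_l^b s_m^c M | K])² ≤ E_K |R_12|³` for every bounded `M`.
-/

open MeasureTheory ProbabilityTheory

namespace Vale.Agent.P146.H93

open Vale.Agent.P157 Vale.Agent.P157.Lv Vale.Agent.P157.Lv.Sy
open Vale.Agent.P146.H425

set_option linter.unusedSectionVars false

section fin

variable {Ω X κ : Type} [Fintype Ω] [Fintype X] [Fintype κ]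

/-- unnormalised overlap -/
def Qv (φ : X → κ → ℝ) (x x' : X) : ℝ := ∑ k, φ x k * φ x' k

lemma sum3_sq {κ1 κ2 κ3 : Type} [Fintype κ1] [Fintype κ2] [Fintype κ3] (P : Ω → ℝ)
    (u : Ω → κ1 → ℝ) (v : Ω → κ2 → ℝ) (w : Ω → κ3 → ℝ) :
    ∑ k, ∑ l, ∑ m, (∑ ω, P ω * (u ω k * v ω l * w ω m)) ^ 2 =
      ∑ ω, ∑ ω', P ω * P ω' * ((∑ k, u ω k * u ω' k) * (∑ l, v ω l * v ω' l) *
        (∑ m, w ω m * w ω' m)) := by
  have e1 : ∀ k l m, (∑ ω, P ω * (u ω k * v ω l * w ω m)) ^ 2 =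
      ∑ ω, ∑ ω', P ω * P ω' * ((u ω k * u ω' k) * (v ω l * v ω' l) * (w ω m * w ω' m)) := by
    intro k l m
    rw [sq, Finset.sum_mul_sum]
    exact Finset.sum_congr rfl fun ω _ => Finset.sum_congr rfl fun ω' _ => by ring
  simp only [e1]
  have e2 : ∀ k l, ∑ m, ∑ ω, ∑ ω', P ω * P ω' *
      ((u ω k * u ω' k) * (v ω l * v ω' l) * (w ω m * w ω' m)) =
      ∑ ω, ∑ ω', P ω * P ω' * ((u ω k * u ω' k) * (v ω l * v ω' l) * ∑ m, w ω m * w ω' m) := by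
    intro k l
    rw [Finset.sum_comm]
    refine Finset.sum_congr rfl fun ω _ => ?_
    rw [Finset.sum_comm]
    refine Finset.sum_congr rfl fun ω' _ => ?_
    rw [← Finset.mul_sum, ← Finset.mul_sum]
  simp only [e2]
  have e3 : ∀ k, ∑ l, ∑ ω, ∑ ω', P ω * P ω' *
      ((u ω k * u ω' k) * (v ω l * v ω' l) * ∑ m, w ω m * w ω' m) =
      ∑ ω, ∑ ω', P ω * P ω' * ((u ω k * u ω' k) * (∑ l, v ω l * v ω' l) *
        ∑ m, w ω m * w ω' m) := by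
    intro k
    rw [Finset.sum_comm]
    refine Finset.sum_congr rfl fun ω _ => ?_
    rw [Finset.sum_comm]
    refine Finset.sum_congr rfl fun ω' _ => ?_
    rw [← Finset.mul_sum, ← Finset.sum_mul, ← Finset.mul_sum]
  simp only [e3]
  rw [Finset.sum_comm]
  refine Finset.sum_congr rfl fun ω _ => ?_
  rw [Finset.sum_comm]
  refine Finset.sum_congr rfl fun ω' _ => ?_
  rw [← Finset.mul_sum, ← Finset.sum_mul, ← Finset.sum_mul]

lemma amgm3 {a b c : ℝ} (ha : 0 ≤ a) (hb : 0 ≤ b) (hc : 0 ≤ c) :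
    a * b * c ≤ 1 / 3 * a ^ 3 + 1 / 3 * b ^ 3 + 1 / 3 * c ^ 3 := by
  nlinarith [mul_nonneg (add_nonneg (add_nonneg ha hb) hc)
    (add_nonneg (add_nonneg (sq_nonneg (a - b)) (sq_nonneg (b - c))) (sq_nonneg (c - a)))]

/-- two replicas with the law `p` -/
def pp (p : X → ℝ) (ψ : X → X → ℝ) : ℝ := ∑ x, ∑ x', p x * p x' * ψ x x'

/-- `P` has the marginal `p` in the direction `A` -/
def Marg (P : Ω → ℝ) (A : Ω → X) (p : X → ℝ) : Prop := ∀ g : X → ℝ, ∑ ω, P ω * g (A ω) =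
  ∑ x, p x * g x

lemma Marg.pair {P : Ω → ℝ} {A : Ω → X} {p : X → ℝ} (h : Marg P A p) (ψ : X → X → ℝ) :
    ∑ ω, ∑ ω', P ω * P ω' * ψ (A ω) (A ω') = pp p ψ := by
  have e1 : ∀ ω, ∑ ω', P ω * P ω' * ψ (A ω) (A ω') = P ω * ∑ x', p x' * ψ (A ω) x' := by
    intro ω
    rw [← h fun x' => ψ (A ω) x', Finset.mul_sum]
    exact Finset.sum_congr rfl fun ω' _ => by ring
  simp only [e1]
  rw [h fun x => ∑ x', p x' * ψ x x']
  unfold pp
  refine Finset.sum_congr rfl fun x _ => ?_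
  rw [Finset.mul_sum]
  exact Finset.sum_congr rfl fun x' _ => by ring

/-- **The tensor bound.** -/
theorem tens {κ1 κ2 κ3 : Type} [Fintype κ1] [Fintype κ2] [Fintype κ3] (φ1 : X → κ1 → ℝ)
    (φ2 : X → κ2 → ℝ) (φ3 : X → κ3 → ℝ) {P : Ω → ℝ} (hP : ∀ ω, 0 ≤ P ω) {A B C : Ω → X} {p : X → ℝ}
    (hA : Marg P A p) (hB : Marg P B p) (hC : Marg P C p) {M : Ω → ℝ} (hM : ∀ ω, |M ω| ≤ 1) :
    ∑ k, ∑ l, ∑ m, (∑ ω, P ω * (M ω * φ1 (A ω) k * φ2 (B ω) l * φ3 (C ω) m)) ^ 2 ≤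
      1 / 3 * (pp p fun x x' => |Qv φ1 x x'| ^ 3) + 1 / 3 * (pp p fun x x' => |Qv φ2 x x'| ^ 3) +
        1 / 3 * (pp p fun x x' => |Qv φ3 x x'| ^ 3) := by
  have h1 := sum3_sq P (fun ω k => M ω * φ1 (A ω) k) (fun ω l => φ2 (B ω) l)
    (fun ω m => φ3 (C ω) m)
  rw [h1]
  have h2 : ∀ ω ω', P ω * P ω' * ((∑ k, M ω * φ1 (A ω) k * (M ω' * φ1 (A ω') k)) *
      (∑ l, φ2 (B ω) l * φ2 (B ω') l) * (∑ m, φ3 (C ω) m * φ3 (C ω') m)) ≤
      1 / 3 * (P ω * P ω' * |Qv φ1 (A ω) (A ω')| ^ 3) +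
      1 / 3 * (P ω * P ω' * |Qv φ2 (B ω) (B ω')| ^ 3) +
      1 / 3 * (P ω * P ω' * |Qv φ3 (C ω) (C ω')| ^ 3) := by
    intro ω ω'
    have e : ∑ k, M ω * φ1 (A ω) k * (M ω' * φ1 (A ω') k) = M ω * M ω' * Qv φ1 (A ω) (A ω') := by
      unfold Qv
      rw [Finset.mul_sum]
      exact Finset.sum_congr rfl fun k _ => by ring
    rw [e]
    have hMM : |M ω * M ω'| ≤ 1 := by
      rw [abs_mul]
      exact mul_le_one₀ (hM ω) (abs_nonneg _) (hM ω')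
    have h3 : M ω * M ω' * Qv φ1 (A ω) (A ω') * (∑ l, φ2 (B ω) l * φ2 (B ω') l) *
        (∑ m, φ3 (C ω) m * φ3 (C ω') m) ≤
        |Qv φ1 (A ω) (A ω')| * |Qv φ2 (B ω) (B ω')| * |Qv φ3 (C ω) (C ω')| := by
      refine (le_abs_self _).trans ?_
      rw [abs_mul, abs_mul, abs_mul]
      have h4 := mul_le_mul_of_nonneg_right hMM (abs_nonneg (Qv φ1 (A ω) (A ω')))
      rw [one_mul] at h4
      exact mul_le_mul_of_nonneg_right (mul_le_mul_of_nonneg_right h4 (abs_nonneg _))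
        (abs_nonneg _)
    have h5 := h3.trans (amgm3 (abs_nonneg (Qv φ1 (A ω) (A ω')))
      (abs_nonneg (Qv φ2 (B ω) (B ω'))) (abs_nonneg (Qv φ3 (C ω) (C ω'))))
    have h6 := mul_le_mul_of_nonneg_left h5 (mul_nonneg (hP ω) (hP ω'))
    linarith
  refine (Finset.sum_le_sum fun ω _ => Finset.sum_le_sum fun ω' _ => h2 ω ω').trans ?_
  simp only [Finset.sum_add_distrib, ← Finset.mul_sum]
  rw [hA.pair fun x x' => |Qv φ1 x x'| ^ 3, hB.pair fun x x' => |Qv φ2 x x'| ^ 3,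
    hC.pair fun x x' => |Qv φ3 x x'| ^ 3]

/-- the tensor bound with two indices -/
lemma sum2_sq (P : Ω → ℝ) (u v : Ω → κ → ℝ) :
    ∑ k, ∑ l, (∑ ω, P ω * (u ω k * v ω l)) ^ 2 =
      ∑ ω, ∑ ω', P ω * P ω' * ((∑ k, u ω k * u ω' k) * (∑ l, v ω l * v ω' l)) := by
  have e1 : ∀ k l, (∑ ω, P ω * (u ω k * v ω l)) ^ 2 =
      ∑ ω, ∑ ω', P ω * P ω' * ((u ω k * u ω' k) * (v ω l * v ω' l)) := by
    intro k l
    rw [sq, Finset.sum_mul_sum]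
    exact Finset.sum_congr rfl fun ω _ => Finset.sum_congr rfl fun ω' _ => by ring
  simp only [e1]
  have e3 : ∀ k, ∑ l, ∑ ω, ∑ ω', P ω * P ω' *
      ((u ω k * u ω' k) * (v ω l * v ω' l)) =
      ∑ ω, ∑ ω', P ω * P ω' * ((u ω k * u ω' k) * (∑ l, v ω l * v ω' l)) := by
    intro k
    rw [Finset.sum_comm]
    refine Finset.sum_congr rfl fun ω _ => ?_
    rw [Finset.sum_comm]
    refine Finset.sum_congr rfl fun ω' _ => ?_
    rw [← Finset.mul_sum, ← Finset.mul_sum]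
  simp only [e3]
  rw [Finset.sum_comm]
  refine Finset.sum_congr rfl fun ω _ => ?_
  rw [Finset.sum_comm]
  refine Finset.sum_congr rfl fun ω' _ => ?_
  rw [← Finset.mul_sum, ← Finset.sum_mul]

theorem tens2 (φ : X → κ → ℝ) {P : Ω → ℝ} (hP : ∀ ω, 0 ≤ P ω) {A B : Ω → X} {p : X → ℝ}
    (hA : Marg P A p) (hB : Marg P B p) {M : Ω → ℝ} (hM : ∀ ω, |M ω| ≤ 1) :
    ∑ k, ∑ l, (∑ ω, P ω * (M ω * φ (A ω) k * φ (B ω) l)) ^ 2 ≤
      pp p fun x x' => Qv φ x x' ^ 2 := by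
  have h1 := sum2_sq P (fun ω k => M ω * φ (A ω) k) (fun ω l => φ (B ω) l)
  rw [h1]
  have h2 : ∀ ω ω', P ω * P ω' * ((∑ k, M ω * φ (A ω) k * (M ω' * φ (A ω') k)) *
      (∑ l, φ (B ω) l * φ (B ω') l)) ≤
      1 / 2 * (P ω * P ω' * Qv φ (A ω) (A ω') ^ 2) +
      1 / 2 * (P ω * P ω' * Qv φ (B ω) (B ω') ^ 2) := by
    intro ω ω'
    have e : ∑ k, M ω * φ (A ω) k * (M ω' * φ (A ω') k) = M ω * M ω' * Qv φ (A ω) (A ω') := by
      unfold Qv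
      rw [Finset.mul_sum]
      exact Finset.sum_congr rfl fun k _ => by ring
    rw [e]
    have hMM : |M ω * M ω'| ≤ 1 := by
      rw [abs_mul]
      exact mul_le_one₀ (hM ω) (abs_nonneg _) (hM ω')
    have h3 : M ω * M ω' * Qv φ (A ω) (A ω') * (∑ l, φ (B ω) l * φ (B ω') l) ≤
        |Qv φ (A ω) (A ω')| * |Qv φ (B ω) (B ω')| := by
      refine (le_abs_self _).trans ?_
      rw [abs_mul, abs_mul]
      have h4 := mul_le_mul_of_nonneg_right hMM (abs_nonneg (Qv φ (A ω) (A ω')))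
      rw [one_mul] at h4
      exact mul_le_mul_of_nonneg_right h4 (abs_nonneg _)
    have h5 : |Qv φ (A ω) (A ω')| * |Qv φ (B ω) (B ω')| ≤
        1 / 2 * Qv φ (A ω) (A ω') ^ 2 + 1 / 2 * Qv φ (B ω) (B ω') ^ 2 := by
      have h7 := sq_nonneg (|Qv φ (A ω) (A ω')| - |Qv φ (B ω) (B ω')|)
      have h8 := sq_abs (Qv φ (A ω) (A ω'))
      have h9 := sq_abs (Qv φ (B ω) (B ω'))
      nlinarith
    have h6 := mul_le_mul_of_nonneg_left (h3.trans h5) (mul_nonneg (hP ω) (hP ω'))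
    linarith
  refine (Finset.sum_le_sum fun ω _ => Finset.sum_le_sum fun ω' _ => h2 ω ω').trans ?_
  simp only [Finset.sum_add_distrib, ← Finset.mul_sum]
  rw [hA.pair fun x x' => Qv φ x x' ^ 2, hB.pair fun x x' => Qv φ x x' ^ 2]
  linarith

lemma sum1_sq (P : Ω → ℝ) (u : Ω → κ → ℝ) :
    ∑ k, (∑ ω, P ω * u ω k) ^ 2 = ∑ ω, ∑ ω', P ω * P ω' * (∑ k, u ω k * u ω' k) := by
  have e1 : ∀ k, (∑ ω, P ω * u ω k) ^ 2 = ∑ ω, ∑ ω', P ω * P ω' * (u ω k * u ω' k) := by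
    intro k
    rw [sq, Finset.sum_mul_sum]
    exact Finset.sum_congr rfl fun ω _ => Finset.sum_congr rfl fun ω' _ => by ring
  simp only [e1]
  rw [Finset.sum_comm]
  refine Finset.sum_congr rfl fun ω _ => ?_
  rw [Finset.sum_comm]
  refine Finset.sum_congr rfl fun ω' _ => ?_
  rw [← Finset.mul_sum]

theorem tens1 (φ : X → κ → ℝ) {P : Ω → ℝ} (hP : ∀ ω, 0 ≤ P ω) {A : Ω → X} {p : X → ℝ}
    (hA : Marg P A p) {M : Ω → ℝ} (hM : ∀ ω, |M ω| ≤ 1) :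
    ∑ k, (∑ ω, P ω * (M ω * φ (A ω) k)) ^ 2 ≤ pp p fun x x' => |Qv φ x x'| := by
  have h1 := sum1_sq P (fun ω k => M ω * φ (A ω) k)
  rw [h1]
  have h2 : ∀ ω ω', P ω * P ω' * (∑ k, M ω * φ (A ω) k * (M ω' * φ (A ω') k)) ≤
      P ω * P ω' * |Qv φ (A ω) (A ω')| := by
    intro ω ω'
    have e : ∑ k, M ω * φ (A ω) k * (M ω' * φ (A ω') k) = M ω * M ω' * Qv φ (A ω) (A ω') := by
      unfold Qv
      rw [Finset.mul_sum]
      exact Finset.sum_congr rfl fun k _ => by ring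
    rw [e]
    have hMM : |M ω * M ω'| ≤ 1 := by
      rw [abs_mul]
      exact mul_le_one₀ (hM ω) (abs_nonneg _) (hM ω')
    refine mul_le_mul_of_nonneg_left ((le_abs_self _).trans ?_) (mul_nonneg (hP ω) (hP ω'))
    rw [abs_mul]
    have h4 := mul_le_mul_of_nonneg_right hMM (abs_nonneg (Qv φ (A ω) (A ω')))
    rwa [one_mul] at h4
  refine (Finset.sum_le_sum fun ω _ => Finset.sum_le_sum fun ω' _ => h2 ω ω').trans ?_
  rw [hA.pair fun x x' => |Qv φ x x'|]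

end fin

end Vale.Agent.P146.H93
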