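import Vale.Agent.P146.H93.Tl2

/-!
# P146: leaf averages as finite averages, representable tensors (helper93)
-/

open MeasureTheory ProbabilityTheory

namespace Vale.Agent.P146.H93

open Vale.Agent.P157 Vale.Agent.P157.Lv Vale.Agent.P157.Lv.Sy
open Vale.Agent.P146.H425

set_option linter.unusedSectionVars false

variable {ι X : Type} [Fintype ι] [DecidableEq ι] [Fintype X] [DecidableEq X] [Nonempty X]
  {S : Sy ι X} {a : X → ι → ℝ} {c : X → ℝ}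
variable {R : Type} [Fintype R] [DecidableEq R]

/-- the joint law of the replicas given the levels at most `1` -/
noncomputable def PR (S : Sy ι X) (σ : R → X) (z : ι → ℝ) : ℝ :=
  S.T 1 (fun z _ => ∏ r, S.gb z (σ r)) z

lemma ER_eq (hS : S.Reg) (hK : 1 ≤ S.K) (f : (R → X) → ℝ) (z : ι → ℝ) :
    ER S f z = ∑ σ : R → X, PR S σ z * f σ := by
  unfold ER AR PR
  rw [hS.T_sum hK Finset.univ (f := fun (σ : R → X) z _ => (∏ r, S.gb z (σ r)) * f σ)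
    (fun σ _ => Nh.fst ((eg_gbp hS σ).mul (EG.const _)))]
  refine Finset.sum_congr rfl fun σ _ => ?_
  have e : (fun (z : ι → ℝ) (_ : X) => (∏ r, S.gb z (σ r)) * f σ) =
      fun z _ => f σ * ∏ r, S.gb z (σ r) := by
    funext z _; ring
  rw [e, T_const_mul]
  ring

lemma PR_nonneg (hS : S.Reg) (hK : 1 ≤ S.K) (σ : R → X) (z : ι → ℝ) : 0 ≤ PR S σ z := by
  have h := hS.T_mono hK (f := fun _ _ => (0 : ℝ)) (g := fun z _ => ∏ r, S.gb z (σ r))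
    (Nh.snd fun _ => 0) (Nh.fst (eg_gbp hS σ))
    (fun z _ => Finset.prod_nonneg fun r _ => (gb_pos S z (σ r)).le) z
  rw [hS.T_const hK] at h
  exact h

/-- one replica in a Gibbs average -/
lemma AR_one (S : Sy ι X) (r0 : R) (g : X → ℝ) (z : ι → ℝ) :
    AR S (fun σ : R → X => g (σ r0)) z = S.av (fun _ x => g x) z := by
  classical
  unfold AR av
  have h1 := Finset.prod_univ_sum (fun _ : R => (Finset.univ : Finset X))
    (fun r x => S.gb z x * (if r = r0 then g x else 1))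
  rw [Fintype.piFinset_univ] at h1
  have h2 : ∀ σ : R → X, (∏ r, S.gb z (σ r)) * g (σ r0) =
      ∏ r, S.gb z (σ r) * (if r = r0 then g (σ r) else 1) := by
    intro σ
    rw [Finset.prod_mul_distrib]
    congr 1
    rw [Finset.prod_ite_eq' Finset.univ r0]
    simp
  rw [Finset.sum_congr rfl fun σ _ => h2 σ, ← h1, ← Finset.mul_prod_erase Finset.univ _
    (Finset.mem_univ r0)]
  simp only [if_true]
  have h3 : ∏ r ∈ Finset.univ.erase r0, ∑ x, S.gb z x * (if r = r0 then g x else 1) = 1 := by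
    refine Finset.prod_eq_one fun r hr => ?_
    rw [Finset.mem_erase] at hr
    simp only [hr.1, if_false, mul_one, sum_gb]
  rw [h3, mul_one]

lemma ER_one (S : Sy ι X) (r0 : R) (g : X → ℝ) (z : ι → ℝ) :
    ER S (fun σ : R → X => g (σ r0)) z = E1 S g z := by
  unfold ER E1 T
  congr 1
  funext z
  rw [av_fst S (AR S fun σ : R → X => g (σ r0)), AR_one]

lemma E1_eq (hS : S.Reg) (hK : 1 ≤ S.K) (g : X → ℝ) (z : ι → ℝ) :
    E1 S g z = ∑ x, S.pr 1 z x * g x := hS.T_pr hK g z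

lemma marg_PR (hS : S.Reg) (hK : 1 ≤ S.K) (r : R) (z : ι → ℝ) :
    Marg (fun σ : R → X => PR S σ z) (fun σ => σ r) (fun x => S.pr 1 z x) := by
  intro g
  rw [← ER_eq hS hK (fun σ => g (σ r)), ER_one, E1_eq hS hK]

lemma sum_PR (hS : S.Reg) (hK : 1 ≤ S.K) (z : ι → ℝ) : ∑ σ : R → X, PR S σ z = 1 := by
  have h := ER_eq (R := R) hS hK (fun _ => 1) z
  simp only [mul_one] at h
  rw [← h]
  unfold ER AR
  simp only [mul_one]
  have h1 := fun z => Finset.prod_univ_sum (fun _ : R => (Finset.univ : Finset X))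
    (fun _ x => S.gb z x)
  have h2 : ∀ z, ∑ σ : R → X, ∏ r, S.gb z (σ r) = 1 := by
    intro z
    have := h1 z
    rw [Fintype.piFinset_univ] at this
    rw [← this]
    simp [sum_gb]
  simp only [h2]
  exact hS.T_const hK 1 z

lemma sum_pr1 (hS : S.Reg) (hK : 1 ≤ S.K) (z : ι → ℝ) : ∑ x, S.pr 1 z x = 1 := hS.sum_pr hK z

lemma abs_ER_le (hS : S.Reg) (hK : 1 ≤ S.K) {f : (R → X) → ℝ} {C : ℝ} (hf : ∀ σ, |f σ| ≤ C)
    (z : ι → ℝ) : |ER S f z| ≤ C := by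
  rw [ER_eq hS hK]
  calc |∑ σ : R → X, PR S σ z * f σ| ≤ ∑ σ : R → X, |PR S σ z * f σ| :=
        Finset.abs_sum_le_sum_abs _ _
    _ ≤ ∑ σ : R → X, PR S σ z * C := Finset.sum_le_sum fun σ _ => by
        rw [abs_mul, abs_of_nonneg (PR_nonneg hS hK σ z)]
        exact mul_le_mul_of_nonneg_left (hf σ) (PR_nonneg hS hK σ z)
    _ = C := by rw [← Finset.sum_mul, sum_PR hS hK, one_mul]

/-! ### representable tensors -/

section rep

variable {κ1 κ2 κ3 : Type} [Fintype κ1] [Fintype κ2] [Fintype κ3]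

/-- the tensor `T` is an average of `M φ1(A) ⊗ φ2(B) ⊗ φ3(C)`, `|M| ≤ 1`, where `A`, `B`, `C` have
the law `p` -/
def Rep (φ1 : X → κ1 → ℝ) (φ2 : X → κ2 → ℝ) (φ3 : X → κ3 → ℝ) (p : X → ℝ)
    (T : κ1 → κ2 → κ3 → ℝ) : Prop :=
  ∃ (Ω : Type) (_ : Fintype Ω) (P : Ω → ℝ) (A B C : Ω → X) (M : Ω → ℝ), (∀ ω, 0 ≤ P ω) ∧
    Marg P A p ∧ Marg P B p ∧ Marg P C p ∧ (∀ ω, |M ω| ≤ 1) ∧
    ∀ k l m, T k l m = ∑ ω, P ω * (M ω * φ1 (A ω) k * φ2 (B ω) l * φ3 (C ω) m)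

/-- the bound of a representable tensor -/
noncomputable def BB (φ1 : X → κ1 → ℝ) (φ2 : X → κ2 → ℝ) (φ3 : X → κ3 → ℝ) (p : X → ℝ) : ℝ :=
  1 / 3 * (pp p fun x x' => |Qv φ1 x x'| ^ 3) + 1 / 3 * (pp p fun x x' => |Qv φ2 x x'| ^ 3) +
        1 / 3 * (pp p fun x x' => |Qv φ3 x x'| ^ 3)

variable {φ1 : X → κ1 → ℝ} {φ2 : X → κ2 → ℝ} {φ3 : X → κ3 → ℝ} {p : X → ℝ}

lemma Rep.le {T : κ1 → κ2 → κ3 → ℝ} (h : Rep φ1 φ2 φ3 p T) :
    ∑ k, ∑ l, ∑ m, T k l m ^ 2 ≤ BB φ1 φ2 φ3 p := by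
  obtain ⟨Ω, _, P, A, B, C, M, hP, hA, hB, hC, hM, hT⟩ := h
  simp only [hT]
  exact tens φ1 φ2 φ3 hP hA hB hC hM

/-- `T` is bounded by `C` times the bound of the representable tensors -/
def Gd (φ1 : X → κ1 → ℝ) (φ2 : X → κ2 → ℝ) (φ3 : X → κ3 → ℝ) (p : X → ℝ) (C : ℝ)
    (T : κ1 → κ2 → κ3 → ℝ) : Prop :=
  0 < C ∧ ∑ k, ∑ l, ∑ m, T k l m ^ 2 ≤ C ^ 2 * BB φ1 φ2 φ3 p

lemma Rep.gd {T : κ1 → κ2 → κ3 → ℝ} (h : Rep φ1 φ2 φ3 p T) : Gd φ1 φ2 φ3 p 1 T :=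
  ⟨one_pos, by rw [one_pow, one_mul]; exact h.le⟩

lemma Gd.add {C C' : ℝ} {T T' : κ1 → κ2 → κ3 → ℝ} (h : Gd φ1 φ2 φ3 p C T)
    (h' : Gd φ1 φ2 φ3 p C' T') : Gd φ1 φ2 φ3 p (C + C') (fun k l m => T k l m + T' k l m) := by
  obtain ⟨h0, h1⟩ := h
  obtain ⟨h0', h1'⟩ := h'
  refine ⟨add_pos h0 h0', ?_⟩
  have h2 : ∀ k l m, (T k l m + T' k l m) ^ 2 ≤ (1 + C' / C) * T k l m ^ 2 +
      (1 + C / C') * T' k l m ^ 2 := by
    intro k l m
    have h3 : 0 ≤ (C' * T k l m - C * T' k l m) ^ 2 / (C * C') := by positivity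
    have h4 : (C' * T k l m - C * T' k l m) ^ 2 / (C * C') =
        C' / C * T k l m ^ 2 + C / C' * T' k l m ^ 2 - 2 * (T k l m * T' k l m) := by
      field_simp
      ring
    rw [h4] at h3
    nlinarith [h3]
  calc ∑ k, ∑ l, ∑ m, (T k l m + T' k l m) ^ 2 ≤ ∑ k, ∑ l, ∑ m,
        ((1 + C' / C) * T k l m ^ 2 + (1 + C / C') * T' k l m ^ 2) :=
        Finset.sum_le_sum fun k _ => Finset.sum_le_sum fun l _ => Finset.sum_le_sum fun m _ =>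
          h2 k l m
    _ = (1 + C' / C) * ∑ k, ∑ l, ∑ m, T k l m ^ 2 +
        (1 + C / C') * ∑ k, ∑ l, ∑ m, T' k l m ^ 2 := by
        simp only [Finset.sum_add_distrib, ← Finset.mul_sum]
    _ ≤ (1 + C' / C) * (C ^ 2 * BB φ1 φ2 φ3 p) + (1 + C / C') * (C' ^ 2 * BB φ1 φ2 φ3 p) :=
        add_le_add (mul_le_mul_of_nonneg_left h1 (by positivity))
          (mul_le_mul_of_nonneg_left h1' (by positivity))
    _ = (C + C') ^ 2 * BB φ1 φ2 φ3 p := by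
        field_simp
        ring

lemma Gd.smul {C D : ℝ} {T : κ1 → κ2 → κ3 → ℝ} (h : Gd φ1 φ2 φ3 p C T) {c : ℝ} (hc : |c| ≤ D)
    (hD : 0 < D) : Gd φ1 φ2 φ3 p (D * C) (fun k l m => c * T k l m) := by
  obtain ⟨h0, h1⟩ := h
  refine ⟨mul_pos hD h0, ?_⟩
  have h2 : c ^ 2 ≤ D ^ 2 := by
    rw [← sq_abs c]
    exact pow_le_pow_left₀ (abs_nonneg c) hc 2
  have h3 : 0 ≤ ∑ k, ∑ l, ∑ m, T k l m ^ 2 :=
    Finset.sum_nonneg fun _ _ => Finset.sum_nonneg fun _ _ => Finset.sum_nonneg fun _ _ =>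
      sq_nonneg _
  have h4 : 0 ≤ C ^ 2 * BB φ1 φ2 φ3 p := h3.trans h1
  calc ∑ k, ∑ l, ∑ m, (c * T k l m) ^ 2 = c ^ 2 * ∑ k, ∑ l, ∑ m, T k l m ^ 2 := by
        simp only [mul_pow, ← Finset.mul_sum]
    _ ≤ D ^ 2 * (C ^ 2 * BB φ1 φ2 φ3 p) :=
        mul_le_mul h2 h1 h3 (sq_nonneg D)
    _ = _ := by ring

lemma Gd.congr {C : ℝ} {T T' : κ1 → κ2 → κ3 → ℝ} (h : Gd φ1 φ2 φ3 p C T)
    (e : ∀ k l m, T' k l m = T k l m) : Gd φ1 φ2 φ3 p C T' := by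
  have : T' = T := by funext k l m; exact e k l m
  rw [this]; exact h

lemma Gd.sum {ρ : Type} (s : Finset ρ) (hs : s.Nonempty) {C : ℝ} {T : ρ → κ1 → κ2 → κ3 → ℝ}
    (h : ∀ i ∈ s, Gd φ1 φ2 φ3 p C (T i)) :
    Gd φ1 φ2 φ3 p (s.card * C) (fun k l m => ∑ i ∈ s, T i k l m) := by
  classical
  induction hs using Finset.Nonempty.cons_induction with
  | singleton b =>
    simpa using h b (Finset.mem_singleton_self b)
  | cons b s hb hs ih =>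
    have h1 := h b (Finset.mem_cons_self b s)
    have h2 := ih fun i hi => h i (Finset.mem_cons_of_mem hi)
    have h3 := h1.add h2
    rw [Finset.card_cons]
    have e : C + (s.card : ℝ) * C = ((s.card + 1 : ℕ) : ℝ) * C := by push_cast; ring
    rw [e] at h3
    refine h3.congr fun k l m => ?_
    rw [Finset.sum_cons]

end rep

end Vale.Agent.P146.H93
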