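import Vale.Agent.P146.H93.Tl3

/-!
# P146: second derivatives of a leaf average, tensor bound (helper93)
-/

open MeasureTheory ProbabilityTheory

namespace Vale.Agent.P146.H93

open Vale.Agent.P157 Vale.Agent.P157.Lv Vale.Agent.P157.Lv.Sy
open Vale.Agent.P146.H425

set_option linter.unusedSectionVars false

section rep

variable {X κ1 κ2 κ3 : Type} [Fintype X] [Fintype κ1] [Fintype κ2] [Fintype κ3]

/-- representable vectors -/
def Rep1 (φ1 : X → κ1 → ℝ) (p : X → ℝ) (T : κ1 → ℝ) : Prop :=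
  ∃ (Ω : Type) (_ : Fintype Ω) (P : Ω → ℝ) (A : Ω → X) (M : Ω → ℝ), (∀ ω, 0 ≤ P ω) ∧
    Marg P A p ∧ (∀ ω, |M ω| ≤ 1) ∧ ∀ k, T k = ∑ ω, P ω * (M ω * φ1 (A ω) k)

/-- representable matrices -/
def Rep2 (φ1 : X → κ1 → ℝ) (φ2 : X → κ2 → ℝ) (p : X → ℝ) (T : κ1 → κ2 → ℝ) : Prop :=
  ∃ (Ω : Type) (_ : Fintype Ω) (P : Ω → ℝ) (A B : Ω → X) (M : Ω → ℝ), (∀ ω, 0 ≤ P ω) ∧
    Marg P A p ∧ Marg P B p ∧ (∀ ω, |M ω| ≤ 1) ∧
    ∀ k l, T k l = ∑ ω, P ω * (M ω * φ1 (A ω) k * φ2 (B ω) l)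

variable {φ1 : X → κ1 → ℝ} {φ2 : X → κ2 → ℝ} {φ3 : X → κ3 → ℝ} {p : X → ℝ}

lemma Marg.sum_one {Ω : Type} [Fintype Ω] {P : Ω → ℝ} {A : Ω → X} (h : Marg P A p)
    (hp : ∑ x, p x = 1) : ∑ ω, P ω = 1 := by
  have := h fun _ => 1
  simpa [hp] using this

lemma Marg.fst {Ω Ω' : Type} [Fintype Ω] [Fintype Ω'] {P : Ω → ℝ} {P' : Ω' → ℝ} {A : Ω → X}
    (h : Marg P A p) (h' : ∑ ω, P' ω = 1) :
    Marg (fun ω : Ω × Ω' => P ω.1 * P' ω.2) (fun ω => A ω.1) p := by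
  intro g
  rw [Fintype.sum_prod_type, ← h g]
  refine Finset.sum_congr rfl fun ω _ => ?_
  have : ∀ ω', P ω * P' ω' * g (A ω) = P ω * g (A ω) * P' ω' := fun ω' => by ring
  simp only [this, ← Finset.mul_sum, h', mul_one]

lemma Marg.snd {Ω Ω' : Type} [Fintype Ω] [Fintype Ω'] {P : Ω → ℝ} {P' : Ω' → ℝ} {A : Ω' → X}
    (h : Marg P' A p) (h' : ∑ ω, P ω = 1) :
    Marg (fun ω : Ω × Ω' => P ω.1 * P' ω.2) (fun ω => A ω.2) p := by
  intro g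
  rw [Fintype.sum_prod_type_right, ← h g]
  refine Finset.sum_congr rfl fun ω _ => ?_
  have : ∀ ω', P ω' * P' ω * g (A ω) = P' ω * g (A ω) * P ω' := fun ω' => by ring
  simp only [this, ← Finset.mul_sum, h', mul_one]

lemma abs_mul_le_one' {a b : ℝ} (ha : |a| ≤ 1) (hb : |b| ≤ 1) : |a * b| ≤ 1 := by
  rw [abs_mul]
  exact mul_le_one₀ ha (abs_nonneg _) hb

lemma Rep1.mul {T : κ1 → ℝ} {T' : κ2 → ℝ} (hp : ∑ x, p x = 1) (h : Rep1 φ1 p T)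
    (h' : Rep1 φ2 p T') : Rep2 φ1 φ2 p (fun k l => T k * T' l) := by
  obtain ⟨Ω, _, P, A, M, hP, hA, hM, hT⟩ := h
  obtain ⟨Ω', _, P', B, M', hP', hB, hM', hT'⟩ := h'
  refine ⟨Ω × Ω', inferInstance, fun ω => P ω.1 * P' ω.2, fun ω => A ω.1, fun ω => B ω.2,
    fun ω => M ω.1 * M' ω.2, fun ω => mul_nonneg (hP _) (hP' _), hA.fst (hB.sum_one hp),
    hB.snd (hA.sum_one hp), fun ω => abs_mul_le_one' (hM _) (hM' _), fun k l => ?_⟩
  beta_reduce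
  rw [hT, hT', Finset.sum_mul_sum, Fintype.sum_prod_type]
  exact Finset.sum_congr rfl fun ω _ => Finset.sum_congr rfl fun ω' _ => by ring

lemma Rep2.mul {T : κ1 → κ2 → ℝ} {T' : κ3 → ℝ} (hp : ∑ x, p x = 1) (h : Rep2 φ1 φ2 p T)
    (h' : Rep1 φ3 p T') : Rep φ1 φ2 φ3 p (fun k l m => T k l * T' m) := by
  obtain ⟨Ω, _, P, A, B, M, hP, hA, hB, hM, hT⟩ := h
  obtain ⟨Ω', _, P', C, M', hP', hC, hM', hT'⟩ := h'
  refine ⟨Ω × Ω', inferInstance, fun ω => P ω.1 * P' ω.2, fun ω => A ω.1, fun ω => B ω.1,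
    fun ω => C ω.2, fun ω => M ω.1 * M' ω.2, fun ω => mul_nonneg (hP _) (hP' _),
    hA.fst (hC.sum_one hp), hB.fst (hC.sum_one hp), hC.snd (hA.sum_one hp),
    fun ω => abs_mul_le_one' (hM _) (hM' _), fun k l m => ?_⟩
  beta_reduce
  rw [hT, hT', Finset.sum_mul_sum, Fintype.sum_prod_type]
  exact Finset.sum_congr rfl fun ω _ => Finset.sum_congr rfl fun ω' _ => by ring

lemma Rep1.mul2 {T : κ1 → ℝ} {T' : κ2 → κ3 → ℝ} (hp : ∑ x, p x = 1) (h : Rep1 φ1 p T)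
    (h' : Rep2 φ2 φ3 p T') : Rep φ1 φ2 φ3 p (fun k l m => T k * T' l m) := by
  obtain ⟨Ω, _, P, A, M, hP, hA, hM, hT⟩ := h
  obtain ⟨Ω', _, P', B, C, M', hP', hB, hC, hM', hT'⟩ := h'
  refine ⟨Ω × Ω', inferInstance, fun ω => P ω.1 * P' ω.2, fun ω => A ω.1, fun ω => B ω.2,
    fun ω => C ω.2, fun ω => M ω.1 * M' ω.2, fun ω => mul_nonneg (hP _) (hP' _),
    hA.fst (hC.sum_one hp), hB.snd (hA.sum_one hp), hC.snd (hA.sum_one hp),
    fun ω => abs_mul_le_one' (hM _) (hM' _), fun k l m => ?_⟩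
  beta_reduce
  rw [hT, hT', Finset.sum_mul_sum, Fintype.sum_prod_type]
  exact Finset.sum_congr rfl fun ω _ => Finset.sum_congr rfl fun ω' _ => by ring

lemma Rep.swap {T : κ1 → κ2 → κ3 → ℝ} (h : Rep φ1 φ2 φ3 p T) :
    Rep φ1 φ3 φ2 p (fun k m l => T k l m) := by
  obtain ⟨Ω, _, P, A, B, C, M, hP, hA, hB, hC, hM, hT⟩ := h
  refine ⟨Ω, inferInstance, P, A, C, B, M, hP, hA, hC, hB, hM, fun k m l => ?_⟩
  beta_reduce
  rw [hT]
  exact Finset.sum_congr rfl fun ω _ => by ring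

lemma Rep.congr {T T' : κ1 → κ2 → κ3 → ℝ} (h : Rep φ1 φ2 φ3 p T)
    (e : ∀ k l m, T' k l m = T k l m) : Rep φ1 φ2 φ3 p T' := by
  have : T' = T := by funext k l m; exact e k l m
  rw [this]; exact h

lemma Rep1.congr {T T' : κ1 → ℝ} (h : Rep1 φ1 p T) (e : ∀ k, T' k = T k) : Rep1 φ1 p T' := by
  have : T' = T := by funext k; exact e k
  rw [this]; exact h

lemma Rep2.congr {T T' : κ1 → κ2 → ℝ} (h : Rep2 φ1 φ2 p T) (e : ∀ k l, T' k l = T k l) :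
    Rep2 φ1 φ2 p T' := by
  have : T' = T := by funext k l; exact e k l
  rw [this]; exact h

end rep

variable {ι X : Type} [Fintype ι] [DecidableEq ι] [Fintype X] [DecidableEq X] [Nonempty X]
  {S : Sy ι X} {a : X → ι → ℝ} {c : X → ℝ}
variable {R : Type} [Fintype R] [DecidableEq R]
variable {κ1 κ2 κ3 : Type} [Fintype κ1] [Fintype κ2] [Fintype κ3]
variable {φ1 : X → κ1 → ℝ} {φ2 : X → κ2 → ℝ} {φ3 : X → κ3 → ℝ}

lemma rep3_ER (hS : S.Reg) (hK : 1 ≤ S.K) (z : ι → ℝ) (r1 r2 r3 : R) {M : (R → X) → ℝ}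
    (hM : ∀ σ, |M σ| ≤ 1) : Rep φ1 φ2 φ3 (fun x => S.pr 1 z x)
      (fun k l m => ER S (fun σ => M σ * φ1 (σ r1) k * φ2 (σ r2) l * φ3 (σ r3) m) z) :=
  ⟨R → X, inferInstance, fun σ => PR S σ z, fun σ => σ r1, fun σ => σ r2, fun σ => σ r3, M,
    fun σ => PR_nonneg hS hK σ z, marg_PR hS hK r1 z, marg_PR hS hK r2 z, marg_PR hS hK r3 z, hM,
    fun _ _ _ => ER_eq hS hK _ z⟩

lemma rep2_ER (hS : S.Reg) (hK : 1 ≤ S.K) (z : ι → ℝ) (r1 r2 : R) {M : (R → X) → ℝ}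
    (hM : ∀ σ, |M σ| ≤ 1) : Rep2 φ1 φ2 (fun x => S.pr 1 z x)
      (fun k l => ER S (fun σ => M σ * φ1 (σ r1) k * φ2 (σ r2) l) z) :=
  ⟨R → X, inferInstance, fun σ => PR S σ z, fun σ => σ r1, fun σ => σ r2, M,
    fun σ => PR_nonneg hS hK σ z, marg_PR hS hK r1 z, marg_PR hS hK r2 z, hM,
    fun _ _ => ER_eq hS hK _ z⟩

lemma rep1_ER (hS : S.Reg) (hK : 1 ≤ S.K) (z : ι → ℝ) (r1 : R) {M : (R → X) → ℝ}
    (hM : ∀ σ, |M σ| ≤ 1) : Rep1 φ1 (fun x => S.pr 1 z x)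
      (fun k => ER S (fun σ => M σ * φ1 (σ r1) k) z) :=
  ⟨R → X, inferInstance, fun σ => PR S σ z, fun σ => σ r1, M,
    fun σ => PR_nonneg hS hK σ z, marg_PR hS hK r1 z, hM,
    fun _ => ER_eq hS hK _ z⟩

lemma rep1_E1 (hS : S.Reg) (hK : 1 ≤ S.K) (z : ι → ℝ) {M : X → ℝ}
    (hM : ∀ x, |M x| ≤ 1) : Rep1 φ1 (fun x => S.pr 1 z x)
      (fun k => E1 S (fun x => M x * φ1 x k) z) :=
  (rep1_ER (R := Unit) hS hK z () (M := fun σ => M (σ ())) (fun σ => hM _)).congr fun k => by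
    rw [← ER_one S () (fun x => M x * φ1 x k)]

/-- the derivative of `ER S f` in the coordinate `e` -/
noncomputable def d1 (S : Sy ι X) (a : X → ι → ℝ) (f : (R → X) → ℝ) (e : ι) (z : ι → ℝ) : ℝ :=
  ER S (fun σ => f σ * ∑ r, a (σ r) e) z +
    (S.m 2 - Fintype.card R) * ER S (tn f (fun x => a x e)) z -
      S.m 2 * (ER S f z * E1 S (fun x => a x e) z)

/-- the derivative of `d1 S a f e` in the coordinate `e'` -/
noncomputable def d2 (S : Sy ι X) (a : X → ι → ℝ) (f : (R → X) → ℝ) (e e' : ι) (z : ι → ℝ) : ℝ :=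
  d1 S a (fun σ => f σ * ∑ r, a (σ r) e) e' z +
    (S.m 2 - Fintype.card R) * d1 S a (tn f (fun x => a x e)) e' z -
      S.m 2 * (d1 S a f e' z * E1 S (fun x => a x e) z +
        ER S f z * d1 S a (fun σ : Unit → X => a (σ ()) e) e' z)

lemma eg_E1 (hS : S.Reg) (hK : 1 ≤ S.K) (g : X → ℝ) : EG (E1 S g) :=
  hS.eg_T hK (Nh.snd g)

lemma dep_E1 (S : Sy ι X) (g : X → ℝ) : Dep S.lev 1 (E1 S g) := dep_T S 1 _

lemma eg_d1 (hS : S.Reg) (hK : 1 ≤ S.K) (f : (R → X) → ℝ) (e : ι) : EG (d1 S a f e) :=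
  ((eg_ER hS hK _).add ((eg_ER hS hK _).const_mul _)).sub
    (((eg_ER hS hK _).mul (eg_E1 hS hK _)).const_mul _)

lemma eg_d2 (hS : S.Reg) (hK : 1 ≤ S.K) (f : (R → X) → ℝ) (e e' : ι) : EG (d2 S a f e e') :=
  ((eg_d1 hS hK _ _).add ((eg_d1 hS hK _ _).const_mul _)).sub
    ((((eg_d1 hS hK _ _).mul (eg_E1 hS hK _)).add
      ((eg_ER hS hK _).mul (eg_d1 hS hK _ _))).const_mul _)

lemma dep_d1 (S : Sy ι X) (a : X → ι → ℝ) (f : (R → X) → ℝ) (e : ι) :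
    Dep S.lev 1 (d1 S a f e) := by
  intro z w
  unfold d1
  rw [dep_ER S _ z w, dep_ER S _ z w, dep_ER S _ z w, dep_E1 S _ z w]

lemma pd_d1 (h : LinS S a c) (hK : S.K = 2) {e : ι} (he : S.lev e ≤ 1) (f : (R → X) → ℝ) :
    PD e (ER S f) (d1 S a f e) := pd_ER h hK he f

lemma pd_E1 (h : LinS S a c) (hK : S.K = 2) {e : ι} (he : S.lev e ≤ 1) (g : X → ℝ) :
    PD e (E1 S g) (d1 S a (fun σ : Unit → X => g (σ ())) e) := by
  have h1 := pd_d1 h hK he (fun σ : Unit → X => g (σ ()))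
  have h2 : E1 S g = ER S (fun σ : Unit → X => g (σ ())) := by
    funext z
    exact (ER_one S () g z).symm
  rw [h2]
  exact h1

theorem pd_d2 (h : LinS S a c) (hK : S.K = 2) {e e' : ι} (he' : S.lev e' ≤ 1)
    (f : (R → X) → ℝ) : PD e' (d1 S a f e) (d2 S a f e e') := by
  have h1 := (((pd_d1 h hK he' (fun σ : R → X => f σ * ∑ r, a (σ r) e)).add
    ((pd_d1 h hK he' (tn f fun x => a x e)).const_mul (S.m 2 - Fintype.card R))).sub
    (((pd_d1 h hK he' f).mul (pd_E1 h hK he' fun x => a x e)).const_mul (S.m 2)))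
  exact h1

/-- the coordinates of a family act as `ψ x φ x l`, `|ψ| ≤ 1` -/
structure Fam (a : X → ι → ℝ) (ψ : X → ℝ) (φ : X → κ2 → ℝ) (ev : κ2 → ι) : Prop where
  ψ1 : ∀ x, |ψ x| ≤ 1
  eq : ∀ x l, a x (ev l) = ψ x * φ x l

variable {ψ : X → ℝ} {ev : κ2 → ι}

/-- the first derivative of a representable matrix family -/
lemma gd_d1 (h : LinS S a c) (hK : S.K = 2) (hm1 : S.m 2 ≤ 1) (hm0 : 0 ≤ S.m 2)
    (hF : Fam a ψ φ2 ev) (z : ι → ℝ) (r1 r2 : R) {M : (R → X) → ℝ} (hM : ∀ σ, |M σ| ≤ 1) :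
    Gd φ1 φ2 φ2 (fun x => S.pr 1 z x) (2 * Fintype.card R + 1)
      (fun k l m => d1 S a (fun σ : R → X => M σ * φ1 (σ r1) k * φ2 (σ r2) l) (ev m) z) := by
  have hS := h.reg
  have hK1 : 1 ≤ S.K := by omega
  have hp := sum_pr1 hS hK1 z
  have hcard : (1 : ℝ) ≤ Fintype.card R := by
    have : 0 < Fintype.card R := Fintype.card_pos_iff.2 ⟨r1⟩
    exact_mod_cast this
  have t1 : Gd φ1 φ2 φ2 (fun x => S.pr 1 z x) ((Finset.univ : Finset R).card * 1)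
      (fun k l m => ∑ r, ER S (fun σ : R → X => (M σ * ψ (σ r)) * φ1 (σ r1) k * φ2 (σ r2) l *
        φ2 (σ r) m) z) := by
    refine Gd.sum Finset.univ ⟨r1, Finset.mem_univ _⟩ fun r _ => ?_
    exact (rep3_ER (φ1 := φ1) (φ2 := φ2) (φ3 := φ2) hS hK1 z r1 r2 r
      (M := fun σ => M σ * ψ (σ r)) fun σ => abs_mul_le_one' (hM σ) (hF.ψ1 _)).gd
  have t2 : Gd φ1 φ2 φ2 (fun x => S.pr 1 z x) (Fintype.card R * 1)
      (fun k l m => (S.m 2 - Fintype.card R) * ER S (fun σ : Option R → X =>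
        (M (fun r => σ (some r)) * ψ (σ none)) * φ1 (σ (some r1)) k * φ2 (σ (some r2)) l *
        φ2 (σ none) m) z) := by
    refine Gd.smul ((rep3_ER (φ1 := φ1) (φ2 := φ2) (φ3 := φ2) hS hK1 z (some r1) (some r2) none
      (M := fun σ => M (fun r => σ (some r)) * ψ (σ none))
      fun σ => abs_mul_le_one' (hM _) (hF.ψ1 _)).gd) ?_ (by linarith)
    rw [abs_le]
    constructor <;> linarith
  have t3 : Gd φ1 φ2 φ2 (fun x => S.pr 1 z x) (1 * 1)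
      (fun k l m => (-S.m 2) * (ER S (fun σ : R → X => M σ * φ1 (σ r1) k * φ2 (σ r2) l) z *
        E1 S (fun x => ψ x * φ2 x m) z)) := by
    refine Gd.smul (((rep2_ER (φ1 := φ1) (φ2 := φ2) hS hK1 z r1 r2 hM).mul hp
      (rep1_E1 (φ1 := φ2) hS hK1 z hF.ψ1)).gd) ?_ one_pos
    rw [abs_neg, abs_of_nonneg hm0]
    exact hm1
  have t := (t1.add t2).add t3
  have e : (Finset.univ : Finset R).card * 1 + (Fintype.card R : ℝ) * 1 + 1 * 1 =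
      2 * Fintype.card R + 1 := by
    rw [Finset.card_univ]; ring
  rw [e] at t
  refine t.congr fun k l m => ?_
  unfold d1
  simp only [hF.eq]
  have e1 : (fun σ : R → X => M σ * φ1 (σ r1) k * φ2 (σ r2) l * ∑ r, ψ (σ r) * φ2 (σ r) m) =
      fun σ => ∑ r, (M σ * ψ (σ r)) * φ1 (σ r1) k * φ2 (σ r2) l * φ2 (σ r) m := by
    funext σ
    rw [Finset.mul_sum]
    exact Finset.sum_congr rfl fun r _ => by ring
  have e2 : ER S (fun σ : R → X => ∑ r, (M σ * ψ (σ r)) * φ1 (σ r1) k * φ2 (σ r2) l *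
      φ2 (σ r) m) z = ∑ r, ER S (fun σ : R → X => (M σ * ψ (σ r)) * φ1 (σ r1) k *
        φ2 (σ r2) l * φ2 (σ r) m) z := by
    simp only [ER_eq hS hK1, Finset.mul_sum]
    rw [Finset.sum_comm]
  have e3 : tn (fun σ : R → X => M σ * φ1 (σ r1) k * φ2 (σ r2) l) (fun x => ψ x * φ2 x m) =
      fun σ : Option R → X => (M (fun r => σ (some r)) * ψ (σ none)) * φ1 (σ (some r1)) k *
        φ2 (σ (some r2)) l * φ2 (σ none) m := by
    funext σ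
    unfold tn
    ring
  rw [e1, e2, e3]
  ring

end Vale.Agent.P146.H93
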