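import Vale.Agent.P146.H93.Tl4

/-!
# P146: the tensor bound for the second derivatives (helper93)
-/

open MeasureTheory ProbabilityTheory

namespace Vale.Agent.P146.H93

open Vale.Agent.P157 Vale.Agent.P157.Lv Vale.Agent.P157.Lv.Sy
open Vale.Agent.P146.H425

set_option linter.unusedSectionVars false

variable {ι X : Type} [Fintype ι] [DecidableEq ι] [Fintype X] [DecidableEq X] [Nonempty X]
  {S : Sy ι X} {a : X → ι → ℝ} {c : X → ℝ}
variable {R : Type} [Fintype R] [DecidableEq R]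
variable {κ1 κ2 κ3 : Type} [Fintype κ1] [Fintype κ2] [Fintype κ3]
variable {φ1 : X → κ1 → ℝ} {φ2 : X → κ2 → ℝ} {φ3 : X → κ3 → ℝ}
variable {ψ : X → ℝ} {ev : κ2 → ι}

lemma ER_sum (hS : S.Reg) (hK : 1 ≤ S.K) {ρ : Type} (s : Finset ρ) (g : ρ → (R → X) → ℝ)
    (z : ι → ℝ) : ER S (fun σ => ∑ i ∈ s, g i σ) z = ∑ i ∈ s, ER S (g i) z := by
  simp only [ER_eq hS hK, Finset.mul_sum]
  rw [Finset.sum_comm]

lemma tn_sum {ρ : Type} (s : Finset ρ) (g : ρ → (R → X) → ℝ) (h : X → ℝ) :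
    tn (fun σ => ∑ i ∈ s, g i σ) h = fun σ => ∑ i ∈ s, tn (g i) h σ := by
  funext σ
  unfold tn
  rw [Finset.sum_mul]

lemma d1_sum (hS : S.Reg) (hK : 1 ≤ S.K) {ρ : Type} (s : Finset ρ) (g : ρ → (R → X) → ℝ) (e : ι)
    (z : ι → ℝ) : d1 S a (fun σ => ∑ i ∈ s, g i σ) e z = ∑ i ∈ s, d1 S a (g i) e z := by
  unfold d1
  rw [tn_sum, ER_sum hS hK, ER_sum hS hK]
  have e1 : (fun σ : R → X => (∑ i ∈ s, g i σ) * ∑ r, a (σ r) e) =
      fun σ => ∑ i ∈ s, g i σ * ∑ r, a (σ r) e := by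
    funext σ; rw [Finset.sum_mul]
  rw [e1, ER_sum hS hK, Finset.sum_sub_distrib, Finset.sum_add_distrib, Finset.mul_sum,
    ← Finset.mul_sum (a := S.m 2), ← Finset.sum_mul]

/-- **The tensor bound for the second derivatives of a leaf average.** -/
theorem gd_d2 (h : LinS S a c) (hK : S.K = 2) (hm1 : S.m 2 ≤ 1) (hm0 : 0 ≤ S.m 2)
    (hF : Fam a ψ φ2 ev) (z : ι → ℝ) (r0 : R) {M : (R → X) → ℝ} (hM : ∀ σ, |M σ| ≤ 1) :
    Gd φ1 φ2 φ2 (fun x => S.pr 1 z x)
      (Fintype.card R * (2 * Fintype.card R + 1) + Fintype.card R * (2 * Fintype.card R + 3) +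
        ((2 * Fintype.card R + 1) + 3))
      (fun k l m => d2 S a (fun σ : R → X => M σ * φ1 (σ r0) k) (ev l) (ev m) z) := by
  have hS := h.reg
  have hK1 : 1 ≤ S.K := by omega
  have hp := sum_pr1 hS hK1 z
  have hcard : (1 : ℝ) ≤ Fintype.card R := by
    have : 0 < Fintype.card R := Fintype.card_pos_iff.2 ⟨r0⟩
    exact_mod_cast this
  have habs : |S.m 2 - (Fintype.card R : ℝ)| ≤ Fintype.card R := by
    rw [abs_le]; constructor <;> linarith
  have hmm : |-S.m 2| ≤ 1 := by rw [abs_neg, abs_of_nonneg hm0]; exact hm1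
  -- first term
  have t1 : Gd φ1 φ2 φ2 (fun x => S.pr 1 z x)
      ((Finset.univ : Finset R).card * (2 * Fintype.card R + 1))
      (fun k l m => ∑ r, d1 S a (fun σ : R → X => (M σ * ψ (σ r)) * φ1 (σ r0) k * φ2 (σ r) l)
        (ev m) z) :=
    Gd.sum Finset.univ ⟨r0, Finset.mem_univ _⟩ fun r _ =>
      gd_d1 h hK hm1 hm0 hF z r0 r (M := fun σ => M σ * ψ (σ r))
        fun σ => abs_mul_le_one' (hM σ) (hF.ψ1 _)
  have e1 : ∀ k l m, d1 S a (fun σ : R → X => M σ * φ1 (σ r0) k * ∑ r, a (σ r) (ev l)) (ev m) z =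
      ∑ r, d1 S a (fun σ : R → X => (M σ * ψ (σ r)) * φ1 (σ r0) k * φ2 (σ r) l) (ev m) z := by
    intro k l m
    rw [← d1_sum hS hK1]
    congr 1
    funext σ
    rw [Finset.mul_sum]
    refine Finset.sum_congr rfl fun r _ => ?_
    rw [hF.eq]; ring
  -- second term
  have t2 : Gd φ1 φ2 φ2 (fun x => S.pr 1 z x)
      (Fintype.card R * (2 * Fintype.card (Option R) + 1))
      (fun k l m => (S.m 2 - Fintype.card R) * d1 S a (fun σ : Option R → X =>
        (M (fun r => σ (some r)) * ψ (σ none)) * φ1 (σ (some r0)) k * φ2 (σ none) l) (ev m) z) :=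
    Gd.smul (gd_d1 h hK hm1 hm0 hF z (some r0) none
      (M := fun σ : Option R → X => M (fun r => σ (some r)) * ψ (σ none))
        fun σ => abs_mul_le_one' (hM _) (hF.ψ1 _)) habs (by linarith)
  have e2 : ∀ k l, tn (fun σ : R → X => M σ * φ1 (σ r0) k) (fun x => a x (ev l)) =
      fun σ : Option R → X =>
        (M (fun r => σ (some r)) * ψ (σ none)) * φ1 (σ (some r0)) k * φ2 (σ none) l := by
    intro k l
    funext σ
    unfold tn
    beta_reduce
    rw [hF.eq]; ring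
  -- third term
  have u1 : Gd φ1 φ2 φ2 (fun x => S.pr 1 z x) ((Finset.univ : Finset R).card * 1)
      (fun k l m => ∑ r, ER S (fun σ : R → X => (M σ * ψ (σ r)) * φ1 (σ r0) k * φ2 (σ r) m) z *
        E1 S (fun x => ψ x * φ2 x l) z) := by
    refine Gd.sum Finset.univ ⟨r0, Finset.mem_univ _⟩ fun r _ => ?_
    exact (((rep2_ER (φ1 := φ1) (φ2 := φ2) hS hK1 z r0 r (M := fun σ => M σ * ψ (σ r))
      fun σ => abs_mul_le_one' (hM σ) (hF.ψ1 _)).mul hp (rep1_E1 (φ1 := φ2) hS hK1 z hF.ψ1)).swap).gd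
  have u2 : Gd φ1 φ2 φ2 (fun x => S.pr 1 z x) (Fintype.card R * 1)
      (fun k l m => (S.m 2 - Fintype.card R) * (ER S (fun σ : Option R → X =>
        (M (fun r => σ (some r)) * ψ (σ none)) * φ1 (σ (some r0)) k * φ2 (σ none) m) z *
        E1 S (fun x => ψ x * φ2 x l) z)) :=
    Gd.smul (((rep2_ER (φ1 := φ1) (φ2 := φ2) hS hK1 z (some r0) none
      (M := fun σ : Option R → X => M (fun r => σ (some r)) * ψ (σ none))
      fun σ => abs_mul_le_one' (hM _) (hF.ψ1 _)).mul hp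
        (rep1_E1 (φ1 := φ2) hS hK1 z hF.ψ1)).swap.gd) habs (by linarith)
  have u3 : Gd φ1 φ2 φ2 (fun x => S.pr 1 z x) (1 * 1)
      (fun k l m => (-S.m 2) * (ER S (fun σ : R → X => M σ * φ1 (σ r0) k) z *
        E1 S (fun x => ψ x * φ2 x m) z * E1 S (fun x => ψ x * φ2 x l) z)) :=
    Gd.smul ((((rep1_ER (φ1 := φ1) hS hK1 z r0 hM).mul hp (rep1_E1 (φ1 := φ2) hS hK1 z hF.ψ1)).mul
      hp (rep1_E1 (φ1 := φ2) hS hK1 z hF.ψ1)).swap.gd) hmm one_pos
  have t3 := Gd.smul (c := -S.m 2) ((u1.add u2).add u3) hmm one_pos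
  have e3 : ∀ k m, d1 S a (fun σ : R → X => M σ * φ1 (σ r0) k) (ev m) z =
      ∑ r, ER S (fun σ : R → X => (M σ * ψ (σ r)) * φ1 (σ r0) k * φ2 (σ r) m) z +
      (S.m 2 - Fintype.card R) * ER S (fun σ : Option R → X =>
        (M (fun r => σ (some r)) * ψ (σ none)) * φ1 (σ (some r0)) k * φ2 (σ none) m) z -
      S.m 2 * (ER S (fun σ : R → X => M σ * φ1 (σ r0) k) z * E1 S (fun x => ψ x * φ2 x m) z) := by
    intro k m
    unfold d1
    simp only [hF.eq]
    rw [← ER_sum hS hK1]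
    congr 3
    · funext σ
      rw [Finset.mul_sum]
      exact Finset.sum_congr rfl fun r _ => by ring
    · congr 1
      funext σ
      unfold tn
      ring
  -- fourth term
  have v1 : Gd φ1 φ2 φ2 (fun x => S.pr 1 z x) 1
      (fun k l m => ER S (fun σ : R → X => M σ * φ1 (σ r0) k) z *
        E1 S (fun x => (ψ x * ψ x) * φ2 x l * φ2 x m) z) := by
    refine ((rep1_ER (φ1 := φ1) hS hK1 z r0 hM).mul2 hp
      ((rep2_ER (R := Unit) (φ1 := φ2) (φ2 := φ2) hS hK1 z () ()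
        (M := fun σ => ψ (σ ()) * ψ (σ ())) fun σ => abs_mul_le_one' (hF.ψ1 _) (hF.ψ1 _)).congr
          fun l m => ?_)).gd
    exact (ER_one S () (fun x => (ψ x * ψ x) * φ2 x l * φ2 x m) z).symm
  have v2 : Gd φ1 φ2 φ2 (fun x => S.pr 1 z x) (1 * 1)
      (fun k l m => (S.m 2 - 1) * (ER S (fun σ : R → X => M σ * φ1 (σ r0) k) z *
        ER S (fun σ : Option Unit → X => (ψ (σ (some ())) * ψ (σ none)) * φ2 (σ (some ())) l *
          φ2 (σ none) m) z)) := by
    refine Gd.smul (((rep1_ER (φ1 := φ1) hS hK1 z r0 hM).mul2 hp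
      (rep2_ER (R := Option Unit) (φ1 := φ2) (φ2 := φ2) hS hK1 z (some ()) none
        (M := fun σ => ψ (σ (some ())) * ψ (σ none))
          fun σ => abs_mul_le_one' (hF.ψ1 _) (hF.ψ1 _))).gd) ?_ one_pos
    rw [abs_le]; constructor <;> linarith
  have v3 : Gd φ1 φ2 φ2 (fun x => S.pr 1 z x) (1 * 1)
      (fun k l m => (-S.m 2) * (ER S (fun σ : R → X => M σ * φ1 (σ r0) k) z *
        E1 S (fun x => ψ x * φ2 x l) z * E1 S (fun x => ψ x * φ2 x m) z)) :=
    Gd.smul ((((rep1_ER (φ1 := φ1) hS hK1 z r0 hM).mul hp (rep1_E1 (φ1 := φ2) hS hK1 z hF.ψ1)).mul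
      hp (rep1_E1 (φ1 := φ2) hS hK1 z hF.ψ1)).gd) hmm one_pos
  have t4 := Gd.smul (c := -S.m 2) ((v1.add v2).add v3) hmm one_pos
  have e4 : ∀ l m, d1 S a (fun σ : Unit → X => a (σ ()) (ev l)) (ev m) z =
      E1 S (fun x => (ψ x * ψ x) * φ2 x l * φ2 x m) z +
      (S.m 2 - 1) * ER S (fun σ : Option Unit → X => (ψ (σ (some ())) * ψ (σ none)) *
        φ2 (σ (some ())) l * φ2 (σ none) m) z -
      S.m 2 * (E1 S (fun x => ψ x * φ2 x l) z * E1 S (fun x => ψ x * φ2 x m) z) := by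
    intro l m
    unfold d1
    simp only [hF.eq]
    have f1 : ER S (fun σ : Unit → X => ψ (σ ()) * φ2 (σ ()) l * ∑ r, ψ (σ r) * φ2 (σ r) m) z =
        E1 S (fun x => (ψ x * ψ x) * φ2 x l * φ2 x m) z := by
      rw [← ER_one S () (fun x => (ψ x * ψ x) * φ2 x l * φ2 x m)]
      congr 1
      funext σ
      simp
      ring
    have f2 : tn (fun σ : Unit → X => ψ (σ ()) * φ2 (σ ()) l) (fun x => ψ x * φ2 x m) =
        fun σ : Option Unit → X => (ψ (σ (some ())) * ψ (σ none)) *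
        φ2 (σ (some ())) l * φ2 (σ none) m := by
      funext σ
      unfold tn
      ring
    have f3 : ER S (fun σ : Unit → X => ψ (σ ()) * φ2 (σ ()) l) z = E1 S (fun x => ψ x * φ2 x l) z :=
      ER_one S () (fun x => ψ x * φ2 x l) z
    rw [f1, f2, f3, Fintype.card_unit, Nat.cast_one]
  have t := (t1.add t2).add (t3.add t4)
  have hc : ((Finset.univ : Finset R).card * (2 * (Fintype.card R : ℝ) + 1) +
      Fintype.card R * (2 * Fintype.card (Option R) + 1) +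
      (1 * ((Finset.univ : Finset R).card * 1 + Fintype.card R * 1 + 1 * 1) +
        1 * (1 + 1 * 1 + 1 * 1)) : ℝ) =
      (Fintype.card R * (2 * Fintype.card R + 1) + Fintype.card R * (2 * Fintype.card R + 3) +
        ((2 * Fintype.card R + 1) + 3)) := by
    rw [Finset.card_univ, Fintype.card_option]
    push_cast
    ring
  rw [hc] at t
  refine t.congr fun k l m => ?_
  unfold d2
  rw [e1, e2, e3, e4]
  simp only [hF.eq, ← Finset.sum_mul]
  ring

end Vale.Agent.P146.H93
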