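import Vale.Agent.P146.H93.Tl5
import Vale.Agent.P146.H985.SymSK

/-!
# P146: the upper row inequality, step 1 (helper93)

`S = skS n 2 m b w`, `y = m 1`, `u = m 2`; `D_k = E[s_k | K]` (leaf average), `C_ik = E[s_i s_k | K]`,
`G_ik = E[s_i' s_i s_k | K]` (`'` another replica of the same leaf), `V_ik = D_k - (1 - u) G_ik`.
-/

open MeasureTheory ProbabilityTheory

namespace Vale.Agent.P146.H93

open Vale.Agent.P157 Vale.Agent.P157.Lv Vale.Agent.P157.Lv.Sy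
open Vale.Agent.P146.H425 Vale.Agent.P146.H325 Vale.Agent.P146.H985

set_option linter.unusedSectionVars false

variable {n : ℕ} {m b w : ℕ → ℝ}

/-- the leaf average of the spin `k` -/
noncomputable def Dk (S : Sy (Cd n 2) (Fin n → ℤˣ)) (k : Fin n) : (Cd n 2 → ℝ) → ℝ :=
  E1 S fun x => sp x k

/-- the leaf average of `s_i s_k` -/
noncomputable def Ck (S : Sy (Cd n 2) (Fin n → ℤˣ)) (i k : Fin n) : (Cd n 2 → ℝ) → ℝ :=
  E1 S fun x => sp x i * sp x k

/-- the leaf average of `s_i' s_i s_k` -/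
noncomputable def Gk (S : Sy (Cd n 2) (Fin n → ℤˣ)) (i k : Fin n) : (Cd n 2 → ℝ) → ℝ :=
  ER (R := Option Unit) S fun σ => (sp (σ (some ())) i * sp (σ none) i) * sp (σ none) k

/-- the response of the row -/
noncomputable def Vk (S : Sy (Cd n 2) (Fin n → ℤˣ)) (i k : Fin n) (z : Cd n 2 → ℝ) : ℝ :=
  Dk S k z - (1 - S.m 2) * Gk S i k z

/-- the leaf average of `s_i s_i'` (same leaf) -/
noncomputable def Qk (S : Sy (Cd n 2) (Fin n → ℤˣ)) (i : Fin n) : (Cd n 2 → ℝ) → ℝ :=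
  ER (R := Option Unit) S fun σ => sp (σ (some ())) i * sp (σ none) i

section lin

variable {ι X : Type} [Fintype ι] [DecidableEq ι] [Fintype X] [DecidableEq X] [Nonempty X]
  {S : Sy ι X} {R : Type} [Fintype R] [DecidableEq R]

lemma ER_smul (S : Sy ι X) (k : ℝ) (f : (R → X) → ℝ) (z : ι → ℝ) :
    ER S (fun σ => k * f σ) z = k * ER S f z := by
  unfold ER
  have e : (fun (z : ι → ℝ) (_ : X) => AR S (fun σ : R → X => k * f σ) z) =
      fun z x => k * (fun (z : ι → ℝ) (_ : X) => AR S f z) z x := by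
    funext z _
    exact AR_mul_const S f k z
  rw [e, T_const_mul]

lemma E1_smul (S : Sy ι X) (k : ℝ) (g : X → ℝ) (z : ι → ℝ) :
    E1 S (fun x => k * g x) z = k * E1 S g z := by
  unfold E1
  exact T_const_mul S 1 k (fun _ x => g x) z

lemma abs_E1_le (hS : S.Reg) (hK : 1 ≤ S.K) {g : X → ℝ} {C : ℝ} (hg : ∀ x, |g x| ≤ C)
    (z : ι → ℝ) : |E1 S g z| ≤ C := by
  rw [← ER_one S () g]
  exact abs_ER_le hS hK (fun σ => hg _) z

end lin

/-- the derivative of `D_i` in the bond `{i, k}` -/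
lemma d1_bond {i k : Fin n} (h : i ≠ k) (z : Cd n 2 → ℝ) :
    d1 (skS n 2 m b w) (aSK n 2 b w) (fun σ : Unit → (Fin n → ℤˣ) => sp (σ ()) i)
      (Sum.inl (bnd i k h), 0) z =
      b 1 * (Vk (skS n 2 m b w) i k z -
        m 2 * (Dk (skS n 2 m b w) i z * Ck (skS n 2 m b w) i k z)) := by
  have ha : ∀ x : Fin n → ℤˣ, aSK n 2 b w x (Sum.inl (bnd i k h), 0) =
      b 1 * (sp x i * sp x k) := by
    intro x
    rw [aSK_inl, SkS_bnd]
    simp
  unfold d1 Vk Dk Ck Gk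
  simp only [ha, skS_m, Fintype.card_unit, Nat.cast_one]
  have e1 : (fun σ : Unit → (Fin n → ℤˣ) => sp (σ ()) i * ∑ r, b 1 * (sp (σ r) i * sp (σ r) k)) =
      fun σ => b 1 * sp (σ ()) k := by
    funext σ
    simp only [Finset.univ_unique, Finset.sum_singleton]
    have := sp_mul_self (σ ()) i
    linear_combination (b 1 * sp (σ ()) k) * this
  have e2 : tn (fun σ : Unit → (Fin n → ℤˣ) => sp (σ ()) i)
      (fun x => b 1 * (sp x i * sp x k)) = fun σ : Option Unit → (Fin n → ℤˣ) =>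
        b 1 * ((sp (σ (some ())) i * sp (σ none) i) * sp (σ none) k) := by
    funext σ
    unfold tn
    ring
  have e3 : ER (skS n 2 m b w) (fun σ : Unit → (Fin n → ℤˣ) => sp (σ ()) k) z =
      E1 (skS n 2 m b w) (fun x => sp x k) z := ER_one _ () (fun x => sp x k) z
  have e4 : ER (skS n 2 m b w) (fun σ : Unit → (Fin n → ℤˣ) => sp (σ ()) i) z =
      E1 (skS n 2 m b w) (fun x => sp x i) z := ER_one _ () (fun x => sp x i) z
  rw [e1, e2, ER_smul, ER_smul, e3, e4, E1_smul]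
  ring

/-- the derivative of `D_i` in the field of `i` -/
lemma d1_field (hm : Em 2 m) (i : Fin n) (z : Cd n 2 → ℝ) :
    d1 (skS n 2 m b w) (aSK n 2 b w) (fun σ : Unit → (Fin n → ℤˣ) => sp (σ ()) i)
      (Sum.inr i, 0) z =
      w 1 * (1 - (1 - m 2) * Qk (skS n 2 m b w) i z -
        m 2 * Dk (skS n 2 m b w) i z ^ 2) := by
  have hS := (linS_sk (n := n) hm b w).reg
  have ha : ∀ x : Fin n → ℤˣ, aSK n 2 b w x (Sum.inr i, 0) = w 1 * sp x i := by
    intro x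
    rw [aSK_inr]
    simp
  unfold d1 Dk Qk
  simp only [ha, skS_m, Fintype.card_unit, Nat.cast_one]
  have e1 : (fun σ : Unit → (Fin n → ℤˣ) => sp (σ ()) i * ∑ r, w 1 * sp (σ r) i) =
      fun σ => w 1 * (fun _ => 1) σ := by
    funext σ
    simp only [Finset.univ_unique, Finset.sum_singleton]
    have := sp_mul_self (σ ()) i
    linear_combination w 1 * this
  have e2 : tn (fun σ : Unit → (Fin n → ℤˣ) => sp (σ ()) i)
      (fun x => w 1 * sp x i) = fun σ : Option Unit → (Fin n → ℤˣ) =>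
        w 1 * (sp (σ (some ())) i * sp (σ none) i) := by
    funext σ
    unfold tn
    ring
  have e4 : ER (skS n 2 m b w) (fun σ : Unit → (Fin n → ℤˣ) => sp (σ ()) i) z =
      E1 (skS n 2 m b w) (fun x => sp x i) z := ER_one _ () (fun x => sp x i) z
  have e5 : ER (skS n 2 m b w) (fun _ : Unit → (Fin n → ℤˣ) => (1 : ℝ)) z = 1 := by
    rw [ER_eq hS (by simp)]
    simp only [mul_one]
    exact sum_PR hS (by simp) z
  rw [e1, e2, ER_smul, ER_smul, e5, e4, E1_smul]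
  ring

/-- the same-leaf overlap of one site is between `0` and `1` -/
lemma Qk_nonneg (hm : Em 2 m) (i : Fin n) (z : Cd n 2 → ℝ) : 0 ≤ Qk (skS n 2 m b w) i z := by
  have hS := (linS_sk (n := n) hm b w).reg
  have e : Qk (skS n 2 m b w) i = ER (R := Option Unit) (skS n 2 m b w)
      (tn (fun σ : Unit → (Fin n → ℤˣ) => (fun x => sp x i) (σ ())) (fun x => sp x i)) := rfl
  rw [e]
  unfold ER
  have e2 : (fun (z : Cd n 2 → ℝ) (_ : Fin n → ℤˣ) => AR (skS n 2 m b w)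
      (tn (fun σ : Unit → (Fin n → ℤˣ) => (fun x => sp x i) (σ ())) (fun x => sp x i)) z) =
      fun z _ => (skS n 2 m b w).av (fun _ x => sp x i) z ^ 2 := by
    funext z _
    rw [AR_tn, AR_one (skS n 2 m b w) () (fun x => sp x i)]
    ring
  rw [e2]
  have h := hS.T_mono (l := 1) (by simp) (f := fun _ _ => (0 : ℝ))
    (g := fun z _ => (skS n 2 m b w).av (fun _ x => sp x i) z ^ 2)
    (Nh.snd fun _ => 0) (Nh.fst ((hS.eg_av (Nh.snd fun x => sp x i)).pow 2))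
    (fun z _ => sq_nonneg _) z
  rw [hS.T_const (by simp)] at h
  exact h

lemma Qk_le_one (hm : Em 2 m) (i : Fin n) (z : Cd n 2 → ℝ) : Qk (skS n 2 m b w) i z ≤ 1 := by
  have hS := (linS_sk (n := n) hm b w).reg
  refine (abs_le.1 (abs_ER_le hS (by simp) (C := 1) (fun σ => ?_) z)).2
  rw [abs_mul, abs_sp, abs_sp, one_mul]

lemma abs_Dk_le (hm : Em 2 m) (i : Fin n) (z : Cd n 2 → ℝ) : |Dk (skS n 2 m b w) i z| ≤ 1 :=
  abs_E1_le (linS_sk (n := n) hm b w).reg (by simp) (fun x => (abs_sp x i).le) z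

lemma abs_Ck_le (hm : Em 2 m) (i k : Fin n) (z : Cd n 2 → ℝ) :
    |Ck (skS n 2 m b w) i k z| ≤ 1 :=
  abs_E1_le (linS_sk (n := n) hm b w).reg (by simp)
    (fun x => by rw [abs_mul, abs_sp, abs_sp, one_mul]) z

lemma abs_Gk_le (hm : Em 2 m) (i k : Fin n) (z : Cd n 2 → ℝ) :
    |Gk (skS n 2 m b w) i k z| ≤ 1 :=
  abs_ER_le (linS_sk (n := n) hm b w).reg (by simp)
    (fun σ => by rw [abs_mul, abs_mul, abs_sp, abs_sp, abs_sp, one_mul, one_mul]) z

lemma eg_Dk (hm : Em 2 m) (i : Fin n) : EG (Dk (skS n 2 m b w) i) :=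
  eg_E1 (linS_sk (n := n) hm b w).reg (by simp) _

lemma eg_Ck (hm : Em 2 m) (i k : Fin n) : EG (Ck (skS n 2 m b w) i k) :=
  eg_E1 (linS_sk (n := n) hm b w).reg (by simp) _

lemma eg_Gk (hm : Em 2 m) (i k : Fin n) : EG (Gk (skS n 2 m b w) i k) :=
  eg_ER (linS_sk (n := n) hm b w).reg (by simp) _

lemma eg_Vk (hm : Em 2 m) (i k : Fin n) : EG (Vk (skS n 2 m b w) i k) :=
  (eg_Dk hm k).sub ((eg_Gk hm i k).const_mul _)

/-- the integrand of the row inequality -/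
noncomputable def Wk (S : Sy (Cd n 2) (Fin n → ℤˣ)) (i k : Fin n) (z : Cd n 2 → ℝ) : ℝ :=
  Vk S i k z - (S.m 2 - S.m 1 / 2) * (Dk S i z * Ck S i k z)

lemma eg_Wk (hm : Em 2 m) (i k : Fin n) : EG (Wk (skS n 2 m b w) i k) :=
  (eg_Vk hm i k).sub (((eg_Dk hm i).mul (eg_Ck hm i k)).const_mul _)

lemma rwl_eq_rw1 (i : Fin n) : rwl 2 i 1 = rw1 i 0 := by
  ext e
  rw [mem_rwl]
  unfold rw1
  simp only [Finset.mem_filter, Finset.mem_univ, true_and, Fin.ext_iff]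
  constructor
  · rintro ⟨h2, h3⟩
    exact ⟨by simp only [Fin.val_zero]; omega, h3⟩
  · rintro ⟨h2, h3⟩
    exact ⟨by simp only [Fin.val_zero] at h2; omega, h3⟩

/-- **STEP 1, one site.** -/
theorem row_site (hm : Em 2 m) (b w : ℕ → ℝ) (i : Fin n) :
    (skS n 2 m b w).Ex (fun z _ => Dk (skS n 2 m b w) i z ^ 2) ≤
      b 1 ^ 2 * ∑ k : {k : Fin n // k ≠ i},
        (skS n 2 m b w).Ex (fun z _ => Wk (skS n 2 m b w) i k.1 z ^ 2) + w 1 ^ 2 := by
  set S := skS n 2 m b w with hSdef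
  have hL := linS_sk (n := n) hm b w
  have hR := hL.reg
  have hD := regD_sk (n := n) hm b w
  have hAl : ∀ e ∈ rwl 2 i 1, S.lev e ≤ 1 := by
    intro e he
    rw [mem_rwl] at he
    exact he.1
  have h1 := (mv_flip (K := 2) m b w i 1).poincare_Ex (S := S) hD (sys_flip hm b w i) hAl
    (by simp [hSdef]) (f := Dk S i)
    (f' := fun e => d1 S (aSK n 2 b w) (fun σ : Unit → (Fin n → ℤˣ) => sp (σ ()) i) e)
    (eg_Dk hm i) (dep_E1 S _) (fun e he => pd_E1 hL rfl (hAl e he) fun x => sp x i)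
    (fun e _ => eg_d1 hR (by simp) _ _)
    (fun z => (sys_flip hm b w i).T_odd 1 (fun x => sp_fX_self i x) z)
  refine h1.trans ?_
  rw [rwl_eq_rw1]
  have hy1 : 0 < m 1 := hm.pos
  have hy2 : m 1 ≤ m 2 := hm.mono 1 (by norm_num)
  have hu : m 2 ≤ 1 := by
    have := hm.mono 2 le_rfl
    rwa [hm.mK] at this
  -- the integrand
  have e1 : ∀ z, ∑ e ∈ rw1 i 0, (d1 S (aSK n 2 b w)
      (fun σ : Unit → (Fin n → ℤˣ) => sp (σ ()) i) e z +
        Dk S i z * VLD S (fun e _ x => aSK n 2 b w x e) 1 e z / 2) ^ 2 =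
      b 1 ^ 2 * ∑ k : {k : Fin n // k ≠ i}, Wk S i k.1 z ^ 2 +
        w 1 ^ 2 * (1 - (1 - m 2) * Qk S i z - (m 2 - m 1 / 2) * Dk S i z ^ 2) ^ 2 := by
    intro z
    rw [sum_rw1, Finset.mul_sum]
    congr 1
    · refine Finset.sum_congr rfl fun k _ => ?_
      rw [hSdef, d1_bond, VLD_one hR _ (by simp)]
      have e2 : (skS n 2 m b w).T 1 ((fun e _ x => aSK n 2 b w x e)
          (Sum.inl (bnd i k.1 k.2.symm), (0 : Fin 2))) z = b 1 * Ck (skS n 2 m b w) i k.1 z := by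
        unfold Ck
        rw [← E1_smul]
        unfold E1
        congr 1
        funext _ x
        show aSK n 2 b w x (Sum.inl (bnd i k.1 k.2.symm), (0 : Fin 2)) = _
        rw [aSK_inl, SkS_bnd]
        simp
      rw [e2]
      unfold Wk
      simp only [skS_m]
      ring
    · rw [hSdef, d1_field hm, VLD_one hR _ (by simp)]
      have e2 : (skS n 2 m b w).T 1 ((fun e _ x => aSK n 2 b w x e)
          (Sum.inr i, (0 : Fin 2))) z = w 1 * Dk (skS n 2 m b w) i z := by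
        unfold Dk
        rw [← E1_smul]
        rfl
      rw [e2]
      simp only [skS_m]
      ring
  simp only [e1]
  have e3 : ∀ z, b 1 ^ 2 * ∑ k : {k : Fin n // k ≠ i}, Wk S i k.1 z ^ 2 +
        w 1 ^ 2 * (1 - (1 - m 2) * Qk S i z - (m 2 - m 1 / 2) * Dk S i z ^ 2) ^ 2 ≤
      b 1 ^ 2 * ∑ k : {k : Fin n // k ≠ i}, Wk S i k.1 z ^ 2 + w 1 ^ 2 := by
    intro z
    have q0 := Qk_nonneg (b := b) (w := w) hm i z
    have q1 := Qk_le_one (b := b) (w := w) hm i z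
    have d1' := abs_Dk_le (b := b) (w := w) hm i z
    rw [← hSdef] at q0 q1 d1'
    have d2' : Dk S i z ^ 2 ≤ 1 := by
      rw [← sq_abs]
      exact pow_le_one₀ (abs_nonneg _) d1'
    have d3 : 0 ≤ Dk S i z ^ 2 := sq_nonneg _
    have hy3 : 0 ≤ m 2 - m 1 / 2 := by linarith
    have k1 : (1 - m 2) * Qk S i z ≤ (1 - m 2) * 1 :=
      mul_le_mul_of_nonneg_left q1 (by linarith)
    have k2 : 0 ≤ (1 - m 2) * Qk S i z := mul_nonneg (by linarith) q0
    have k3 : (m 2 - m 1 / 2) * Dk S i z ^ 2 ≤ (m 2 - m 1 / 2) * 1 :=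
      mul_le_mul_of_nonneg_left d2' hy3
    have k4 : 0 ≤ (m 2 - m 1 / 2) * Dk S i z ^ 2 := mul_nonneg hy3 d3
    have k5 : (1 - (1 - m 2) * Qk S i z - (m 2 - m 1 / 2) * Dk S i z ^ 2) ^ 2 ≤ 1 := by
      refine pow_le_one₀ ?_ ?_
      · linarith
      · linarith
    have k6 := mul_le_mul_of_nonneg_left k5 (sq_nonneg (w 1))
    linarith
  have hE1 : EG fun z => ∑ k : {k : Fin n // k ≠ i}, Wk S i k.1 z ^ 2 :=
    EG.sum _ fun k _ => (eg_Wk hm i k.1).pow 2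
  have hE2 : EG fun z => (1 - (1 - m 2) * Qk S i z - (m 2 - m 1 / 2) * Dk S i z ^ 2) ^ 2 :=
    ((((EG.const 1).sub ((eg_ER hR (by simp) _).const_mul _)).sub
      (((eg_Dk hm i).pow 2).const_mul _))).pow 2
  refine (hR.Ex_mono (f := fun z _ => b 1 ^ 2 * ∑ k : {k : Fin n // k ≠ i}, Wk S i k.1 z ^ 2 +
        w 1 ^ 2 * (1 - (1 - m 2) * Qk S i z - (m 2 - m 1 / 2) * Dk S i z ^ 2) ^ 2)
    (g := fun z _ => b 1 ^ 2 * ∑ k : {k : Fin n // k ≠ i}, Wk S i k.1 z ^ 2 + w 1 ^ 2)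
    (Nh.fst ((hE1.const_mul _).add (hE2.const_mul _)))
    (Nh.fst ((hE1.const_mul _).add (EG.const _))) (fun z _ => e3 z)).trans (le_of_eq ?_)
  rw [hR.Ex_add (f := fun z _ => b 1 ^ 2 * ∑ k : {k : Fin n // k ≠ i}, Wk S i k.1 z ^ 2)
    (g := fun _ _ => w 1 ^ 2) (Nh.fst (hE1.const_mul _)) (Nh.fst (EG.const _)), hR.Ex_const,
    Ex_const_mul S (b 1 ^ 2) (fun z _ => ∑ k : {k : Fin n // k ≠ i}, Wk S i k.1 z ^ 2),
    hR.Ex_sum Finset.univ (f := fun (k : {k : Fin n // k ≠ i}) z _ => Wk S i k.1 z ^ 2)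
      (fun k _ => Nh.fst ((eg_Wk hm i k.1).pow 2))]

end Vale.Agent.P146.H93
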