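import Vale.Agent.P146.H93.U2

/-!
# P146: the upper row inequality, the variance over the sites (helper93)
-/

open MeasureTheory ProbabilityTheory

namespace Vale.Agent.P146.H93

open Vale.Agent.P157 Vale.Agent.P157.Lv Vale.Agent.P157.Lv.Sy
open Vale.Agent.P146.H425 Vale.Agent.P146.H325 Vale.Agent.P146.H985

set_option linter.unusedSectionVars false

section Ez

variable {ι X : Type} [Fintype ι] [DecidableEq ι] [Fintype X] [DecidableEq X] [Nonempty X]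
  {S : Sy ι X}

/-- the average of a function of the Gaussian coordinates -/
noncomputable def Ez (S : Sy ι X) (f : (ι → ℝ) → ℝ) : ℝ := S.Ex fun z _ => f z

lemma Ez_add (hS : S.Reg) {f g : (ι → ℝ) → ℝ} (hf : EG f) (hg : EG g) :
    Ez S (fun z => f z + g z) = Ez S f + Ez S g :=
  hS.Ex_add (f := fun z _ => f z) (g := fun z _ => g z) (Nh.fst hf) (Nh.fst hg)

lemma Ez_sub (hS : S.Reg) {f g : (ι → ℝ) → ℝ} (hf : EG f) (hg : EG g) :
    Ez S (fun z => f z - g z) = Ez S f - Ez S g :=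
  hS.Ex_sub (f := fun z _ => f z) (g := fun z _ => g z) (Nh.fst hf) (Nh.fst hg)

lemma Ez_sum (hS : S.Reg) {κ : Type} (s : Finset κ) {f : κ → (ι → ℝ) → ℝ}
    (hf : ∀ i ∈ s, EG (f i)) : Ez S (fun z => ∑ i ∈ s, f i z) = ∑ i ∈ s, Ez S (f i) :=
  hS.Ex_sum s (f := fun i z _ => f i z) fun i hi => Nh.fst (hf i hi)

lemma Ez_const_mul (S : Sy ι X) (c : ℝ) (f : (ι → ℝ) → ℝ) :
    Ez S (fun z => c * f z) = c * Ez S f := Ex_const_mul S c fun z _ => f z

lemma Ez_const (hS : S.Reg) (c : ℝ) : Ez S (fun _ => c) = c := hS.Ex_const c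

lemma Ez_mono (hS : S.Reg) {f g : (ι → ℝ) → ℝ} (hf : EG f) (hg : EG g) (h : ∀ z, f z ≤ g z) :
    Ez S f ≤ Ez S g :=
  hS.Ex_mono (f := fun z _ => f z) (g := fun z _ => g z) (Nh.fst hf) (Nh.fst hg) fun z _ => h z

lemma Ez_nonneg (hS : S.Reg) {f : (ι → ℝ) → ℝ} (hf : EG f) (h : ∀ z, 0 ≤ f z) : 0 ≤ Ez S f := by
  rw [← Ez_const hS 0]
  exact Ez_mono hS (EG.const 0) hf h

lemma Ez_cs (hS : S.Reg) {f g : (ι → ℝ) → ℝ} (hf : EG f) (hg : EG g) :
    Ez S (fun z => f z * g z) ^ 2 ≤ Ez S (fun z => f z ^ 2) * Ez S (fun z => g z ^ 2) :=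
  hS.Ex_cs (f := fun z _ => f z) (g := fun z _ => g z) (Nh.fst hf) (Nh.fst hg)

end Ez

variable {n : ℕ} {m b w : ℕ → ℝ}

/-- the third absolute moment of the overlap of two leaves -/
noncomputable def t3 (S : Sy (Cd n 2) (Fin n → ℤˣ)) : ℝ :=
  S.pairEx 1 fun x x' => |Rov sp x x'| ^ 3

lemma Ez_pp (S : Sy (Cd n 2) (Fin n → ℤˣ)) (ψ : (Fin n → ℤˣ) → (Fin n → ℤˣ) → ℝ) :
    Ez S (fun z => pp (fun x => S.pr 1 z x) ψ) = S.pairEx 1 ψ := rfl

lemma eg_pp {S : Sy (Cd n 2) (Fin n → ℤˣ)} (hS : S.Reg) (hK : 1 ≤ S.K)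
    (ψ : (Fin n → ℤˣ) → (Fin n → ℤˣ) → ℝ) : EG fun z => pp (fun x => S.pr 1 z x) ψ :=
  hS.nh_pair hK ψ

/-- the second derivatives of `G_ik` in the row of `c` -/
noncomputable def SD (m b w : ℕ → ℝ) (c i k : Fin n) : ℝ :=
  ∑ e ∈ rwl 2 c 1, Ez (skS n 2 m b w) (fun z => ∑ e' ∈ rwl 2 c 1,
      d2 (skS n 2 m b w) (aSK n 2 b w) (F2 i k) e e' z ^ 2)

/-- the averaged tensor bound -/
theorem Ez_d2_row (hm : Em 2 m) (hn : 0 < n) (i c : Fin n) :
    ∑ k, SD m b w c i k ≤ n * (1024 * Bw b w n (t3 (skS n 2 m b w))) := by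
  unfold SD
  have hR := (linS_sk (n := n) hm b w).reg
  have e0 : ∀ k e, EG fun z => ∑ e' ∈ rwl 2 c 1,
      d2 (skS n 2 m b w) (aSK n 2 b w) (F2 i k) e e' z ^ 2 := fun k e =>
    EG.sum _ fun e' _ => (eg_d2 hR (by simp) _ _ _).pow 2
  have e1 : ∀ k, EG fun z => ∑ e ∈ rwl 2 c 1, ∑ e' ∈ rwl 2 c 1,
      d2 (skS n 2 m b w) (aSK n 2 b w) (F2 i k) e e' z ^ 2 := fun k => EG.sum _ fun e _ => e0 k e
  have h1 : ∑ k, ∑ e ∈ rwl 2 c 1, Ez (skS n 2 m b w) (fun z => ∑ e' ∈ rwl 2 c 1,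
      d2 (skS n 2 m b w) (aSK n 2 b w) (F2 i k) e e' z ^ 2) =
      Ez (skS n 2 m b w) (fun z => ∑ k, ∑ e ∈ rwl 2 c 1, ∑ e' ∈ rwl 2 c 1,
      d2 (skS n 2 m b w) (aSK n 2 b w) (F2 i k) e e' z ^ 2) := by
    rw [Ez_sum hR _ fun k _ => e1 k]
    refine Finset.sum_congr rfl fun k _ => ?_
    rw [Ez_sum hR _ fun e _ => e0 k e]
  rw [h1]
  have hpp := eg_pp hR (by simp) fun x x' => |Rov (N := n) sp x x'| ^ 3
  refine (Ez_mono hR (EG.sum _ fun k _ => e1 k) (g := fun z => (n * 1024 * (1 / 3 + 6 * (n * b 1 ^ 2) ^ 3)) *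
    pp (fun x => (skS n 2 m b w).pr 1 z x) (fun x x' => |Rov sp x x'| ^ 3) +
      n * 1024 * (6 * (b 1 ^ 2) ^ 3 + 6 * (w 1 ^ 2) ^ 3))
    ((hpp.const_mul _).add (EG.const _)) fun z => ?_).trans (le_of_eq ?_)
  · refine (d2_row hm hn i c z).trans (le_of_eq ?_)
    unfold Bw
    ring
  · rw [Ez_add hR (hpp.const_mul _) (EG.const _), Ez_const_mul, Ez_const hR, Ez_pp]
    unfold Bw t3
    ring

lemma Bw_nonneg {t : ℝ} (ht : 0 ≤ t) : 0 ≤ Bw b w n t := by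
  unfold Bw
  positivity

lemma t3_nonneg (hm : Em 2 m) : 0 ≤ t3 (skS n 2 m b w) :=
  (linS_sk (n := n) hm b w).reg.pairEx_nonneg (by simp) fun _ _ => by positivity

/-- two sites, `k` different from both -/
theorem G_pair_ne (hm : Em 2 m) {L : ℝ} (hL : LL m b w n L) (hL0 : 0 < L) (hL1 : L ≤ 1 / 4)
    {i j k : Fin n} (hij : i ≠ j) (hi : k ≠ i) (hj : k ≠ j) :
    Ez (skS n 2 m b w) (fun z => (Gk (skS n 2 m b w) i k z - Gk (skS n 2 m b w) j k z) ^ 2) ≤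
    12 * (SD m b w i i k + SD m b w i j k + SD m b w j i k + SD m b w j j k) := by
  unfold SD
  have hR := (linS_sk (n := n) hm b w).reg
  have hq : ∀ a e, EG fun z => d1 (skS n 2 m b w) (aSK n 2 b w) (F2 a k) e z ^ 2 := fun a e =>
    (eg_d1 hR (by simp) _ _).pow 2
  have hs : ∀ e, EG fun z => (d1 (skS n 2 m b w) (aSK n 2 b w) (F2 i k) e z -
      d1 (skS n 2 m b w) (aSK n 2 b w) (F2 j k) e z) ^ 2 := fun e =>
    ((eg_d1 hR (by simp) _ _).sub (eg_d1 hR (by simp) _ _)).pow 2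
  have h1 := G_poincare (b := b) (w := w) hm hL hL0 hL1 hij hi hj
  have h2 : (skS n 2 m b w).Ex (fun z _ => ∑ e ∈ rw2 2 i j 1,
      (d1 (skS n 2 m b w) (aSK n 2 b w) (F2 i k) e z -
        d1 (skS n 2 m b w) (aSK n 2 b w) (F2 j k) e z) ^ 2) = ∑ e ∈ rw2 2 i j 1,
      Ez (skS n 2 m b w) (fun z => (d1 (skS n 2 m b w) (aSK n 2 b w) (F2 i k) e z -
        d1 (skS n 2 m b w) (aSK n 2 b w) (F2 j k) e z) ^ 2) :=
    Ez_sum hR _ fun e _ => hs e
  rw [h2] at h1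
  have h3 : ∀ e, Ez (skS n 2 m b w) (fun z => (d1 (skS n 2 m b w) (aSK n 2 b w) (F2 i k) e z -
        d1 (skS n 2 m b w) (aSK n 2 b w) (F2 j k) e z) ^ 2) ≤
      2 * Ez (skS n 2 m b w) (fun z => d1 (skS n 2 m b w) (aSK n 2 b w) (F2 i k) e z ^ 2) +
      2 * Ez (skS n 2 m b w) (fun z => d1 (skS n 2 m b w) (aSK n 2 b w) (F2 j k) e z ^ 2) := by
    intro e
    rw [← Ez_const_mul, ← Ez_const_mul, ← Ez_add hR ((hq i e).const_mul _) ((hq j e).const_mul _)]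
    refine Ez_mono hR (hs e) (((hq i e).const_mul _).add ((hq j e).const_mul _)) fun z => ?_
    nlinarith [sq_nonneg (d1 (skS n 2 m b w) (aSK n 2 b w) (F2 i k) e z +
      d1 (skS n 2 m b w) (aSK n 2 b w) (F2 j k) e z)]
  have h0 : ∀ e, 0 ≤ Ez (skS n 2 m b w) (fun z => (d1 (skS n 2 m b w) (aSK n 2 b w) (F2 i k) e z -
        d1 (skS n 2 m b w) (aSK n 2 b w) (F2 j k) e z) ^ 2) := fun e =>
    Ez_nonneg hR (hs e) fun z => sq_nonneg _
  have h4 := sum_rw2_le i j 1 h0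
  have h5 : ∀ (c : Fin n), k ≠ c → ∀ e ∈ rwl 2 c 1,
      Ez (skS n 2 m b w) (fun z => (d1 (skS n 2 m b w) (aSK n 2 b w) (F2 i k) e z -
        d1 (skS n 2 m b w) (aSK n 2 b w) (F2 j k) e z) ^ 2) ≤
      4 * (Ez (skS n 2 m b w) (fun z => ∑ e' ∈ rwl 2 c 1,
        d2 (skS n 2 m b w) (aSK n 2 b w) (F2 i k) e e' z ^ 2) +
      Ez (skS n 2 m b w) (fun z => ∑ e' ∈ rwl 2 c 1,
        d2 (skS n 2 m b w) (aSK n 2 b w) (F2 j k) e e' z ^ 2)) := by
    intro c hc e he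
    have g1 : Ez (skS n 2 m b w) (fun z => d1 (skS n 2 m b w) (aSK n 2 b w) (F2 i k) e z ^ 2) ≤
        (1 + 4 * L) * Ez (skS n 2 m b w) (fun z => ∑ e' ∈ rwl 2 c 1,
        d2 (skS n 2 m b w) (aSK n 2 b w) (F2 i k) e e' z ^ 2) :=
      dG_poincare (b := b) (w := w) hm hL hL0 (by linarith) (i := i) hc he
    have g2 : Ez (skS n 2 m b w) (fun z => d1 (skS n 2 m b w) (aSK n 2 b w) (F2 j k) e z ^ 2) ≤
        (1 + 4 * L) * Ez (skS n 2 m b w) (fun z => ∑ e' ∈ rwl 2 c 1,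
        d2 (skS n 2 m b w) (aSK n 2 b w) (F2 j k) e e' z ^ 2) :=
      dG_poincare (b := b) (w := w) hm hL hL0 (by linarith) (i := j) hc he
    have n1 : 0 ≤ Ez (skS n 2 m b w) (fun z => ∑ e' ∈ rwl 2 c 1,
        d2 (skS n 2 m b w) (aSK n 2 b w) (F2 i k) e e' z ^ 2) :=
      Ez_nonneg hR (EG.sum _ fun e' _ => (eg_d2 hR (by simp) _ _ _).pow 2) fun z =>
        Finset.sum_nonneg fun _ _ => sq_nonneg _
    have n2 : 0 ≤ Ez (skS n 2 m b w) (fun z => ∑ e' ∈ rwl 2 c 1,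
        d2 (skS n 2 m b w) (aSK n 2 b w) (F2 j k) e e' z ^ 2) :=
      Ez_nonneg hR (EG.sum _ fun e' _ => (eg_d2 hR (by simp) _ _ _).pow 2) fun z =>
        Finset.sum_nonneg fun _ _ => sq_nonneg _
    have g3 := h3 e
    have g4 := mul_le_mul_of_nonneg_right (by linarith : 1 + 4 * L ≤ 2) n1
    have g5 := mul_le_mul_of_nonneg_right (by linarith : 1 + 4 * L ≤ 2) n2
    linarith
  have h6 := Finset.sum_le_sum (h5 i hi)
  have h7 := Finset.sum_le_sum (h5 j hj)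
  rw [← Finset.mul_sum, Finset.sum_add_distrib] at h6 h7
  have h8 : 0 ≤ ∑ e ∈ rw2 2 i j 1, Ez (skS n 2 m b w) (fun z =>
      (d1 (skS n 2 m b w) (aSK n 2 b w) (F2 i k) e z -
        d1 (skS n 2 m b w) (aSK n 2 b w) (F2 j k) e z) ^ 2) :=
    Finset.sum_nonneg fun e _ => h0 e
  have h9 := mul_le_mul_of_nonneg_right (by linarith : 1 + 4 * (2 * L) ≤ 3) h8
  have h10 : Ez (skS n 2 m b w) (fun z => (Gk (skS n 2 m b w) i k z - Gk (skS n 2 m b w) j k z) ^ 2)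
      ≤ 3 * ∑ e ∈ rw2 2 i j 1, Ez (skS n 2 m b w) (fun z =>
      (d1 (skS n 2 m b w) (aSK n 2 b w) (F2 i k) e z -
        d1 (skS n 2 m b w) (aSK n 2 b w) (F2 j k) e z) ^ 2) := h1.trans h9
  linarith

lemma SD_nonneg (hm : Em 2 m) (c i k : Fin n) : 0 ≤ SD m b w c i k := by
  have hR := (linS_sk (n := n) hm b w).reg
  unfold SD
  exact Finset.sum_nonneg fun e _ =>
    Ez_nonneg hR (EG.sum _ fun e' _ => (eg_d2 hR (by simp) _ _ _).pow 2) fun z =>
      Finset.sum_nonneg fun _ _ => sq_nonneg _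

lemma ite_aux (k i j : Fin n) {F D : ℝ} (h4 : F ≤ 4) (hD : 0 ≤ D)
    (hne : k ≠ i → k ≠ j → F ≤ D) : F ≤ (if k = i then 4 else 0) + (if k = j then 4 else 0) + D := by
  by_cases hi : k = i
  · rw [if_pos hi]
    have : (0 : ℝ) ≤ if k = j then 4 else 0 := by split_ifs <;> norm_num
    linarith
  · by_cases hj : k = j
    · rw [if_pos hj, if_neg hi]
      linarith
    · rw [if_neg hi, if_neg hj]
      linarith [hne hi hj]

lemma G_le_four (hm : Em 2 m) (i j k : Fin n) : Ez (skS n 2 m b w)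
    (fun z => (Gk (skS n 2 m b w) i k z - Gk (skS n 2 m b w) j k z) ^ 2) ≤ 4 := by
  have hR := (linS_sk (n := n) hm b w).reg
  rw [← Ez_const hR 4]
  refine Ez_mono hR (((eg_Gk hm i k).sub (eg_Gk hm j k)).pow 2) (EG.const 4) fun z => ?_
  have a1 := abs_Gk_le (b := b) (w := w) hm i k z
  have a2 := abs_Gk_le (b := b) (w := w) hm j k z
  have a3 : |Gk (skS n 2 m b w) i k z - Gk (skS n 2 m b w) j k z| ≤ 2 :=
    (abs_sub _ _).trans (by linarith)
  rw [← sq_abs]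
  nlinarith [abs_nonneg (Gk (skS n 2 m b w) i k z - Gk (skS n 2 m b w) j k z)]

lemma SD4_nonneg (hm : Em 2 m) (i j k : Fin n) :
    0 ≤ 12 * (SD m b w i i k + SD m b w i j k + SD m b w j i k + SD m b w j j k) :=
  mul_nonneg (by norm_num) (add_nonneg (add_nonneg (add_nonneg
    (SD_nonneg (b := b) (w := w) hm i i k) (SD_nonneg (b := b) (w := w) hm i j k))
    (SD_nonneg (b := b) (w := w) hm j i k)) (SD_nonneg (b := b) (w := w) hm j j k))

lemma sum_pair_aux {F A A' B B' : Fin n → ℝ} (i j : Fin n) {C : ℝ}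
    (h : ∀ k, F k ≤ (if k = i then 4 else 0) + (if k = j then 4 else 0) +
      12 * (A k + A' k + B k + B' k))
    (hA : ∑ k, A k ≤ C) (hA' : ∑ k, A' k ≤ C) (hB : ∑ k, B k ≤ C) (hB' : ∑ k, B' k ≤ C) :
    ∑ k, F k ≤ 8 + 48 * C := by
  refine (Finset.sum_le_sum fun k _ => h k).trans ?_
  rw [Finset.sum_add_distrib, Finset.sum_add_distrib, ← Finset.mul_sum, Finset.sum_add_distrib,
    Finset.sum_add_distrib, Finset.sum_add_distrib]
  simp only [Finset.sum_ite_eq', Finset.mem_univ, if_true]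
  linarith

/-- **Two sites, summed over `k`.** -/
theorem G_pair (hm : Em 2 m) (hn : 0 < n) {L : ℝ} (hL : LL m b w n L) (hL0 : 0 < L)
    (hL1 : L ≤ 1 / 4) (i j : Fin n) :
    ∑ k, Ez (skS n 2 m b w)
      (fun z => (Gk (skS n 2 m b w) i k z - Gk (skS n 2 m b w) j k z) ^ 2) ≤
    8 + n * (49152 * Bw b w n (t3 (skS n 2 m b w))) := by
  have hR := (linS_sk (n := n) hm b w).reg
  have hn' : (0 : ℝ) < n := by exact_mod_cast hn
  have hB := Bw_nonneg (b := b) (w := w) (n := n) (t3_nonneg (n := n) (b := b) (w := w) hm)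
  have hE : ∀ k, EG fun z => (Gk (skS n 2 m b w) i k z - Gk (skS n 2 m b w) j k z) ^ 2 :=
    fun k => ((eg_Gk hm i k).sub (eg_Gk hm j k)).pow 2
  by_cases hij : i = j
  · subst hij
    have h1 : ∀ k, Ez (skS n 2 m b w)
        (fun z => (Gk (skS n 2 m b w) i k z - Gk (skS n 2 m b w) i k z) ^ 2) = 0 := by
      intro k
      have e : (fun z => (Gk (skS n 2 m b w) i k z - Gk (skS n 2 m b w) i k z) ^ 2) =
          fun _ => (0 : ℝ) := by funext z; ring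
      rw [e, Ez_const hR]
    simp only [h1, Finset.sum_const_zero]
    positivity
  · refine (sum_pair_aux i j (fun k => ite_aux k i j (G_le_four hm i j k) (SD4_nonneg hm i j k)
      fun hi hj => G_pair_ne (b := b) (w := w) hm hL hL0 hL1 hij hi hj)
      (Ez_d2_row (b := b) (w := w) hm hn i i) (Ez_d2_row (b := b) (w := w) hm hn j i)
      (Ez_d2_row (b := b) (w := w) hm hn i j) (Ez_d2_row (b := b) (w := w) hm hn j j)).trans
      (le_of_eq ?_)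
    ring

/-- the mean response over the sites `i` -/
noncomputable def Vb (S : Sy (Cd n 2) (Fin n → ℤˣ)) (k : Fin n) (z : Cd n 2 → ℝ) : ℝ :=
  1 / n * ∑ i, Vk S i k z

/-- the variance over the sites of the responses -/
noncomputable def VV (S : Sy (Cd n 2) (Fin n → ℤˣ)) : ℝ :=
  1 / n ^ 2 * ∑ i, ∑ k, Ez S fun z => (Vk S i k z - Vb S k z) ^ 2

lemma eg_Vb (hm : Em 2 m) (k : Fin n) : EG (Vb (skS n 2 m b w) k) :=
  (EG.sum _ fun i _ => eg_Vk hm i k).const_mul _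

/-- the variance as a double sum -/
lemma var_pairs (hn : 0 < n) (v : Fin n → ℝ) :
    ∑ i, (v i - 1 / n * ∑ j, v j) ^ 2 = 1 / (2 * n) * ∑ i, ∑ j, (v i - v j) ^ 2 := by
  have hn' : (n : ℝ) ≠ 0 := by positivity
  have e1 : ∀ i j, (v i - v j) ^ 2 = v i ^ 2 - 2 * (v i * v j) + v j ^ 2 := fun i j => by ring
  have e2 : ∀ i, (v i - 1 / n * ∑ j, v j) ^ 2 = v i ^ 2 - 2 * (1 / n * ∑ j, v j) * v i +
      (1 / n * ∑ j, v j) ^ 2 := fun i => by ring
  simp only [e1, e2, Finset.sum_add_distrib, Finset.sum_sub_distrib, Finset.sum_const,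
    Finset.card_univ, Fintype.card_fin, nsmul_eq_mul, ← Finset.mul_sum, ← Finset.sum_mul]
  field_simp
  ring

/-- **STEP 2: the variance over the sites.** -/
theorem VV_le (hm : Em 2 m) (hn : 0 < n) {L : ℝ} (hL : LL m b w n L) (hL0 : 0 < L)
    (hL1 : L ≤ 1 / 4) :
    VV (skS n 2 m b w) ≤ 4 / n + 24576 * Bw b w n (t3 (skS n 2 m b w)) := by
  have hR := (linS_sk (n := n) hm b w).reg
  have hn' : (0 : ℝ) < n := by exact_mod_cast hn
  have hu : m 2 ≤ 1 := by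
    have := hm.mono 2 le_rfl
    rwa [hm.mK] at this
  have hu0 : 0 ≤ m 2 := hm.pos.le.trans (hm.mono 1 (by norm_num))
  have hE : ∀ i j k, EG fun z => (Gk (skS n 2 m b w) i k z - Gk (skS n 2 m b w) j k z) ^ 2 :=
    fun i j k => ((eg_Gk hm i k).sub (eg_Gk hm j k)).pow 2
  have hEV : ∀ i k, EG fun z => (Vk (skS n 2 m b w) i k z - Vb (skS n 2 m b w) k z) ^ 2 :=
    fun i k => ((eg_Vk hm i k).sub (eg_Vb hm k)).pow 2
  have h1 : ∀ k, ∑ i, Ez (skS n 2 m b w)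
      (fun z => (Vk (skS n 2 m b w) i k z - Vb (skS n 2 m b w) k z) ^ 2) =
      1 / (2 * n) * (1 - m 2) ^ 2 * ∑ i, ∑ j, Ez (skS n 2 m b w)
        (fun z => (Gk (skS n 2 m b w) i k z - Gk (skS n 2 m b w) j k z) ^ 2) := by
    intro k
    rw [← Ez_sum hR _ fun i _ => hEV i k]
    have e1 : (fun z => ∑ i, (Vk (skS n 2 m b w) i k z - Vb (skS n 2 m b w) k z) ^ 2) =
        fun z => 1 / (2 * n) * (1 - m 2) ^ 2 * ∑ i, ∑ j,
          (Gk (skS n 2 m b w) i k z - Gk (skS n 2 m b w) j k z) ^ 2 := by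
      funext z
      unfold Vb
      rw [var_pairs hn fun i => Vk (skS n 2 m b w) i k z]
      have e2 : ∀ i j, (Vk (skS n 2 m b w) i k z - Vk (skS n 2 m b w) j k z) ^ 2 =
          (1 - m 2) ^ 2 * (Gk (skS n 2 m b w) i k z - Gk (skS n 2 m b w) j k z) ^ 2 := by
        intro i j
        unfold Vk
        simp only [skS_m]
        ring
      simp only [e2, ← Finset.mul_sum]
      ring
    rw [e1, Ez_const_mul, Ez_sum hR _ fun i _ => EG.sum _ fun j _ => hE i j k]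
    congr 1
    refine Finset.sum_congr rfl fun i _ => ?_
    rw [Ez_sum hR _ fun j _ => hE i j k]
  unfold VV
  rw [Finset.sum_comm]
  simp only [h1, ← Finset.mul_sum]
  have h2 : ∑ k, ∑ i, ∑ j, Ez (skS n 2 m b w)
        (fun z => (Gk (skS n 2 m b w) i k z - Gk (skS n 2 m b w) j k z) ^ 2) ≤
      n * (n * (8 + n * (49152 * Bw b w n (t3 (skS n 2 m b w))))) := by
    rw [Finset.sum_comm]
    have h3 : ∀ i, ∑ k, ∑ j, Ez (skS n 2 m b w)
        (fun z => (Gk (skS n 2 m b w) i k z - Gk (skS n 2 m b w) j k z) ^ 2) ≤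
        n * (8 + n * (49152 * Bw b w n (t3 (skS n 2 m b w)))) := by
      intro i
      rw [Finset.sum_comm]
      refine (Finset.sum_le_sum fun j _ =>
        G_pair (b := b) (w := w) hm hn hL hL0 hL1 i j).trans (le_of_eq ?_)
      rw [Finset.sum_const, Finset.card_univ, Fintype.card_fin, nsmul_eq_mul]
    refine (Finset.sum_le_sum fun i _ => h3 i).trans (le_of_eq ?_)
    rw [Finset.sum_const, Finset.card_univ, Fintype.card_fin, nsmul_eq_mul]
  have h0 : 0 ≤ ∑ k, ∑ i, ∑ j, Ez (skS n 2 m b w)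
        (fun z => (Gk (skS n 2 m b w) i k z - Gk (skS n 2 m b w) j k z) ^ 2) :=
    Finset.sum_nonneg fun k _ => Finset.sum_nonneg fun i _ => Finset.sum_nonneg fun j _ =>
      Ez_nonneg hR (hE i j k) fun z => sq_nonneg _
  have h4 : (1 - m 2) ^ 2 ≤ 1 := pow_le_one₀ (by linarith) (by linarith)
  have h5 : (1 : ℝ) / n ^ 2 * (1 / (2 * n) * (1 - m 2) ^ 2 * ∑ k, ∑ i, ∑ j, Ez (skS n 2 m b w)
        (fun z => (Gk (skS n 2 m b w) i k z - Gk (skS n 2 m b w) j k z) ^ 2)) ≤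
      1 / n ^ 2 * (1 / (2 * n) * 1 * (n * (n * (8 + n * (49152 *
        Bw b w n (t3 (skS n 2 m b w))))))) := by
    refine mul_le_mul_of_nonneg_left ?_ (by positivity)
    refine mul_le_mul ?_ h2 h0 (by positivity)
    exact mul_le_mul_of_nonneg_left h4 (by positivity)
  refine h5.trans (le_of_eq ?_)
  field_simp
  ring

end Vale.Agent.P146.H93
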