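import Vale.Agent.P146.H93.U3

/-!
# P146: the upper row inequality for two levels (helper93)
-/

open MeasureTheory ProbabilityTheory

namespace Vale.Agent.P146.H93

open Vale.Agent.P157 Vale.Agent.P157.Lv Vale.Agent.P157.Lv.Sy
open Vale.Agent.P146.H425 Vale.Agent.P146.H325 Vale.Agent.P146.H985

set_option linter.unusedSectionVars false

section fin

variable {ι X : Type} [Fintype ι] [DecidableEq ι] [Fintype X] [DecidableEq X] [Nonempty X]
  {S : Sy ι X}

/-- Cauchy–Schwarz for finite sums of averages -/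
lemma Ez_cs_sum (hS : S.Reg) {κ : Type} (s : Finset κ) {f g : κ → (ι → ℝ) → ℝ}
    (hf : ∀ i ∈ s, EG (f i)) (hg : ∀ i ∈ s, EG (g i)) :
    (∑ i ∈ s, Ez S fun z => f i z * g i z) ^ 2 ≤
      (∑ i ∈ s, Ez S fun z => f i z ^ 2) * ∑ i ∈ s, Ez S fun z => g i z ^ 2 := by
  set A := ∑ i ∈ s, Ez S fun z => f i z ^ 2
  set B := ∑ i ∈ s, Ez S fun z => g i z ^ 2
  set C := ∑ i ∈ s, Ez S fun z => f i z * g i z
  have h0 : ∀ t : ℝ, 0 ≤ B * (t * t) + (-2 * C) * t + A := by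
    intro t
    have h1 : ∀ i ∈ s, Ez S (fun z => (f i z - t * g i z) ^ 2) =
        Ez S (fun z => f i z ^ 2) + (-2 * t) * Ez S (fun z => f i z * g i z) +
          t ^ 2 * Ez S (fun z => g i z ^ 2) := by
      intro i hi
      rw [← Ez_const_mul, ← Ez_const_mul, ← Ez_add hS ((hf i hi).pow 2)
        (((hf i hi).mul (hg i hi)).const_mul _), ← Ez_add hS (((hf i hi).pow 2).add
        (((hf i hi).mul (hg i hi)).const_mul _)) (((hg i hi).pow 2).const_mul _)]
      congr 1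
      funext z
      ring
    have h2 : 0 ≤ ∑ i ∈ s, Ez S (fun z => (f i z - t * g i z) ^ 2) :=
      Finset.sum_nonneg fun i hi => Ez_nonneg hS
        (((hf i hi).sub ((hg i hi).const_mul t)).pow 2) fun z => sq_nonneg _
    rw [Finset.sum_congr rfl h1, Finset.sum_add_distrib, Finset.sum_add_distrib,
      ← Finset.mul_sum, ← Finset.mul_sum] at h2
    linarith
  have h3 := discrim_le_zero h0
  unfold discrim at h3
  nlinarith

end fin

variable {n : ℕ} {m b w : ℕ → ℝ}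

/-- the second moment of the overlap of two leaves -/
noncomputable def t2 (S : Sy (Cd n 2) (Fin n → ℤˣ)) : ℝ :=
  S.pairEx 1 fun x x' => Rov sp x x' ^ 2

/-- the mean overlap of two leaves -/
noncomputable def r1 (S : Sy (Cd n 2) (Fin n → ℤˣ)) : ℝ := S.pairEx 1 (Rov sp)

lemma Ez_Dk_sq (hm : Em 2 m) : r1 (skS n 2 m b w) =
    1 / n * ∑ i, Ez (skS n 2 m b w) fun z => Dk (skS n 2 m b w) i z ^ 2 := by
  have hR := (linS_sk (n := n) hm b w).reg
  rw [← Ez_sum hR _ fun i _ => (eg_Dk hm i).pow 2, ← Ez_const_mul]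
  unfold r1 pairEx Ez
  congr 1
  funext z _
  have h1 : ∀ i, Dk (skS n 2 m b w) i z = ∑ x, (skS n 2 m b w).pr 1 z x * sp x i := fun i =>
    E1_eq hR (by simp) _ z
  simp only [h1, sq, Finset.sum_mul_sum]
  calc ∑ x, ∑ x', (skS n 2 m b w).pr 1 z x * (skS n 2 m b w).pr 1 z x' * Rov sp x x' =
      ∑ x, ∑ x', ∑ i, 1 / (n : ℝ) * ((skS n 2 m b w).pr 1 z x * sp x i *
        ((skS n 2 m b w).pr 1 z x' * sp x' i)) := by
        refine Finset.sum_congr rfl fun x _ => Finset.sum_congr rfl fun x' _ => ?_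
        unfold Rov
        rw [Finset.mul_sum, Finset.mul_sum]
        refine Finset.sum_congr rfl fun i _ => ?_
        ring
    _ = ∑ x, ∑ i, ∑ x', 1 / (n : ℝ) * ((skS n 2 m b w).pr 1 z x * sp x i *
        ((skS n 2 m b w).pr 1 z x' * sp x' i)) :=
        Finset.sum_congr rfl fun x _ => Finset.sum_comm
    _ = ∑ i, ∑ x, ∑ x', 1 / (n : ℝ) * ((skS n 2 m b w).pr 1 z x * sp x i *
        ((skS n 2 m b w).pr 1 z x' * sp x' i)) := Finset.sum_comm
    _ = _ := by simp only [Finset.mul_sum]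

lemma Ez_Ck_sq (hm : Em 2 m) : t2 (skS n 2 m b w) =
    1 / n ^ 2 * ∑ i, ∑ k, Ez (skS n 2 m b w) fun z => Ck (skS n 2 m b w) i k z ^ 2 := by
  have hR := (linS_sk (n := n) hm b w).reg
  have e1 : ∑ i, ∑ k, Ez (skS n 2 m b w) (fun z => Ck (skS n 2 m b w) i k z ^ 2) =
      Ez (skS n 2 m b w) (fun z => ∑ i, ∑ k, Ck (skS n 2 m b w) i k z ^ 2) := by
    rw [Ez_sum hR _ fun i _ => EG.sum _ fun k _ => (eg_Ck hm i k).pow 2]
    refine Finset.sum_congr rfl fun i _ => ?_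
    rw [Ez_sum hR _ fun k _ => (eg_Ck hm i k).pow 2]
  rw [e1, ← Ez_const_mul]
  unfold t2 pairEx Ez
  congr 1
  funext z _
  have h1 : ∀ i k, Ck (skS n 2 m b w) i k z =
      ∑ x, (skS n 2 m b w).pr 1 z x * (sp x i * sp x k) := fun i k => E1_eq hR (by simp) _ z
  have h2 : ∀ x x' : Fin n → ℤˣ, Rov sp x x' ^ 2 =
      1 / n ^ 2 * ∑ i, ∑ k, (sp x i * sp x' i) * (sp x k * sp x' k) := by
    intro x x'
    unfold Rov
    rw [mul_pow, sq (∑ i, sp x i * sp x' i), Finset.sum_mul_sum, div_pow, one_pow]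
  simp only [h1, h2, sq, Finset.sum_mul_sum]
  calc ∑ x, ∑ x', (skS n 2 m b w).pr 1 z x * (skS n 2 m b w).pr 1 z x' *
        (1 / ((n : ℝ) * n) * ∑ i, ∑ k, (sp x i * sp x' i) * (sp x k * sp x' k)) =
      ∑ x, ∑ x', ∑ i, ∑ k, 1 / ((n : ℝ) * n) * ((skS n 2 m b w).pr 1 z x * (sp x i * sp x k) *
        ((skS n 2 m b w).pr 1 z x' * (sp x' i * sp x' k))) := by
        refine Finset.sum_congr rfl fun x _ => Finset.sum_congr rfl fun x' _ => ?_
        rw [Finset.mul_sum, Finset.mul_sum]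
        refine Finset.sum_congr rfl fun i _ => ?_
        rw [Finset.mul_sum, Finset.mul_sum]
        refine Finset.sum_congr rfl fun k _ => ?_
        ring
    _ = _ := by
        rw [Finset.mul_sum]
        simp only [Finset.mul_sum]
        calc _ = ∑ x, ∑ i, ∑ x', ∑ k, 1 / ((n : ℝ) * n) * ((skS n 2 m b w).pr 1 z x *
              (sp x i * sp x k) * ((skS n 2 m b w).pr 1 z x' * (sp x' i * sp x' k))) :=
              Finset.sum_congr rfl fun x _ => Finset.sum_comm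
          _ = ∑ i, ∑ x, ∑ x', ∑ k, 1 / ((n : ℝ) * n) * ((skS n 2 m b w).pr 1 z x *
              (sp x i * sp x k) * ((skS n 2 m b w).pr 1 z x' * (sp x' i * sp x' k))) :=
              Finset.sum_comm
          _ = _ := by
              refine Finset.sum_congr rfl fun i _ => ?_
              calc _ = ∑ x, ∑ k, ∑ x', 1 / ((n : ℝ) * n) * ((skS n 2 m b w).pr 1 z x *
                    (sp x i * sp x k) * ((skS n 2 m b w).pr 1 z x' * (sp x' i * sp x' k))) :=
                    Finset.sum_congr rfl fun x _ => Finset.sum_comm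
                _ = _ := Finset.sum_comm

/-- the triple overlap of three leaves -/
noncomputable def tr3 (S : Sy (Cd n 2) (Fin n → ℤˣ)) : ℝ :=
  1 / n ^ 2 * ∑ i, ∑ k, Ez S fun z => Dk S k z * (Dk S i z * Ck S i k z)

/-- the mean squared response -/
noncomputable def mb2 (S : Sy (Cd n 2) (Fin n → ℤˣ)) : ℝ :=
  1 / n * ∑ k, Ez S fun z => Vb S k z ^ 2

/-- the deviation of the mean response from `χ D_k` -/
noncomputable def hh2 (S : Sy (Cd n 2) (Fin n → ℤˣ)) (χ : ℝ) : ℝ :=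
  1 / n * ∑ k, Ez S fun z => (Vb S k z - χ * Dk S k z) ^ 2

lemma eg_DC (hm : Em 2 m) (i k : Fin n) :
    EG fun z => Dk (skS n 2 m b w) i z * Ck (skS n 2 m b w) i k z :=
  (eg_Dk hm i).mul (eg_Ck hm i k)

/-- `(1/n²) Σ Ex (D_i C_ik)² ≤ Θ` -/
lemma DC_le (hm : Em 2 m) :
    1 / (n : ℝ) ^ 2 * ∑ i, ∑ k, Ez (skS n 2 m b w)
      (fun z => (Dk (skS n 2 m b w) i z * Ck (skS n 2 m b w) i k z) ^ 2) ≤
    t2 (skS n 2 m b w) := by
  have hR := (linS_sk (n := n) hm b w).reg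
  rw [Ez_Ck_sq hm]
  refine mul_le_mul_of_nonneg_left ?_ (by positivity)
  refine Finset.sum_le_sum fun i _ => Finset.sum_le_sum fun k _ => ?_
  refine Ez_mono hR ((eg_DC hm i k).pow 2) ((eg_Ck hm i k).pow 2) fun z => ?_
  have h1 := abs_Dk_le (b := b) (w := w) hm i z
  have h2 : Dk (skS n 2 m b w) i z ^ 2 ≤ 1 := by
    rw [← sq_abs]
    exact pow_le_one₀ (abs_nonneg _) h1
  rw [mul_pow]
  nlinarith [sq_nonneg (Ck (skS n 2 m b w) i k z)]

lemma sq_le_mul_sqrt {A B C : ℝ} (h : C ^ 2 ≤ A * B) (hA : 0 ≤ A) : |C| ≤ √A * √B := by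
  rw [← Real.sqrt_mul hA]
  exact Real.abs_le_sqrt h

/-- **The upper row inequality for two levels**, with the exact coefficient of the triple
overlap. -/
theorem urow (hm : Em 2 m) (b w : ℕ → ℝ) (hn : 0 < n) (χ : ℝ) (hχ0 : 0 ≤ m 2 - m 1 / 2) :
    r1 (skS n 2 m b w) ≤ n * b 1 ^ 2 * (mb2 (skS n 2 m b w) + VV (skS n 2 m b w) -
      (2 * m 2 - m 1) * (χ * tr3 (skS n 2 m b w)) +
      (2 * m 2 - m 1) * (√(t2 (skS n 2 m b w)) *
        (√(VV (skS n 2 m b w)) + √(hh2 (skS n 2 m b w) χ))) +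
      (m 2 - m 1 / 2) ^ 2 * t2 (skS n 2 m b w)) + w 1 ^ 2 := by
  have hR := (linS_sk (n := n) hm b w).reg
  have hn' : (0 : ℝ) < n := by exact_mod_cast hn
  obtain ⟨S, hS⟩ : ∃ S, S = skS n 2 m b w := ⟨_, rfl⟩
  obtain ⟨κ, hκ⟩ : ∃ κ, κ = m 2 - m 1 / 2 := ⟨_, rfl⟩
  have hm2 : S.m 2 = m 2 := by rw [hS]; rfl
  have hm1 : S.m 1 = m 1 := by rw [hS]; rfl
  have eD : ∀ i, EG (Dk S i) := fun i => hS ▸ eg_Dk hm i
  have eC : ∀ i k, EG (Ck S i k) := fun i k => hS ▸ eg_Ck hm i k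
  have eV : ∀ i k, EG (Vk S i k) := fun i k => hS ▸ eg_Vk hm i k
  have eVb : ∀ k, EG (Vb S k) := fun k => hS ▸ eg_Vb hm k
  have eW : ∀ i k, EG (Wk S i k) := fun i k => hS ▸ eg_Wk hm i k
  have h0 : ∀ i, Ez S (fun z => Dk S i z ^ 2) ≤
      b 1 ^ 2 * ∑ k : {k : Fin n // k ≠ i}, Ez S (fun z => Wk S i k.1 z ^ 2) + w 1 ^ 2 := by
    intro i
    rw [hS]
    exact row_site hm b w i
  have hDC := DC_le (n := n) (b := b) (w := w) hm
  have hr1 := Ez_Dk_sq (n := n) (b := b) (w := w) hm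
  rw [← hS] at hR hDC hr1 ⊢
  -- complete the sum
  have h1 : ∀ i, Ez S (fun z => Dk S i z ^ 2) ≤
      b 1 ^ 2 * ∑ k, Ez S (fun z => Wk S i k z ^ 2) + w 1 ^ 2 := by
    intro i
    refine (h0 i).trans ?_
    have h2 : ∑ k : {k : Fin n // k ≠ i}, Ez S (fun z => Wk S i k.1 z ^ 2) ≤
        ∑ k, Ez S (fun z => Wk S i k z ^ 2) := by
      rw [← Finset.sum_subtype (Finset.univ.erase i) (p := fun l => l ≠ i)
        (fun l => by simp) (fun k => Ez S (fun z => Wk S i k z ^ 2))]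
      exact Finset.sum_le_sum_of_subset_of_nonneg (Finset.erase_subset _ _)
        fun k _ _ => Ez_nonneg hR ((eW i k).pow 2) fun z => sq_nonneg _
    have := mul_le_mul_of_nonneg_left h2 (sq_nonneg (b 1))
    linarith
  have h2 : r1 S ≤ n * b 1 ^ 2 * (1 / n ^ 2 * ∑ i, ∑ k, Ez S (fun z => Wk S i k z ^ 2)) +
      w 1 ^ 2 := by
    rw [hr1]
    have h3 := Finset.sum_le_sum fun i (_ : i ∈ Finset.univ) => h1 i
    rw [Finset.sum_add_distrib, Finset.sum_const, Finset.card_univ, Fintype.card_fin,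
      nsmul_eq_mul, ← Finset.mul_sum] at h3
    have h4 := mul_le_mul_of_nonneg_left h3 (by positivity : (0 : ℝ) ≤ 1 / n)
    refine h4.trans (le_of_eq ?_)
    field_simp
  -- expand the square
  have h3 : 1 / (n : ℝ) ^ 2 * ∑ i, ∑ k, Ez S (fun z => Wk S i k z ^ 2) =
      1 / n ^ 2 * ∑ i, ∑ k, Ez S (fun z => Vk S i k z ^ 2) -
      2 * κ * (1 / n ^ 2 * ∑ i, ∑ k, Ez S (fun z => Vk S i k z * (Dk S i z * Ck S i k z))) +
      κ ^ 2 * (1 / n ^ 2 * ∑ i, ∑ k, Ez S (fun z => (Dk S i z * Ck S i k z) ^ 2)) := by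
    have h4 : ∀ i k, Ez S (fun z => Wk S i k z ^ 2) = Ez S (fun z => Vk S i k z ^ 2) +
        ((-(2 * κ)) * Ez S (fun z => Vk S i k z * (Dk S i z * Ck S i k z)) +
        κ ^ 2 * Ez S (fun z => (Dk S i z * Ck S i k z) ^ 2)) := by
      intro i k
      have e1 := ((eV i k).mul ((eD i).mul (eC i k))).const_mul (-(2 * κ))
      have e2 := (((eD i).mul (eC i k)).pow 2).const_mul (κ ^ 2)
      rw [← Ez_const_mul, ← Ez_const_mul, ← Ez_add hR e1 e2,
        ← Ez_add hR ((eV i k).pow 2) (e1.add e2)]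
      congr 1
      funext z
      unfold Wk
      rw [hm1, hm2, ← hκ]
      ring
    simp only [h4, Finset.sum_add_distrib, ← Finset.mul_sum]
    ring
  -- the mean over the sites
  have h5 : 1 / (n : ℝ) ^ 2 * ∑ i, ∑ k, Ez S (fun z => Vk S i k z ^ 2) = mb2 S + VV S := by
    have h6 : ∀ k, ∑ i, Ez S (fun z => Vk S i k z ^ 2) =
        n * Ez S (fun z => Vb S k z ^ 2) + ∑ i, Ez S (fun z => (Vk S i k z - Vb S k z) ^ 2) := by
      intro k
      rw [← Ez_sum hR _ fun i _ => (eV i k).pow 2,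
        ← Ez_sum hR _ fun i _ => ((eV i k).sub (eVb k)).pow 2, ← Ez_const_mul,
        ← Ez_add hR (((eVb k).pow 2).const_mul _)
          (EG.sum _ fun i _ => ((eV i k).sub (eVb k)).pow 2)]
      congr 1
      funext z
      have e3 : ∑ i, Vk S i k z = n * Vb S k z := by
        unfold Vb
        field_simp
      have e4 : ∀ i, (Vk S i k z - Vb S k z) ^ 2 =
          Vk S i k z ^ 2 - 2 * Vb S k z * Vk S i k z + Vb S k z ^ 2 := fun i => by ring
      simp only [e4, Finset.sum_add_distrib, Finset.sum_sub_distrib, ← Finset.mul_sum,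
        Finset.sum_const, Finset.card_univ, Fintype.card_fin, nsmul_eq_mul, e3]
      ring
    unfold mb2 VV
    rw [Finset.sum_comm]
    rw [Finset.sum_comm (f := fun i k => Ez S fun z => (Vk S i k z - Vb S k z) ^ 2)]
    simp only [h6, Finset.sum_add_distrib, ← Finset.mul_sum]
    field_simp
  -- the cross term
  have h7 : 1 / (n : ℝ) ^ 2 * ∑ i, ∑ k, Ez S (fun z => Vk S i k z * (Dk S i z * Ck S i k z)) =
      χ * tr3 S +
      1 / (n : ℝ) ^ 2 * ∑ p : Fin n × Fin n, Ez S (fun z => (Vb S p.2 z - χ * Dk S p.2 z) *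
        (Dk S p.1 z * Ck S p.1 p.2 z)) +
      1 / (n : ℝ) ^ 2 * ∑ p : Fin n × Fin n, Ez S (fun z => (Vk S p.1 p.2 z - Vb S p.2 z) *
        (Dk S p.1 z * Ck S p.1 p.2 z)) := by
    unfold tr3
    rw [Fintype.sum_prod_type, Fintype.sum_prod_type]
    have h8 : ∀ i k, Ez S (fun z => Vk S i k z * (Dk S i z * Ck S i k z)) =
        χ * Ez S (fun z => Dk S k z * (Dk S i z * Ck S i k z)) +
        (Ez S (fun z => (Vb S k z - χ * Dk S k z) * (Dk S i z * Ck S i k z)) +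
        Ez S (fun z => (Vk S i k z - Vb S k z) * (Dk S i z * Ck S i k z))) := by
      intro i k
      have e1 := (((eD k).mul ((eD i).mul (eC i k))).const_mul χ)
      have e2 := ((eVb k).sub ((eD k).const_mul χ)).mul ((eD i).mul (eC i k))
      have e3 := ((eV i k).sub (eVb k)).mul ((eD i).mul (eC i k))
      rw [← Ez_const_mul, ← Ez_add hR e2 e3, ← Ez_add hR e1 (e2.add e3)]
      congr 1
      funext z
      ring
    simp only [h8, Finset.sum_add_distrib, ← Finset.mul_sum]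
    ring
  have eW1 : ∀ p : Fin n × Fin n, EG fun z => Vb S p.2 z - χ * Dk S p.2 z := fun p =>
    (eVb p.2).sub ((eD p.2).const_mul χ)
  have eW2 : ∀ p : Fin n × Fin n, EG fun z => Vk S p.1 p.2 z - Vb S p.2 z := fun p =>
    (eV p.1 p.2).sub (eVb p.2)
  have eW3 : ∀ p : Fin n × Fin n, EG fun z => Dk S p.1 z * Ck S p.1 p.2 z := fun p =>
    (eD p.1).mul (eC p.1 p.2)
  have c1 := Ez_cs_sum hR Finset.univ (fun p _ => eW1 p) (fun p _ => eW3 p)
  have c2 := Ez_cs_sum hR Finset.univ (fun p _ => eW2 p) (fun p _ => eW3 p)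
  have q1 : ∑ p : Fin n × Fin n, Ez S (fun z => (Vb S p.2 z - χ * Dk S p.2 z) ^ 2) =
      n ^ 2 * hh2 S χ := by
    rw [Fintype.sum_prod_type]
    simp only [Finset.sum_const, Finset.card_univ, Fintype.card_fin, nsmul_eq_mul]
    unfold hh2
    field_simp
  have q2 : ∑ p : Fin n × Fin n, Ez S (fun z => (Vk S p.1 p.2 z - Vb S p.2 z) ^ 2) =
      n ^ 2 * VV S := by
    rw [Fintype.sum_prod_type]
    unfold VV
    field_simp
  have q3 : ∑ p : Fin n × Fin n, Ez S (fun z => (Dk S p.1 z * Ck S p.1 p.2 z) ^ 2) ≤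
      n ^ 2 * t2 S := by
    rw [Fintype.sum_prod_type]
    have := mul_le_mul_of_nonneg_left hDC (by positivity : (0 : ℝ) ≤ n ^ 2)
    refine le_trans (le_of_eq ?_) this
    field_simp
  have n1 : 0 ≤ hh2 S χ := by
    unfold hh2
    exact mul_nonneg (by positivity) (Finset.sum_nonneg fun k _ => Ez_nonneg hR
      (((eVb k).sub ((eD k).const_mul χ)).pow 2) fun z => sq_nonneg _)
  have n2 : 0 ≤ VV S := by
    unfold VV
    exact mul_nonneg (by positivity) (Finset.sum_nonneg fun i _ => Finset.sum_nonneg fun k _ =>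
      Ez_nonneg hR (((eV i k).sub (eVb k)).pow 2) fun z => sq_nonneg _)
  have n3 : 0 ≤ t2 S := by
    unfold t2
    exact hR.pairEx_nonneg (by rw [hS]; simp) fun _ _ => sq_nonneg _
  rw [q1] at c1
  rw [q2] at c2
  have c1' : |1 / (n : ℝ) ^ 2 * ∑ p : Fin n × Fin n, Ez S (fun z =>
      (Vb S p.2 z - χ * Dk S p.2 z) * (Dk S p.1 z * Ck S p.1 p.2 z))| ≤ √(hh2 S χ) * √(t2 S) := by
    refine sq_le_mul_sqrt ?_ n1
    rw [mul_pow]
    have c3 := c1.trans (mul_le_mul_of_nonneg_left q3 (by positivity))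
    have c4 := mul_le_mul_of_nonneg_left c3 (by positivity : (0 : ℝ) ≤ (1 / n ^ 2) ^ 2)
    refine c4.trans (le_of_eq ?_)
    field_simp
  have c2' : |1 / (n : ℝ) ^ 2 * ∑ p : Fin n × Fin n, Ez S (fun z =>
      (Vk S p.1 p.2 z - Vb S p.2 z) * (Dk S p.1 z * Ck S p.1 p.2 z))| ≤ √(VV S) * √(t2 S) := by
    refine sq_le_mul_sqrt ?_ n2
    rw [mul_pow]
    have c3 := c2.trans (mul_le_mul_of_nonneg_left q3 (by positivity))
    have c4 := mul_le_mul_of_nonneg_left c3 (by positivity : (0 : ℝ) ≤ (1 / n ^ 2) ^ 2)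
    refine c4.trans (le_of_eq ?_)
    field_simp
  have c1'' := (abs_le.1 c1').1
  have c2'' := (abs_le.1 c2').1
  have h9 : 1 / (n : ℝ) ^ 2 * ∑ i, ∑ k, Ez S (fun z => Wk S i k z ^ 2) ≤
      mb2 S + VV S - (2 * m 2 - m 1) * (χ * tr3 S) +
      (2 * m 2 - m 1) * (√(t2 S) * (√(VV S) + √(hh2 S χ))) + (m 2 - m 1 / 2) ^ 2 * t2 S := by
    rw [h3, h5, h7, hκ]
    have hk2 : 0 ≤ 2 * m 2 - m 1 := by linarith
    have g1 : (m 2 - m 1 / 2) ^ 2 * (1 / (n : ℝ) ^ 2 * ∑ i, ∑ k, Ez S (fun z =>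
        (Dk S i z * Ck S i k z) ^ 2)) ≤ (m 2 - m 1 / 2) ^ 2 * t2 S :=
      mul_le_mul_of_nonneg_left hDC (sq_nonneg _)
    have g2 := mul_le_mul_of_nonneg_left c1'' hk2
    have g3 := mul_le_mul_of_nonneg_left c2'' hk2
    linarith
  have h10 := mul_le_mul_of_nonneg_left h9 (by positivity : (0 : ℝ) ≤ n * b 1 ^ 2)
  linarith

end Vale.Agent.P146.H93
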